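import Vale.Agent.P123.Curve

/-!
# P123, module Angle : the angle function seen from a boundary point
-/

namespace P123

open MeasureTheory Complex Polynomial Set Filter Topology
open scoped Real ComplexConjugate

section

variable (O : Dom)

/-- `(γ t - γ s) e^{-it}` -/
noncomputable def ww (s t : ℝ) : ℂ := (O.γ t - O.γ s) * conj (nu t)

theorem ww_re (s t : ℝ) : (ww O s t).re = O.h t - sp t (O.γ s) := by
  unfold ww
  rw [mul_comm, ← sp_eq, sp_sub', sp_γ_self]

theorem ww_pos {s t : ℝ} (h1 : s < t) (h2 : t < s + 2 * π) : 0 < (ww O s t).re := by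
  rw [ww_re]
  have h3 := sp_γ_lt O (s := s + 2 * π) (t := t) h2 (by linarith)
  rw [γ_per] at h3
  linarith

/-- the angle between the tangent at `γ s` and the chord to `γ t` -/
noncomputable def ang (s t : ℝ) : ℝ :=
  if t ≤ s then 0 else if s + 2 * π ≤ t then π else t - s - π / 2 + (ww O s t).arg

theorem hasDerivAt_conj_nu (t : ℝ) : HasDerivAt (fun s => conj (nu s)) (-I * conj (nu t)) t := by
  have h1 := (Complex.conjCLE.toContinuousLinearMap.hasFDerivAt).comp_hasDerivAt t
    (hasDerivAt_nu t)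
  have h2 : Complex.conjCLE.toContinuousLinearMap (I * nu t) = -I * conj (nu t) := by
    change conj (I * nu t) = _
    rw [map_mul, Complex.conj_I]
  rw [h2] at h1
  exact h1

theorem ne_of_mem {s t : ℝ} (h1 : s < t) (h2 : t < s + 2 * π) : O.γ t - O.γ s ≠ 0 := by
  intro h
  have := ww_pos O h1 h2
  unfold ww at this
  rw [h, zero_mul] at this
  simp at this

theorem hasDerivAt_arg {s t : ℝ} (h1 : s < t) (h2 : t < s + 2 * π) :
    HasDerivAt (fun t => t - s - π / 2 + (ww O s t).arg) (π * O.D (O.γ s) t) t := by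
  have h3 : HasDerivAt (ww O s) ((O.R t * I * nu t) * conj (nu t) +
      (O.γ t - O.γ s) * (-I * conj (nu t))) t :=
    ((hasDerivAt_γ O t).sub_const (O.γ s)).mul (hasDerivAt_conj_nu t)
  have hsl : ww O s t ∈ slitPlane := Or.inl (ww_pos O h1 h2)
  have h4 := h3.clog_real hsl
  have h5 : HasDerivAt (fun t => (Complex.log (ww O s t)).im)
      (((O.R t * I * nu t) * conj (nu t) + (O.γ t - O.γ s) * (-I * conj (nu t))) / ww O s t).im
      t := Complex.imCLM.hasFDerivAt.comp_hasDerivAt t h4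
  have h6 : (fun t => (Complex.log (ww O s t)).im) = fun t => (ww O s t).arg := by
    funext t; exact Complex.log_im _
  rw [h6] at h5
  have h7 := ((hasDerivAt_id t).sub_const s).sub_const (π / 2)
  have h8 := h7.add h5
  refine h8.congr_deriv ?_
  have hne := ne_of_mem O h1 h2
  have hnn : conj (nu t) ≠ 0 := by
    rw [Ne, map_eq_zero]; exact nu_ne_zero t
  have h9 : ((O.R t * I * nu t) * conj (nu t) + (O.γ t - O.γ s) * (-I * conj (nu t))) / ww O s t =
      (O.R t * I * nu t) / (O.γ t - O.γ s) - I := by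
    unfold ww
    field_simp
    ring
  rw [h9, D_eq_im, Complex.sub_im, Complex.I_im]
  field_simp
  ring

theorem ang_eq {s t : ℝ} (h1 : s < t) (h2 : t < s + 2 * π) :
    ang O s t = t - s - π / 2 + (ww O s t).arg := by
  unfold ang
  rw [if_neg (not_le.mpr h1), if_neg (not_le.mpr h2)]

theorem hasDerivAt_ang {s t : ℝ} (h1 : s < t) (h2 : t < s + 2 * π) :
    HasDerivAt (ang O s) (π * O.D (O.γ s) t) t := by
  refine (hasDerivAt_arg O h1 h2).congr_of_eventuallyEq ?_
  filter_upwards [Ioo_mem_nhds h1 h2] with x hx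
  exact ang_eq O hx.1 hx.2

theorem D_pos {s t : ℝ} (h1 : s < t) (h2 : t < s + 2 * π) : 0 < O.D (O.γ s) t := by
  rw [D_eq]
  have h3 := ww_pos O h1 h2
  rw [ww_re] at h3
  have h4 : 0 < ‖O.γ t - O.γ s‖ := norm_pos_iff.mpr (ne_of_mem O h1 h2)
  have := R_pos O t
  positivity

/-- limit of the argument near a boundary point -/
theorem tendsto_arg_aux {p : ℝ} {c : ℝ} (hc : c ≠ 0) {l : Filter ℝ} (hl : l ≤ 𝓝[≠] p)
    (hpos : ∀ᶠ t in l, 0 < c * (t - p)) :
    Tendsto (fun t => ((O.γ t - O.γ p) * conj (nu t)).arg) l (𝓝 ((c : ℂ) * I).arg) := by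
  have h1 : Tendsto (fun t => (O.γ t - O.γ p) / ((t : ℂ) - p)) (𝓝[≠] p)
      (𝓝 (O.R p * I * nu p)) := by
    have h2 := (hasDerivAt_γ O p).tendsto_slope
    refine h2.congr' ?_
    filter_upwards [self_mem_nhdsWithin] with t _
    rw [slope_def_module, Complex.real_smul]
    push_cast
    rw [div_eq_inv_mul]
  have h2 : Tendsto (fun t => (c : ℂ) * ((O.γ t - O.γ p) / ((t : ℂ) - p)) * conj (nu t)) l
      (𝓝 ((c : ℂ) * (O.R p * I * nu p) * conj (nu p))) := by
    refine ((h1.mono_left hl).const_mul _).mul ?_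
    have h3 : Continuous fun t => conj (nu t) := Complex.continuous_conj.comp continuous_nu
    exact (h3.tendsto p).mono_left (hl.trans nhdsWithin_le_nhds)
  have h3 : (c : ℂ) * (O.R p * I * nu p) * conj (nu p) = ((O.R p : ℝ) : ℂ) * ((c : ℂ) * I) := by
    have := conj_nu_mul p
    linear_combination ((c : ℂ) * O.R p * I) * this
  rw [h3] at h2
  have hsl : ((O.R p : ℝ) : ℂ) * ((c : ℂ) * I) ∈ slitPlane := by
    right
    simp [hc, (R_pos O p).ne']
  have h4 := (Complex.continuousAt_arg hsl).tendsto.comp h2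
  rw [Complex.arg_real_mul _ (R_pos O p)] at h4
  refine h4.congr' ?_
  filter_upwards [hpos] with t ht
  simp only [Function.comp]
  have h5 : (t : ℂ) - p ≠ 0 := by
    rw [← Complex.ofReal_sub, Ne, Complex.ofReal_eq_zero]
    intro h; rw [h, mul_zero] at ht; exact lt_irrefl _ ht
  have h6 : (c : ℂ) * ((O.γ t - O.γ p) / ((t : ℂ) - p)) * conj (nu t) =
      ((c / (t - p) : ℝ) : ℂ) * ((O.γ t - O.γ p) * conj (nu t)) := by
    push_cast
    field_simp
  have h7 : 0 < c / (t - p) := by
    have : t - p ≠ 0 := by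
      intro h; rw [h, mul_zero] at ht; exact lt_irrefl _ ht
    have h8 : c / (t - p) = c * (t - p) / (t - p) ^ 2 := by
      field_simp
    rw [h8]
    positivity
  rw [h6, Complex.arg_real_mul _ h7]

theorem continuousOn_ang (s : ℝ) : ContinuousOn (ang O s) (Icc s (s + 2 * π)) := by
  have hπ := Real.pi_pos
  intro t ht
  rcases ht.1.lt_or_eq with h1 | h1
  · rcases ht.2.lt_or_eq with h2 | h2
    · exact (hasDerivAt_ang O h1 h2).continuousAt.continuousWithinAt
    · -- right end
      subst h2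
      rw [continuousWithinAt_Icc_iff_Iic (by linarith), ← continuousWithinAt_Iio_iff_Iic]
      have h3 : ang O s (s + 2 * π) = 2 * π - π / 2 + ((-1 : ℝ) * I).arg := by
        unfold ang
        rw [if_neg (by linarith), if_pos le_rfl]
        have : ((-1 : ℝ) : ℂ) * I = -I := by push_cast; ring
        rw [this, Complex.arg_neg_I]
        ring
      show Tendsto _ _ _
      rw [h3]
      have h4 := tendsto_arg_aux O (p := s + 2 * π) (c := -1) (by norm_num)
        (l := 𝓝[<] (s + 2 * π)) (nhdsWithin_mono _ fun x hx => ne_of_lt hx) (by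
          filter_upwards [self_mem_nhdsWithin] with t ht
          have : t < s + 2 * π := ht
          linarith)
      have h5 : Tendsto (fun t : ℝ => t - s - π / 2) (𝓝[<] (s + 2 * π))
          (𝓝 (s + 2 * π - s - π / 2)) :=
        ((continuous_id.sub continuous_const).sub continuous_const).continuousAt.tendsto.mono_left
          nhdsWithin_le_nhds
      have h6 := h5.add h4
      have h7 : s + 2 * π - s - π / 2 = 2 * π - π / 2 := by ring
      rw [h7] at h6
      refine h6.congr' ?_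
      filter_upwards [self_mem_nhdsWithin, mem_nhdsWithin_of_mem_nhds (Ioi_mem_nhds
        (show s < s + 2 * π by linarith))] with t ht1 ht2
      rw [ang_eq O ht2 ht1, ww, γ_per]
  · subst h1
    rw [continuousWithinAt_Icc_iff_Ici (by linarith), ← continuousWithinAt_Ioi_iff_Ici]
    have h3 : ang O s s = 0 - π / 2 + ((1 : ℝ) * I).arg := by
      unfold ang
      rw [if_pos le_rfl, Complex.ofReal_one, one_mul, Complex.arg_I]
      ring
    show Tendsto _ _ _
    rw [h3]
    have h4 := tendsto_arg_aux O (p := s) (c := 1) (by norm_num)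
      (l := 𝓝[>] s) (nhdsWithin_mono _ fun x hx => ne_of_gt hx) (by
        filter_upwards [self_mem_nhdsWithin] with t ht
        have : s < t := ht
        linarith)
    have h5 : Tendsto (fun t : ℝ => t - s - π / 2) (𝓝[>] s) (𝓝 (s - s - π / 2)) :=
      ((continuous_id.sub continuous_const).sub continuous_const).continuousAt.tendsto.mono_left
        nhdsWithin_le_nhds
    have h6 := h5.add h4
    rw [sub_self] at h6
    refine h6.congr' ?_
    filter_upwards [self_mem_nhdsWithin, mem_nhdsWithin_of_mem_nhds (Iio_mem_nhds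
      (show s < s + 2 * π by linarith))] with t ht1 ht2
    rw [ang_eq O ht1 ht2, ww]

theorem ang_left (s : ℝ) : ang O s s = 0 := by
  unfold ang; rw [if_pos le_rfl]

theorem ang_right (s : ℝ) : ang O s (s + 2 * π) = π := by
  unfold ang
  rw [if_neg (by linarith [Real.pi_pos]), if_pos le_rfl]

theorem strictMonoOn_ang (s : ℝ) : StrictMonoOn (ang O s) (Icc s (s + 2 * π)) := by
  refine strictMonoOn_of_deriv_pos (convex_Icc _ _) (continuousOn_ang O s) fun x hx => ?_
  rw [interior_Icc] at hx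
  rw [(hasDerivAt_ang O hx.1 hx.2).deriv]
  exact mul_pos Real.pi_pos (D_pos O hx.1 hx.2)

theorem int_ang (s t₁ t₂ : ℝ) (h1 : s ≤ t₁) (h2 : t₁ ≤ t₂) (h3 : t₂ ≤ s + 2 * π) :
    IntervalIntegrable (O.D (O.γ s)) volume t₁ t₂ ∧
      ∫ t in t₁..t₂, O.D (O.γ s) t = (ang O s t₂ - ang O s t₁) / π := by
  have hcont : ContinuousOn (ang O s) (Icc t₁ t₂) :=
    (continuousOn_ang O s).mono (Icc_subset_Icc h1 h3)
  have hder : ∀ x ∈ Ioo t₁ t₂, HasDerivAt (ang O s) (π * O.D (O.γ s) x) x :=
    fun x hx => hasDerivAt_ang O (h1.trans_lt hx.1) (hx.2.trans_le h3)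
  have hint := intervalIntegral.integrableOn_deriv_of_nonneg hcont hder
    (fun x hx => (mul_pos Real.pi_pos (D_pos O (h1.trans_lt hx.1) (hx.2.trans_le h3))).le)
  have hint2 : IntervalIntegrable (fun x => π * O.D (O.γ s) x) volume t₁ t₂ :=
    (intervalIntegrable_iff_integrableOn_Ioc_of_le h2).mpr hint
  have hint3 : IntervalIntegrable (O.D (O.γ s)) volume t₁ t₂ := by
    have := hint2.const_mul π⁻¹
    refine this.congr fun x _ => ?_
    rw [← mul_assoc, inv_mul_cancel₀ Real.pi_ne_zero, one_mul]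
  refine ⟨hint3, ?_⟩
  have h4 := intervalIntegral.integral_eq_sub_of_hasDerivAt_of_le h2 hcont hder hint2
  rw [intervalIntegral.integral_const_mul] at h4
  rw [eq_div_iff Real.pi_ne_zero, mul_comm]
  exact h4

theorem ang_rep {s t : ℝ} (ht : t ∈ Ioo s (s + 2 * π)) :
    O.γ t - O.γ s = ‖O.γ t - O.γ s‖ * (I * nu s) * Complex.exp (ang O s t * I) := by
  rw [ang_eq O ht.1 ht.2]
  have h1 := Complex.norm_mul_exp_arg_mul_I (ww O s t)
  have h2 : ‖ww O s t‖ = ‖O.γ t - O.γ s‖ := by
    unfold ww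
    rw [norm_mul, RCLike.norm_conj, norm_nu, mul_one]
  have h3 : O.γ t - O.γ s = ww O s t * nu t := by
    unfold ww
    rw [mul_assoc, conj_nu_mul, mul_one]
  rw [h2] at h1
  have h4 : (I : ℂ) = Complex.exp ((π / 2 : ℝ) * I) := by
    push_cast
    rw [Complex.exp_pi_div_two_mul_I]
  have h5 : (I * nu s) * Complex.exp (((t - s - π / 2 + (ww O s t).arg : ℝ) : ℂ) * I) =
      Complex.exp ((ww O s t).arg * I) * nu t := by
    nth_rewrite 1 [h4]
    unfold nu
    rw [← Complex.exp_add, ← Complex.exp_add, ← Complex.exp_add]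
    congr 1
    push_cast
    ring
  rw [mul_assoc, h5, ← mul_assoc, h1, ← h3]

theorem exists_angle (O : Dom) : ∃ ang : ℝ → ℝ → ℝ, ∀ s : ℝ,
    ContinuousOn (ang s) (Icc s (s + 2 * π)) ∧ StrictMonoOn (ang s) (Icc s (s + 2 * π)) ∧
    ang s s = 0 ∧ ang s (s + 2 * π) = π ∧
    (∀ t₁ t₂, s ≤ t₁ → t₁ ≤ t₂ → t₂ ≤ s + 2 * π →
      IntervalIntegrable (O.D (O.γ s)) volume t₁ t₂ ∧
      ∫ t in t₁..t₂, O.D (O.γ s) t = (ang s t₂ - ang s t₁) / π) ∧
    ∀ t ∈ Ioo s (s + 2 * π),
      O.γ t - O.γ s = ‖O.γ t - O.γ s‖ * (I * nu s) * Complex.exp (ang s t * I) :=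
  ⟨ang O, fun s => ⟨continuousOn_ang O s, strictMonoOn_ang O s, ang_left O s, ang_right O s,
    int_ang O s, fun _ ht => ang_rep O ht⟩⟩

theorem intble_D (O : Dom) (s a b : ℝ) : IntervalIntegrable (O.D (O.γ s)) volume a b := by
  have hper : Function.Periodic (O.D (O.γ s)) (2 * π) := D_per O _
  exact hper.intervalIntegrable (by positivity)
    (int_ang O s s (s + 2 * π) le_rfl (by linarith [Real.pi_pos]) le_rfl).1 a b

theorem int_D_γ (O : Dom) (s : ℝ) : ∫ t in (0 : ℝ)..2 * π, O.D (O.γ s) t = 1 := by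
  have hper : Function.Periodic (O.D (O.γ s)) (2 * π) := D_per O _
  have h1 := hper.intervalIntegral_add_eq 0 s
  rw [zero_add] at h1
  rw [h1, (int_ang O s s (s + 2 * π) le_rfl (by linarith [Real.pi_pos]) le_rfl).2, ang_left,
    ang_right, sub_zero, div_self Real.pi_ne_zero]

end

end P123
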