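import Vale.Agent.P123.MkT

/-!
# P123, module MkSys : existence of the system, and the maximum principle
-/

namespace P123

open MeasureTheory Complex Polynomial Set Filter
open scoped Real ComplexConjugate BoundedContinuousFunction Topology

universe u

namespace Mk

variable (O : Dom)
variable {H : Type u} [NormedAddCommGroup H] [InnerProductSpace ℂ H] [CompleteSpace H]

/-- `(1/2π) ∫ u(t) R ν S` -/
noncomputable def FF (S : ℝ → H →L[ℂ] H) (u : ℝ → ℂ) : H →L[ℂ] H :=
  ((1 / (2 * π) : ℝ) : ℂ) • ∫ t in (0 : ℝ)..2 * π, (u t * (O.R t * nu t)) • S t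

theorem FF_eq_GG (S : ℝ → H →L[ℂ] H) (u : ℝ → ℂ) : FF O S u = GG O S (fun t => conj (u t)) := by
  unfold FF GG
  simp only [Complex.conj_conj]

theorem continuous_FF {S : ℝ → H →L[ℂ] H} (hS : Continuous S) {u : ℝ → ℂ} (hu : Continuous u) :
    Continuous fun t => (u t * (O.R t * nu t)) • S t :=
  (hu.mul (continuous_Rnu O)).smul hS

/-- Cauchy formula for polynomials -/
theorem FF_poly {A : H →L[ℂ] H} {S : ℝ → H →L[ℂ] H}
    (hC : ∀ P : ℂ[X], ∫ t in (0 : ℝ)..2 * π, (P.eval (O.γ t) * (O.R t * I * nu t)) • S t =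
        (2 * π * I) • aeval A P) (P : ℂ[X]) :
    FF O S (fun t => P.eval (O.γ t)) = aeval A P := by
  unfold FF
  have h1 := hC P
  have h2 : ∫ t in (0 : ℝ)..2 * π, (P.eval (O.γ t) * (O.R t * I * nu t)) • S t =
      I • ∫ t in (0 : ℝ)..2 * π, (P.eval (O.γ t) * (O.R t * nu t)) • S t := by
    rw [← intervalIntegral.integral_smul]
    refine intervalIntegral.integral_congr fun t _ => ?_
    simp only [smul_smul]
    congr 1
    ring
  rw [h2] at h1
  have h3 : ∫ t in (0 : ℝ)..2 * π, (P.eval (O.γ t) * (O.R t * nu t)) • S t =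
      (2 * π : ℂ) • aeval A P := by
    have h4 := congrArg (fun L => (-I) • L) h1
    simp only [smul_smul] at h4
    have h5 : -I * I = 1 := by rw [neg_mul, I_mul_I, neg_neg]
    have h6 : -I * (2 * π * I) = 2 * π := by linear_combination (-(2 * (π : ℂ))) * I_mul_I
    rw [h5, h6, one_smul] at h4
    exact h4
  rw [h3, smul_smul]
  have h7 : ((1 / (2 * π) : ℝ) : ℂ) * (2 * π) = 1 := by
    push_cast
    have : (π : ℂ) ≠ 0 := by exact_mod_cast Real.pi_ne_zero
    field_simp
  rw [h7, one_smul]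

/-- Cauchy formula in the algebra -/
theorem FF_eq {A : H →L[ℂ] H} {d : ℝ} (hd : 0 < d) (hA : O.Inside A d) {S : ℝ → H →L[ℂ] H}
    (hS : Continuous S) (hSi : ∀ t, (O.γ t • (1 : H →L[ℂ] H) - A) * S t = 1)
    (hC : ∀ P : ℂ[X], ∫ t in (0 : ℝ)..2 * π, (P.eval (O.γ t) * (O.R t * I * nu t)) • S t =
        (2 * π * I) • aeval A P) (b : BB O A) :
    FF O S (evB O A b) = opB O A b := by
  have hSn : ∀ t, ‖S t‖ ≤ 1 / d := fun t => norm_inv_le O hd hA t (hSi t)
  have hRT := RT_nonneg O
  rw [← sub_eq_zero, ← norm_eq_zero]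
  refine le_antisymm (le_of_forall_pos_le_add fun ε hε => ?_) (norm_nonneg _)
  set c : ℝ := 1 / d * RT O + 1 with hc
  have hc0 : 0 < c := by positivity
  obtain ⟨P, hP⟩ := dense_poly O A b (show 0 < ε / c by positivity)
  have hbP : ∀ t, ‖evB O A b t - P.eval (O.γ t)‖ ≤ ε / c := by
    intro t
    have h1 := (norm_evB_le O A (b - aeval (XB O A) P) t).trans hP
    rwa [map_sub, Pi.sub_apply, evB_aeval] at h1
  have h1 : ‖FF O S (evB O A b) - aeval A P‖ ≤ ε / c * (1 / d) * RT O := by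
    rw [← FF_poly O hC P, FF_eq_GG, FF_eq_GG]
    refine norm_GG_sub_le O hS hSn (Complex.continuous_conj.comp (continuous_evB O A b))
      (Complex.continuous_conj.comp ((Polynomial.continuous P).comp (continuous_γ O))) fun t => ?_
    show ‖conj (evB O A b t) - conj (P.eval (O.γ t))‖ ≤ ε / c
    rw [← map_sub, RCLike.norm_conj]
    exact hbP t
  have h2 : ‖opB O A b - aeval A P‖ ≤ ε / c := by
    have h3 := (norm_opB_le O A (b - aeval (XB O A) P)).trans hP
    rwa [map_sub, opB_aeval] at h3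
  have h4 := norm_sub_le_norm_sub_add_norm_sub (FF O S (evB O A b)) (aeval A P) (opB O A b)
  rw [norm_sub_rev (aeval A P)] at h4
  have h5 : ε / c * (1 / d) * RT O + ε / c = ε := by
    rw [hc]
    field_simp
  linarith

/-- boundedness of polynomials -/
theorem norm_aeval_le {A : H →L[ℂ] H} {d : ℝ} (hd : 0 < d) (hA : O.Inside A d)
    {S : ℝ → H →L[ℂ] H} (hS : Continuous S)
    (hSi : ∀ t, (O.γ t • (1 : H →L[ℂ] H) - A) * S t = 1)
    (hC : ∀ P : ℂ[X], ∫ t in (0 : ℝ)..2 * π, (P.eval (O.γ t) * (O.R t * I * nu t)) • S t =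
        (2 * π * I) • aeval A P) (P : ℂ[X]) {C : ℝ} (hP : ∀ t, ‖P.eval (O.γ t)‖ ≤ C) :
    ‖aeval A P‖ ≤ C * (1 / d) * RT O := by
  have hSn : ∀ t, ‖S t‖ ≤ 1 / d := fun t => norm_inv_le O hd hA t (hSi t)
  have h1 := norm_GG_sub_le O hS hSn (u := fun t => conj (P.eval (O.γ t))) (v := fun _ => 0)
    (Complex.continuous_conj.comp ((Polynomial.continuous P).comp (continuous_γ O)))
    continuous_const (C := C) fun t => by
      rw [sub_zero, RCLike.norm_conj]
      exact hP t
  rw [← FF_eq_GG O S (fun t => P.eval (O.γ t)), FF_poly O hC] at h1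
  have h2 : GG O S (fun _ => 0) = 0 := by
    unfold GG
    simp
  rwa [h2, sub_zero] at h1

/-- the optimal constant -/
noncomputable def KK (A : H →L[ℂ] H) : ℝ :=
  sSup {x : ℝ | ∃ P : ℂ[X], (∀ t, ‖P.eval (O.γ t)‖ ≤ 1) ∧ ‖aeval A P‖ = x}

theorem bdd_KK {A : H →L[ℂ] H} {B : ℝ}
    (hB : ∀ P : ℂ[X], (∀ t, ‖P.eval (O.γ t)‖ ≤ 1) → ‖aeval A P‖ ≤ B) :
    BddAbove {x : ℝ | ∃ P : ℂ[X], (∀ t, ‖P.eval (O.γ t)‖ ≤ 1) ∧ ‖aeval A P‖ = x} := by
  refine ⟨B, ?_⟩
  rintro x ⟨P, hP, rfl⟩
  exact hB P hP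

theorem nonempty_KK (A : H →L[ℂ] H) :
    {x : ℝ | ∃ P : ℂ[X], (∀ t, ‖P.eval (O.γ t)‖ ≤ 1) ∧ ‖aeval A P‖ = x}.Nonempty :=
  ⟨0, 0, fun t => by simp, by simp⟩

/-- from polynomials to the algebra -/
theorem norm_opB_le_of {A : H →L[ℂ] H} {K : ℝ}
    (hK : ∀ P : ℂ[X], (∀ t, ‖P.eval (O.γ t)‖ ≤ 1) → ‖aeval A P‖ ≤ K) (b : BB O A) {C : ℝ}
    (hC : ∀ t, ‖evB O A b t‖ ≤ C) : ‖opB O A b‖ ≤ K * C := by
  have hC0 : 0 ≤ C := (norm_nonneg _).trans (hC 0)
  have hK0 : 0 ≤ K := by
    have h1 := hK 0 fun t => by simp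
    exact (norm_nonneg _).trans h1
  refine le_of_forall_pos_le_add fun ε hε => ?_
  set δ : ℝ := ε / (K + 1) with hδ
  have hδ0 : 0 < δ := by positivity
  obtain ⟨P, hP⟩ := dense_poly O A b hδ0
  have hbP : ∀ t, ‖evB O A b t - P.eval (O.γ t)‖ ≤ δ := by
    intro t
    have h1 := (norm_evB_le O A (b - aeval (XB O A) P) t).trans hP
    rwa [map_sub, Pi.sub_apply, evB_aeval] at h1
  have hPn : ∀ t, ‖P.eval (O.γ t)‖ ≤ C + δ := by
    intro t
    have h1 := norm_sub_norm_le (P.eval (O.γ t)) (evB O A b t)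
    rw [norm_sub_rev] at h1
    linarith [hbP t, hC t]
  have hCδ : 0 < C + δ := by linarith
  have h1 : ‖aeval A P‖ ≤ K * (C + δ) := by
    have h2 := hK (Polynomial.C (((C + δ)⁻¹ : ℝ) : ℂ) * P) fun t => by
      rw [Polynomial.eval_mul, Polynomial.eval_C, norm_mul, Complex.norm_real,
        Real.norm_of_nonneg (by positivity), inv_mul_le_iff₀ hCδ, mul_one]
      exact hPn t
    rw [map_mul, aeval_C, Algebra.algebraMap_eq_smul_one, smul_one_mul, norm_smul,
      Complex.norm_real, Real.norm_of_nonneg (by positivity), inv_mul_le_iff₀ hCδ] at h2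
    linarith
  have h2 : ‖opB O A b - aeval A P‖ ≤ δ := by
    have h3 := (norm_opB_le O A (b - aeval (XB O A) P)).trans hP
    rwa [map_sub, opB_aeval] at h3
  have h3 := norm_sub_norm_le (opB O A b) (aeval A P)
  have h4 : K * δ + δ = ε := by
    rw [hδ]
    field_simp
  nlinarith

/-- the operator valued measure -/
noncomputable def MM (S : ℝ → H →L[ℂ] H) (t : ℝ) : H →L[ℂ] H :=
  ((O.R t / (4 * π) : ℝ) : ℂ) • (nu t • S t + ContinuousLinearMap.adjoint (nu t • S t))

theorem continuous_MM {S : ℝ → H →L[ℂ] H} (hS : Continuous S) : Continuous (MM O S) := by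
  unfold MM
  have h1 : Continuous fun t => nu t • S t := continuous_nu.smul hS
  have h2 : Continuous fun t => ContinuousLinearMap.adjoint (nu t • S t) :=
    (ContinuousLinearMap.adjoint (𝕜 := ℂ) (E := H) (F := H)).continuous.comp h1
  exact (Complex.continuous_ofReal.comp ((continuous_R O).div_const _)).smul (h1.add h2)

theorem selfadj_MM (S : ℝ → H →L[ℂ] H) (t : ℝ) (x y : H) :
    inner ℂ (MM O S t x) y = inner ℂ x (MM O S t y) := by
  unfold MM
  simp only [smul_apply, add_apply, inner_smul_left, inner_smul_right,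
    inner_add_left, inner_add_right, ContinuousLinearMap.adjoint_inner_left,
    ContinuousLinearMap.adjoint_inner_right, Complex.conj_ofReal, map_smulₛₗ, Complex.conj_conj]
  ring

theorem nonneg_MM {S : ℝ → H →L[ℂ] H} (hp : ∀ t x, 0 ≤ (inner ℂ x (nu t • S t x)).re)
    (t : ℝ) (x : H) : 0 ≤ (inner ℂ x (MM O S t x)).re := by
  have h1 : inner ℂ x (MM O S t x) = ((O.R t / (4 * π) : ℝ) : ℂ) *
      (inner ℂ x (nu t • S t x) + conj (inner ℂ x (nu t • S t x))) := by
    unfold MM
    rw [smul_apply, inner_smul_right, add_apply, inner_add_right,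
      ContinuousLinearMap.adjoint_inner_right, smul_apply, inner_conj_symm]
  rw [h1, Complex.add_conj, ← Complex.ofReal_mul, Complex.ofReal_re]
  have h2 := hp t x
  have h3 := (R_pos O t).le
  positivity

/-- the adjoint as a real linear map -/
noncomputable def adjR : (H →L[ℂ] H) →L[ℝ] (H →L[ℂ] H) where
  toFun T := ContinuousLinearMap.adjoint T
  map_add' T V := map_add _ T V
  map_smul' r T := by
    rw [← Complex.coe_smul, map_smulₛₗ, Complex.conj_ofReal, Complex.coe_smul]
    rfl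
  cont := (ContinuousLinearMap.adjoint (𝕜 := ℂ) (E := H) (F := H)).continuous

/-- integral against the operator valued measure -/
theorem int_MM {S : ℝ → H →L[ℂ] H} (hS : Continuous S) {u : ℝ → ℂ} (hu : Continuous u) :
    (2 : ℂ) • ∫ t in (0 : ℝ)..2 * π, conj (u t) • MM O S t =
      GG O S u + ContinuousLinearMap.adjoint (FF O S u) := by
  have hc1 := continuous_GG O hS hu
  have hc2 := continuous_FF O hS hu
  have h1 : ContinuousLinearMap.adjoint (FF O S u) = ((1 / (2 * π) : ℝ) : ℂ) •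
      ∫ t in (0 : ℝ)..2 * π, ContinuousLinearMap.adjoint ((u t * (O.R t * nu t)) • S t) := by
    unfold FF
    rw [map_smulₛₗ, Complex.conj_ofReal]
    congr 1
    exact (adjR.intervalIntegral_comp_comm (hc2.intervalIntegrable (μ := volume) 0 (2 * π))).symm
  have hc3 : Continuous fun t => ContinuousLinearMap.adjoint ((u t * (O.R t * nu t)) • S t) :=
    (ContinuousLinearMap.adjoint (𝕜 := ℂ) (E := H) (F := H)).continuous.comp hc2
  rw [h1]
  unfold GG
  rw [← smul_add, ← intervalIntegral.integral_add (hc1.intervalIntegrable _ _)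
    (hc3.intervalIntegrable _ _), ← intervalIntegral.integral_smul,
    ← intervalIntegral.integral_smul]
  refine intervalIntegral.integral_congr fun t _ => ?_
  simp only [MM, map_smulₛₗ, map_mul, Complex.conj_ofReal, smul_add, smul_smul]
  have hπ : (π : ℂ) ≠ 0 := by exact_mod_cast Real.pi_ne_zero
  congr 2
  · push_cast
    field_simp
    ring
  · push_cast
    field_simp
    ring

end Mk

open Mk

theorem exists_sys (O : Dom) {H : Type u} [NormedAddCommGroup H] [InnerProductSpace ℂ H]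
    [CompleteSpace H] [Nontrivial H] (A : H →L[ℂ] H) {d : ℝ} (hd : 0 < d)
    (hA : O.Inside A d) : Nonempty (Sys O H A) := by
  obtain ⟨S, hS, hSi, hSp, hSC⟩ := exists_res O A hd hA
  have hS2 : ∀ t, (O.γ t • (1 : H →L[ℂ] H) - A) * S t = 1 := fun t => (hSi t).2
  obtain ⟨x0, hx0⟩ : ∃ x : H, ‖x‖ = 1 := by
    obtain ⟨y, hy⟩ := exists_ne (0 : H)
    refine ⟨((‖y‖⁻¹ : ℝ) : ℂ) • y, ?_⟩
    rw [norm_smul, Complex.norm_real, norm_inv, norm_norm]
    exact inv_mul_cancel₀ (norm_ne_zero_iff.mpr hy)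
  set z0 : ℂ := inner ℂ x0 (A x0) with hz0def
  have hz0 : ∀ t, sp t z0 ≤ O.h t - d := by
    intro t
    have h1 := hA t x0
    rw [hx0] at h1
    linarith
  have hT := fun b => exists_T O hd hA hz0 hS hS2 b
  choose T hT1 hT2 using hT
  set B : ℝ := 1 * (1 / d) * RT O with hB
  have hbdd := bdd_KK O (A := A) (B := B) fun P hP => norm_aeval_le O hd hA hS hS2 hSC P hP
  have hK : ∀ P : ℂ[X], (∀ t, ‖P.eval (O.γ t)‖ ≤ 1) → ‖aeval A P‖ ≤ KK O A := fun P hP =>
    le_csSup hbdd ⟨P, hP, rfl⟩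
  refine ⟨{ B := BB O A
            op := opB O A
            ev := evB O A
            X := XB O A
            op_X := opB_X O A
            ev_X := evB_X O A
            cont_ev := continuous_evB O A
            per_ev := evB_per O A
            M := MM O S
            cont_M := continuous_MM O hS
            selfadj_M := selfadj_MM O S
            nonneg_M := nonneg_MM O hSp
            int_M := ?_
            K := KK O A
            norm_le := fun b C hC => norm_opB_le_of O hK b hC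
            sup := ?_
            T := T
            ev_T := fun b => funext fun s => hT2 b s
            op_T := ?_ }⟩
  · have h1 := int_MM O hS (u := fun _ => 1) continuous_const
    have h2 : FF O S (fun _ => 1) = 1 := by
      have h3 := FF_poly O hSC 1
      simpa using h3
    have h4 : GG O S (fun _ => 1) = 1 := by
      have h5 := FF_eq_GG O S (fun _ => 1)
      rw [h2] at h5
      simpa using h5.symm
    rw [h2, h4] at h1
    simp only [map_one, one_smul] at h1
    have h6 : ContinuousLinearMap.adjoint (1 : H →L[ℂ] H) = 1 := ContinuousLinearMap.adjoint_id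
    rw [h6, ← two_smul ℂ (1 : H →L[ℂ] H)] at h1
    exact smul_right_injective _ (two_ne_zero (α := ℂ)) h1
  · intro τ hτ
    obtain ⟨x, ⟨P, hP, rfl⟩, hx⟩ := exists_lt_of_lt_csSup (nonempty_KK O A)
      (show KK O A - τ < KK O A by linarith)
    exact ⟨P, hP, hx.le⟩
  · intro b
    rw [hT1, int_MM O hS (continuous_evB O A b), FF_eq O hd hA hS hS2 hSC b]

namespace Mk

theorem exists_gap (O : Dom) {z : ℂ} (hz : z ∈ O.op) : ∃ d : ℝ, 0 < d ∧ ∀ t, sp t z ≤ O.h t - d := by
  have hc : Continuous fun t => O.h t - sp t z := by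
    have h1 : Continuous O.h := continuous_iff_continuousAt.mpr fun t => (O.hd t).continuousAt
    unfold sp
    fun_prop
  obtain ⟨t0, -, ht0⟩ := isCompact_Icc.exists_isMinOn (s := Icc (0 : ℝ) (2 * π))
    ⟨0, by constructor <;> positivity⟩ hc.continuousOn
  refine ⟨O.h t0 - sp t0 z, by linarith [hz t0], fun t => ?_⟩
  have hper : Function.Periodic (fun t => O.h t - sp t z) (2 * π) := by
    intro t
    simp only [O.per, sp, Real.cos_add_two_pi, Real.sin_add_two_pi]
  obtain ⟨y, hy, hyt⟩ := hper.exists_mem_Ico₀ (by positivity) t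
  have h2 := ht0 (show y ∈ Icc (0 : ℝ) (2 * π) from ⟨hy.1, hy.2.le⟩)
  simp only [mem_ofPred_eq] at h2
  rw [← hyt] at h2
  linarith

theorem int_cauchy_poly (O : Dom) (P : ℂ[X]) {z : ℂ} (hz : z ∈ O.op) :
    ∫ t in (0 : ℝ)..2 * π, P.eval (O.γ t) * (O.R t * (nu t / (O.γ t - z))) =
      2 * π * P.eval z := by
  have h1 := conj_part O P z (N := ∅) (fun t _ => sub_ne_zero.mp (γ_sub_ne O hz t))
    measure_empty
  have hcau := continuous_cauchy O hz
  have hk : Continuous fun t => P.eval (O.γ t) := (Polynomial.continuous P).comp (continuous_γ O)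
  have c1 : Continuous fun t => P.eval (O.γ t) * (O.R t * (nu t / (O.γ t - z))) := hk.mul hcau
  have c2 : Continuous fun t => P.eval z * (O.R t * (nu t / (O.γ t - z))) :=
    continuous_const.mul hcau
  have h2 : ∀ t, (P.eval (O.γ t) - P.eval z) * (O.R t * (nu t / (O.γ t - z))) =
      P.eval (O.γ t) * (O.R t * (nu t / (O.γ t - z))) -
        P.eval z * (O.R t * (nu t / (O.γ t - z))) := fun t => by ring
  simp_rw [h2] at h1
  rw [intervalIntegral.integral_sub (c1.intervalIntegrable _ _) (c2.intervalIntegrable _ _),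
    intervalIntegral.integral_const_mul, int_cauchy O hz, sub_eq_zero] at h1
  rw [h1]
  ring

/-- the double layer potential and the Cauchy transform -/
theorem int_D_poly (O : Dom) (P : ℂ[X]) {z : ℂ} (hz : z ∈ O.op) :
    (∫ t in (0 : ℝ)..2 * π, (O.D z t : ℂ) * P.eval (O.γ t)) - P.eval z = conj (Gc O P z) := by
  have hcau := continuous_cauchy O hz
  have hk : Continuous fun t => P.eval (O.γ t) := (Polynomial.continuous P).comp (continuous_γ O)
  have c1 : Continuous fun t => P.eval (O.γ t) * (O.R t * (nu t / (O.γ t - z))) := hk.mul hcau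
  have c2 : Continuous fun t => conj (conj (P.eval (O.γ t)) * (O.R t * (nu t / (O.γ t - z)))) :=
    Complex.continuous_conj.comp ((Complex.continuous_conj.comp hk).mul hcau)
  have h1 : ∀ t, (O.D z t : ℂ) * P.eval (O.γ t) = ((1 / (2 * π) : ℝ) : ℂ) *
      (P.eval (O.γ t) * (O.R t * (nu t / (O.γ t - z))) +
        conj (conj (P.eval (O.γ t)) * (O.R t * (nu t / (O.γ t - z))))) := by
    intro t
    rw [D_re]
    simp only [map_mul, Complex.conj_conj, Complex.conj_ofReal]
    push_cast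
    ring
  simp_rw [h1]
  rw [intervalIntegral.integral_const_mul, intervalIntegral.integral_add
    (c1.intervalIntegrable _ _) (c2.intervalIntegrable _ _), int_cauchy_poly O P hz,
    integral_conj']
  unfold Gc
  rw [map_mul, Complex.conj_ofReal]
  push_cast
  have : (π : ℂ) ≠ 0 := by exact_mod_cast Real.pi_ne_zero
  field_simp
  ring

end Mk

/-- maximum principle for the double layer potential, from the scalar system -/
theorem max_T (O : Dom) (P : ℂ[X]) (h : ∀ t, ‖P.eval (O.γ t)‖ ≤ 1) {z : ℂ} (hz : z ∈ O.op) :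
    ‖(∫ t in (0 : ℝ)..2 * π, (O.D z t : ℂ) * P.eval (O.γ t)) - P.eval z‖ ≤ 1 := by
  obtain ⟨d, hd, hz0⟩ := Mk.exists_gap O hz
  set A : ℂ →L[ℂ] ℂ := z • (1 : ℂ →L[ℂ] ℂ) with hAdef
  have hA : O.Inside A d := by
    intro t x
    have h1 : inner ℂ x (A x) = ((‖x‖ ^ 2 : ℝ) : ℂ) * z := by
      rw [hAdef, smul_apply, one_apply_eq_self, inner_smul_right, inner_self_eq_norm_sq_to_K]
      push_cast
      simp only [coe_algebraMap]
      ring
    rw [h1, sp_mul_real, mul_comm]
    exact mul_le_mul_of_nonneg_right (hz0 t) (by positivity)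
  set S : ℝ → ℂ →L[ℂ] ℂ := fun t => (O.γ t - z)⁻¹ • (1 : ℂ →L[ℂ] ℂ) with hSdef
  have hS : Continuous S :=
    (((continuous_γ O).sub continuous_const).inv₀ (γ_sub_ne O hz)).smul continuous_const
  have hS2 : ∀ t, (O.γ t • (1 : ℂ →L[ℂ] ℂ) - A) * S t = 1 := by
    intro t
    have hne := γ_sub_ne O hz t
    refine ContinuousLinearMap.ext fun x => ?_
    show O.γ t * ((O.γ t - z)⁻¹ * x) - z * ((O.γ t - z)⁻¹ * x) = x
    field_simp
  obtain ⟨L, hL1, hL2⟩ := exists_T O hd hA hz0 hS hS2 (aeval (XB O A) P)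
  have hev : evB O A (aeval (XB O A) P) = fun t => P.eval (O.γ t) :=
    funext fun t => evB_aeval O A P t
  rw [hev] at hL1 hL2
  have hk : Continuous fun t => P.eval (O.γ t) := (Polynomial.continuous P).comp (continuous_γ O)
  have hae : ∀ Q : ℂ[X], aeval A Q = Q.eval z • (1 : ℂ →L[ℂ] ℂ) := by
    intro Q
    have h1 := Polynomial.aeval_algebraMap_apply (ℂ →L[ℂ] ℂ) z Q
    rw [Algebra.algebraMap_eq_smul_one, Algebra.algebraMap_eq_smul_one,
      Polynomial.coe_aeval_eq_eval] at h1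
    exact h1
  have hK : ∀ Q : ℂ[X], (∀ t, ‖Q.eval (O.γ t)‖ ≤ 1) → ‖aeval A Q‖ ≤ 1 := by
    intro Q hQ
    rw [hae, norm_smul, norm_one, mul_one]
    exact max_mod O Q hQ fun t => (hz t).le
  have h2 := norm_opB_le_of O hK L (C := 1) fun s => by
    rw [hL2]
    exact norm_T_le O hk h s
  rw [hL1, mul_one] at h2
  have h3 : GG O S (fun t => P.eval (O.γ t)) = Gc O P z • (1 : ℂ →L[ℂ] ℂ) := by
    unfold GG Gc
    simp only [hSdef, smul_smul]
    rw [intervalIntegral.integral_smul_const, smul_smul]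
    congr 2
    refine intervalIntegral.integral_congr fun t _ => ?_
    ring
  rw [h3, norm_smul, norm_one, mul_one] at h2
  rw [int_D_poly O P hz, RCLike.norm_conj]
  exact h2

end P123
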