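import Vale.Agent.P123.Angle
import Vale.Agent.P123.MkSys

/-!
# P123, module Contra : a good chord is impossible
-/

namespace P123

open MeasureTheory Complex Polynomial Set
open scoped Real ComplexConjugate

universe u

section Sp

theorem sp_add (t : ℝ) (z w : ℂ) : sp t (z + w) = sp t z + sp t w := by
  unfold sp; simp; ring

theorem sp_sub (t : ℝ) (z w : ℂ) : sp t (z - w) = sp t z - sp t w := by
  unfold sp; simp; ring

theorem sp_smul (t : ℝ) (r : ℝ) (z : ℂ) : sp t (r • z) = r * sp t z := by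
  unfold sp; simp; ring

theorem sp_halfC (t : ℝ) (z : ℂ) : sp t (z / 2) = sp t z / 2 := by
  have : z / 2 = (1 / 2 : ℝ) • z := by
    rw [Complex.real_smul]; push_cast; ring
  rw [this, sp_smul]; ring

theorem abs_sp_le (t : ℝ) (z : ℂ) : |sp t z| ≤ ‖z‖ := by
  apply abs_le_of_sq_le_sq _ (norm_nonneg _)
  rw [← Complex.normSq_eq_norm_sq, Complex.normSq_apply]
  unfold sp
  nlinarith [sq_nonneg (z.re * Real.sin t - z.im * Real.cos t), Real.sin_sq_add_cos_sq t]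

end Sp

section Aux

theorem exists_primitive (P : ℂ[X]) : ∃ F : ℂ[X], derivative F = P := by
  induction P using Polynomial.induction_on' with
  | add p q hp hq =>
    obtain ⟨F, hF⟩ := hp
    obtain ⟨G, hG⟩ := hq
    exact ⟨F + G, by rw [derivative_add, hF, hG]⟩
  | monomial n a =>
    refine ⟨monomial (n + 1) (a / (n + 1)), ?_⟩
    rw [derivative_monomial]
    have : (n : ℂ) + 1 ≠ 0 := Nat.cast_add_one_ne_zero n
    simp only [add_tsub_cancel_right, Nat.cast_add, Nat.cast_one]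
    rw [div_mul_cancel₀ _ this]

/-- primitive along a segment -/
theorem seg_est {F P : ℂ[X]} (hF : derivative F = P) {s : Set ℂ} (hs : Convex ℝ s) {c : ℂ} {M : ℝ}
    (hM : ∀ w ∈ s, ‖P.eval w - c‖ ≤ M) {u v : ℂ} (hu : u ∈ s) (hv : v ∈ s) :
    ‖F.eval u - F.eval v - c * (u - v)‖ ≤ M * ‖u - v‖ := by
  have h1 := Convex.norm_image_sub_le_of_norm_hasDerivWithin_le
    (f := fun w => F.eval w - c * w) (f' := fun w => P.eval w - c) (s := s) (x := v) (y := u)
    (C := M) (fun w _ => ?_) hM hs hv hu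
  · have e : F.eval u - F.eval v - c * (u - v) = F.eval u - c * u - (F.eval v - c * v) := by ring
    rw [e]
    exact h1
  · have h2 := (F.hasDerivAt w).sub ((hasDerivAt_id w).const_mul c)
    rw [hF] at h2
    simp only [mul_one] at h2
    exact h2.hasDerivWithinAt

theorem first_hit {g : ℝ → ℝ} (hg : Continuous g) {a b r : ℝ} (hab : a ≤ b) (ha : g a < r)
    (hb : r ≤ g b) : ∃ t₁ ∈ Icc a b, g t₁ = r ∧ ∀ t ∈ Icc a t₁, g t ≤ r := by
  set S := Icc a b ∩ g ⁻¹' Ici r with hS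
  have hcl : IsClosed S := isClosed_Icc.inter (isClosed_Ici.preimage hg)
  have hne : S.Nonempty := ⟨b, ⟨hab, le_rfl⟩, hb⟩
  have hbdd : BddBelow S := ⟨a, fun x hx => hx.1.1⟩
  have hmem : sInf S ∈ S := hcl.csInf_mem hne hbdd
  set t₁ := sInf S with ht₁
  have hlt : ∀ t ∈ Icc a t₁, t < t₁ → g t < r := by
    intro t ht htt
    by_contra hcon
    push Not at hcon
    have : t ∈ S := ⟨⟨ht.1, htt.le.trans hmem.1.2⟩, hcon⟩
    exact absurd (csInf_le hbdd this) (not_le.mpr htt)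
  have heq : g t₁ = r := by
    refine le_antisymm ?_ hmem.2
    by_contra hcon
    push Not at hcon
    obtain ⟨t, ht, htr⟩ := intermediate_value_Icc hmem.1.1 hg.continuousOn ⟨ha.le, hcon.le⟩
    have htt : t < t₁ := by
      rcases ht.2.lt_or_eq with h | h
      · exact h
      · rw [h] at htr; linarith
    have := hlt t ht htt
    linarith
  refine ⟨t₁, hmem.1, heq, fun t ht => ?_⟩
  rcases ht.2.lt_or_eq with h | h
  · exact (hlt t ht h).le
  · rw [h, heq]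

end Aux

section Main

variable {O : Dom}

theorem cont_γ : Continuous O.γ :=
  continuous_iff_continuousAt.mpr fun t => (hasDerivAt_γ O t).continuousAt

theorem h_sub_sp_le (t : ℝ) (z : ℂ) : O.h t - sp t z ≤ ‖O.γ t - z‖ := by
  have h1 := abs_sp_le t (O.γ t - z)
  rw [sp_sub, sp_γ_self] at h1
  exact (le_abs_self _).trans h1

theorem intble_D_mul {z : ℂ} (h : IntervalIntegrable (O.D z) volume 0 (2 * π)) {u : ℝ → ℝ}
    (hu : Continuous u) : IntervalIntegrable (fun t => O.D z t * u t) volume 0 (2 * π) :=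
  h.mul_continuousOn hu.continuousOn

theorem arc_contra (P : ℂ[X]) (hP : ∀ t, ‖P.eval (O.γ t)‖ ≤ 1) {a b : ℝ} (hab : Good O a b)
    {c : ℂ} (hc : 0.99 ≤ ‖c‖) (hc1 : ‖c‖ ≤ 1)
    (h4 : ∫ t in (0 : ℝ)..2 * π, O.D (O.γ b) t * ‖P.eval (O.γ t) + c‖ ≤ 1 / 10 ^ 6)
    (hW : ∀ z ∈ O.cl, ‖z - (O.γ a + O.γ b) / 2‖ ≤ ‖O.γ a - O.γ b‖ →
      ‖P.eval ((319 / 320 : ℝ) • z + (1 / 320 : ℝ) • ((O.γ a + O.γ b) / 2)) - c‖ ≤ 1 / 250) :
    False := by
  obtain ⟨hne, hgood⟩ := hab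
  set za := O.γ a with hza
  set zb := O.γ b with hzb
  set l := ‖za - zb‖ with hl
  have hl0 : 0 < l := norm_pos_iff.mpr (sub_ne_zero.mpr hne)
  set m := (za + zb) / 2 with hm
  have hma : ‖za - m‖ = l / 2 := by
    have : za - m = (za - zb) / 2 := by rw [hm]; ring
    rw [this, norm_div, ← hl]; norm_num
  have hmcl : m ∈ O.cl := fun β => by linarith [hgood β]
  have hacl : za ∈ O.cl := γ_mem O a
  obtain ⟨F, hF⟩ := exists_primitive P
  -- a copy of `b` in `[a, a + 2π]`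
  obtain ⟨b', hb'1, hb'2, hb'3⟩ : ∃ b', a ≤ b' ∧ b' ≤ a + 2 * π ∧ O.γ b' = zb := by
    obtain ⟨n, hn, -⟩ := existsUnique_add_zsmul_mem_Ico (show (0 : ℝ) < 2 * π by positivity) b a
    refine ⟨b + n • (2 * π), hn.1, hn.2.le, ?_⟩
    have hper : Function.Periodic O.γ (2 * π) := γ_per O
    exact hper.zsmul n b
  -- first hitting time
  obtain ⟨t₁, ht₁, heq, hle⟩ := first_hit (g := fun t => ‖O.γ t - za‖) (r := l / 80)
    ((cont_γ.sub continuous_const).norm) hb'1 (by simp only [← hza, sub_self, norm_zero]; positivity)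
    (by simp only [hb'3]; rw [norm_sub_rev, ← hl]; linarith)
  set z1 := O.γ t₁ with hz1
  have hz1cl : z1 ∈ O.cl := γ_mem O t₁
  -- arc estimate
  have hR : ∀ t ∈ Icc a t₁, O.R t ≤ 300 * l * O.D zb t := by
    intro t ht
    have h1 := hle t ht
    have h2 : l / 80 ≤ O.h t - sp t zb := by
      have h3 := h_sub_sp_le (O := O) t za
      have h5 := hgood t
      have h6 : sp t m = (sp t za + sp t zb) / 2 := by rw [hm, sp_halfC, sp_add]
      rw [h6] at h5
      linarith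
    have h3 : ‖O.γ t - zb‖ ≤ 81 / 80 * l := by
      have : O.γ t - zb = (O.γ t - za) + (za - zb) := by ring
      rw [this]
      refine (norm_add_le _ _).trans ?_
      rw [← hl]; linarith
    have h4 : 0 < ‖O.γ t - zb‖ := by
      have := h_sub_sp_le (O := O) t zb
      linarith
    rw [D_eq]
    have hRp := R_pos O t
    have hπ3 : π ≤ 3.15 := by linarith [Real.pi_lt_d2]
    have h5 : ‖O.γ t - zb‖ ^ 2 ≤ (81 / 80 * l) ^ 2 := pow_le_pow_left₀ h4.le h3 2
    have h6 : O.R t * (π * ‖O.γ t - zb‖ ^ 2) ≤ 300 * l * (O.R t * (O.h t - sp t zb)) := by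
      have h7 : π * ‖O.γ t - zb‖ ^ 2 ≤ 3.15 * (81 / 80 * l) ^ 2 :=
        mul_le_mul hπ3 h5 (by positivity) (by norm_num)
      have h8 : 3.15 * (81 / 80 * l) ^ 2 ≤ 300 * l * (O.h t - sp t zb) := by
        have : 300 * l * (l / 80) ≤ 300 * l * (O.h t - sp t zb) :=
          mul_le_mul_of_nonneg_left h2 (by positivity)
        nlinarith [mul_pos hl0 hl0]
      calc O.R t * (π * ‖O.γ t - zb‖ ^ 2) ≤ O.R t * (300 * l * (O.h t - sp t zb)) :=
            mul_le_mul_of_nonneg_left (h7.trans h8) hRp.le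
        _ = _ := by ring
    have h7 : 300 * l * (O.R t / π * ((O.h t - sp t zb) / ‖O.γ t - zb‖ ^ 2)) =
        300 * l * (O.R t * (O.h t - sp t zb)) / (π * ‖O.γ t - zb‖ ^ 2) := by
      field_simp
    rw [h7, le_div_iff₀ (by positivity)]
    exact h6
  have hcR : Continuous O.R := continuous_R O
  have hnu : Continuous nu := by
    unfold nu; fun_prop
  have hcP : Continuous fun t => P.eval (O.γ t) := P.continuous.comp cont_γ
  have hγ' : Continuous fun t => (O.R t * I * nu t : ℂ) := by fun_prop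
  have harc : F.eval z1 - F.eval za + c * (z1 - za) =
      ∫ t in a..t₁, (P.eval (O.γ t) + c) * (O.R t * I * nu t) := by
    have h1 : ∀ t ∈ uIcc a t₁, HasDerivAt (fun t => F.eval (O.γ t) + c * O.γ t)
        ((P.eval (O.γ t) + c) * (O.R t * I * nu t)) t := by
      intro t _
      have h2 := (F.hasDerivAt (O.γ t)).comp t (hasDerivAt_γ O t)
      rw [hF] at h2
      have h3 := h2.add ((hasDerivAt_γ O t).const_mul c)
      refine h3.congr_deriv ?_
      ring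
    rw [intervalIntegral.integral_eq_sub_of_hasDerivAt h1
      (((hcP.add continuous_const).mul hγ').intervalIntegrable _ _)]
    rw [← hz1, ← hza]
    ring
  have hDint : IntervalIntegrable (fun t => O.D zb t * ‖P.eval (O.γ t) + c‖) volume a
      (a + 2 * π) := by
    exact (intble_D O b a (a + 2 * π)).mul_continuousOn
      ((hcP.add continuous_const).norm).continuousOn
  have hDshift : ∫ t in a..a + 2 * π, O.D zb t * ‖P.eval (O.γ t) + c‖ =
      ∫ t in (0 : ℝ)..2 * π, O.D zb t * ‖P.eval (O.γ t) + c‖ := by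
    have hper : Function.Periodic (fun t => O.D zb t * ‖P.eval (O.γ t) + c‖) (2 * π) := by
      intro t
      simp only [D_per, γ_per]
    have := hper.intervalIntegral_add_eq a 0
    rw [zero_add] at this
    exact this
  have harc2 : ‖F.eval z1 - F.eval za + c * (z1 - za)‖ ≤ 300 * l * (1 / 10 ^ 6) := by
    rw [harc]
    have h1 : ‖∫ t in a..t₁, (P.eval (O.γ t) + c) * (O.R t * I * nu t)‖ ≤
        ∫ t in a..t₁, 300 * l * (O.D zb t * ‖P.eval (O.γ t) + c‖) := by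
      have hsub : IntervalIntegrable (fun t => O.D zb t * ‖P.eval (O.γ t) + c‖) volume a t₁ :=
        hDint.mono_set (by
          rw [uIcc_of_le ht₁.1, uIcc_of_le (by linarith [Real.pi_pos])]
          exact Icc_subset_Icc le_rfl (ht₁.2.trans hb'2))
      refine intervalIntegral.norm_integral_le_of_norm_le ht₁.1
        ((ae_restrict_iff' measurableSet_Ioc).mp ?_) (hsub.const_mul _)
      refine (ae_restrict_iff' measurableSet_Ioc).mpr (Filter.Eventually.of_forall fun t ht => ?_)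
      have h2 := hR t ⟨ht.1.le, ht.2⟩
      rw [norm_mul, norm_mul, norm_mul, Complex.norm_I, norm_nu, mul_one, mul_one,
        Complex.norm_real, Real.norm_of_nonneg (R_pos O t).le]
      calc ‖P.eval (O.γ t) + c‖ * O.R t ≤ ‖P.eval (O.γ t) + c‖ * (300 * l * O.D zb t) :=
            mul_le_mul_of_nonneg_left h2 (norm_nonneg _)
        _ = _ := by ring
    refine h1.trans ?_
    rw [intervalIntegral.integral_const_mul]
    apply mul_le_mul_of_nonneg_left _ (by positivity)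
    refine le_trans ?_ h4
    rw [← hDshift]
    refine intervalIntegral.integral_mono_interval le_rfl ht₁.1 (ht₁.2.trans hb'2) ?_ hDint
    refine Filter.Eventually.of_forall fun t => ?_
    exact mul_nonneg (D_nonneg O (γ_mem O b) t) (norm_nonneg _)
  -- inner path
  set a' := (319 / 320 : ℝ) • za + (1 / 320 : ℝ) • m with ha'
  set z1' := (319 / 320 : ℝ) • z1 + (1 / 320 : ℝ) • m with hz1'
  have hconv := convex_cl O
  have ha'cl : a' ∈ O.cl := hconv hacl hmcl (by norm_num) (by norm_num) (by norm_num)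
  have hz1'cl : z1' ∈ O.cl := hconv hz1cl hmcl (by norm_num) (by norm_num) (by norm_num)
  have hcl2 : ∀ w ∈ O.cl, ‖P.eval w - c‖ ≤ 2 := by
    intro w hw
    refine (norm_sub_le _ _).trans ?_
    linarith [max_mod O P hP hw]
  have hz1m : ‖z1 - m‖ ≤ l / 80 + l / 2 := by
    have : z1 - m = (z1 - za) + (za - m) := by ring
    rw [this]
    refine (norm_add_le _ _).trans ?_
    rw [heq, hma]
  have s1 := seg_est hF hconv hcl2 ha'cl hacl
  have s3 := seg_est hF hconv hcl2 hz1cl hz1'cl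
  have s2 : ‖F.eval z1' - F.eval a' - c * (z1' - a')‖ ≤ 1 / 250 * ‖z1' - a'‖ := by
    refine seg_est hF (convex_segment a' z1') (fun w hw => ?_) (right_mem_segment ℝ a' z1')
      (left_mem_segment ℝ a' z1')
    obtain ⟨α, β, hα, hβ, hαβ, rfl⟩ := hw
    have e : α • a' + β • z1' = (319 / 320 : ℝ) • (α • za + β • z1) + (1 / 320 : ℝ) • m := by
      have h7 : α • a' + β • z1' = (319 / 320 : ℝ) • (α • za + β • z1) +
          (1 / 320 : ℝ) • ((α + β) • m) := by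
        rw [ha', hz1']; module
      rw [h7, hαβ, one_smul]
    rw [e]
    refine hW _ (hconv hacl hz1cl hα hβ hαβ) ?_
    have e2 : α • za + β • z1 - m = α • (za - m) + β • (z1 - m) := by
      have h7 : α • za + β • z1 - (α + β) • m = α • (za - m) + β • (z1 - m) := by module
      rw [hαβ, one_smul] at h7
      exact h7
    rw [e2]
    refine (norm_add_le _ _).trans ?_
    rw [norm_smul, norm_smul, Real.norm_of_nonneg hα, Real.norm_of_nonneg hβ, hma]
    nlinarith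
  have n1 : ‖a' - za‖ = 1 / 320 * (l / 2) := by
    have : a' - za = (1 / 320 : ℝ) • (m - za) := by rw [ha']; module
    rw [this, norm_smul, norm_sub_rev, hma]
    norm_num
  have n3 : ‖z1 - z1'‖ ≤ 1 / 320 * (l / 80 + l / 2) := by
    have : z1 - z1' = (1 / 320 : ℝ) • (z1 - m) := by rw [hz1']; module
    rw [this, norm_smul, Real.norm_of_nonneg (by norm_num)]
    exact mul_le_mul_of_nonneg_left hz1m (by norm_num)
  have n2 : ‖z1' - a'‖ ≤ l / 80 := by
    have : z1' - a' = (319 / 320 : ℝ) • (z1 - za) := by rw [hz1', ha']; module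
    rw [this, norm_smul, heq, Real.norm_of_nonneg (by norm_num)]
    nlinarith
  have htot : ‖F.eval z1 - F.eval za - c * (z1 - za)‖ ≤
      2 * (1 / 320 * (l / 2)) + 1 / 250 * (l / 80) + 2 * (1 / 320 * (l / 80 + l / 2)) := by
    have e : F.eval z1 - F.eval za - c * (z1 - za) =
        (F.eval a' - F.eval za - c * (a' - za)) + (F.eval z1' - F.eval a' - c * (z1' - a')) +
        (F.eval z1 - F.eval z1' - c * (z1 - z1')) := by ring
    rw [e]
    refine (norm_add₃_le).trans ?_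
    rw [n1] at s1
    have := mul_le_mul_of_nonneg_left n2 (show (0 : ℝ) ≤ 1 / 250 by norm_num)
    linarith
  have hfin : ‖2 * c * (z1 - za)‖ ≤ 300 * l * (1 / 10 ^ 6) +
      (2 * (1 / 320 * (l / 2)) + 1 / 250 * (l / 80) + 2 * (1 / 320 * (l / 80 + l / 2))) := by
    have e : 2 * c * (z1 - za) = (F.eval z1 - F.eval za + c * (z1 - za)) -
        (F.eval z1 - F.eval za - c * (z1 - za)) := by ring
    rw [e]
    exact (norm_sub_le _ _).trans (add_le_add harc2 htot)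
  rw [norm_mul, norm_mul, heq] at hfin
  have h2 : ‖(2 : ℂ)‖ = 2 := by simp
  rw [h2] at hfin
  nlinarith

end Main

section Inner

variable {O : Dom}

theorem continuous_D_op {w : ℂ} (hw : w ∈ O.op) : Continuous (O.D w) := by
  have hnu : Continuous nu := by
    unfold nu; fun_prop
  have hne : ∀ t, O.γ t - w ≠ 0 := by
    intro t h
    have h1 := h_sub_sp_le (O := O) t w
    rw [h, norm_zero] at h1
    linarith [hw t]
  unfold Dom.D
  have h1 := continuous_R O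
  have h2 : Continuous fun t => nu t / (O.γ t - w) :=
    hnu.div (cont_γ.sub continuous_const) hne
  exact (h1.div_const _).mul (Complex.continuous_re.comp h2)

theorem gap_le {ra r G l q : ℝ} (h : ra = 0 → G = 0) (hra : 0 ≤ ra) (hr : 0 < r) (hG : 0 ≤ G)
    (h1 : ra ≤ 38401 * r) (hl : l = 81 / 2) (hq : q = 6 * 10 ^ 10) :
    l * G / r ^ 2 ≤ q * (G / ra ^ 2) := by
  rcases hra.eq_or_lt with h0 | h0
  · rw [h h0.symm]; simp
  · rw [← mul_div_assoc, div_le_div_iff₀ (by positivity) (by positivity)]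
    have h2 : ra ^ 2 ≤ (38401 * r) ^ 2 := pow_le_pow_left₀ h0.le h1 2
    have h3 : l * ra ^ 2 ≤ q * r ^ 2 := by
      rw [hl, hq]
      nlinarith [sq_nonneg r]
    calc l * G * ra ^ 2 = G * (l * ra ^ 2) := by ring
      _ ≤ G * (q * r ^ 2) := mul_le_mul_of_nonneg_left h3 hG
      _ = q * G * r ^ 2 := by ring

theorem dom_D {a b : ℝ} (hab : Good O a b) {z : ℂ} (hz : z ∈ O.cl)
    (hzm : ‖z - (O.γ a + O.γ b) / 2‖ ≤ ‖O.γ a - O.γ b‖) :
    ((319 / 320 : ℝ) • z + (1 / 320 : ℝ) • ((O.γ a + O.γ b) / 2)) ∈ O.op ∧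
    ∀ t, O.D ((319 / 320 : ℝ) • z + (1 / 320 : ℝ) • ((O.γ a + O.γ b) / 2)) t ≤
      6 * 10 ^ 10 * (O.D (O.γ a) t + O.D (O.γ b) t) := by
  obtain ⟨hne, hgood⟩ := hab
  set za := O.γ a with hza
  set zb := O.γ b with hzb
  set l := ‖za - zb‖ with hl
  have hl0 : 0 < l := norm_pos_iff.mpr (sub_ne_zero.mpr hne)
  set m := (za + zb) / 2 with hm
  set w := (319 / 320 : ℝ) • z + (1 / 320 : ℝ) • m with hw
  have hma : ‖za - m‖ = l / 2 := by
    have : za - m = (za - zb) / 2 := by rw [hm]; ring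
    rw [this, norm_div, ← hl]; norm_num
  have hmb : ‖zb - m‖ = l / 2 := by
    have : zb - m = -((za - zb) / 2) := by rw [hm]; ring
    rw [this, norm_neg, norm_div, ← hl]; norm_num
  have hwm : ‖w - m‖ ≤ l := by
    have : w - m = (319 / 320 : ℝ) • (z - m) := by rw [hw]; module
    rw [this, norm_smul, Real.norm_of_nonneg (by norm_num)]
    nlinarith
  have hspw : ∀ t, sp t w = 319 / 320 * sp t z + 1 / 320 * sp t m := by
    intro t
    rw [hw, sp_add, sp_smul, sp_smul]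
  have hgw : ∀ t, l / 25600 ≤ O.h t - sp t w := by
    intro t
    rw [hspw]
    have h1 := hgood t
    have h2 := hz t
    linarith
  refine ⟨fun t => by linarith [hgw t], fun t => ?_⟩
  have hga : 0 ≤ O.h t - sp t za := by linarith [γ_mem O a t]
  have hgb : 0 ≤ O.h t - sp t zb := by linarith [γ_mem O b t]
  have hr := h_sub_sp_le (O := O) t w
  set r := ‖O.γ t - w‖ with hrdef
  have hr0 : 0 < r := by linarith [hgw t]
  have hlr : l ≤ 25600 * r := by linarith [hgw t]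
  have hra : ‖O.γ t - za‖ ≤ 38401 * r := by
    have : O.γ t - za = (O.γ t - w) + (w - m) - (za - m) := by ring
    rw [this]
    refine (norm_sub_le _ _).trans ?_
    have := norm_add_le (O.γ t - w) (w - m)
    rw [hma]
    linarith
  have hrb : ‖O.γ t - zb‖ ≤ 38401 * r := by
    have : O.γ t - zb = (O.γ t - w) + (w - m) - (zb - m) := by ring
    rw [this]
    refine (norm_sub_le _ _).trans ?_
    have := norm_add_le (O.γ t - w) (w - m)
    rw [hmb]
    linarith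
  have hGw : O.h t - sp t w ≤ 81 / 2 * (O.h t - sp t za) + 81 / 2 * (O.h t - sp t zb) := by
    have h1 := abs_sp_le t (m - w)
    rw [sp_sub, norm_sub_rev] at h1
    have h2 := le_abs_self (sp t m - sp t w)
    have h3 : sp t m = (sp t za + sp t zb) / 2 := by rw [hm, sp_halfC, sp_add]
    have h4 := hgood t
    linarith
  rw [D_eq, D_eq, D_eq]
  have hRπ : 0 ≤ O.R t / π := div_nonneg (R_pos O t).le Real.pi_pos.le
  have hz0 : ∀ s, ‖O.γ t - O.γ s‖ = 0 → O.h t - sp t (O.γ s) = 0 := by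
    intro s h
    rw [norm_eq_zero, sub_eq_zero] at h
    rw [← h, sp_γ_self, sub_self]
  have g1 := gap_le (hz0 a) (norm_nonneg _) hr0 hga hra rfl rfl
  have g2 := gap_le (hz0 b) (norm_nonneg _) hr0 hgb hrb rfl rfl
  have h5 : (O.h t - sp t w) / r ^ 2 ≤ 6 * 10 ^ 10 * ((O.h t - sp t za) / ‖O.γ t - za‖ ^ 2 +
      (O.h t - sp t zb) / ‖O.γ t - zb‖ ^ 2) := by
    calc (O.h t - sp t w) / r ^ 2
        ≤ (81 / 2 * (O.h t - sp t za) + 81 / 2 * (O.h t - sp t zb)) / r ^ 2 :=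
          div_le_div_of_nonneg_right hGw (by positivity)
      _ = 81 / 2 * (O.h t - sp t za) / r ^ 2 + 81 / 2 * (O.h t - sp t zb) / r ^ 2 := by
          rw [add_div]
      _ ≤ _ := by rw [mul_add]; exact add_le_add g1 g2
  calc O.R t / π * ((O.h t - sp t w) / r ^ 2) ≤ O.R t / π * (6 * 10 ^ 10 *
        ((O.h t - sp t za) / ‖O.γ t - za‖ ^ 2 + (O.h t - sp t zb) / ‖O.γ t - zb‖ ^ 2)) :=
        mul_le_mul_of_nonneg_left h5 hRπ
    _ = _ := by ring

/-- integral of a norm from the integral of its square -/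
theorem int_norm_le {a : ℝ} {u v : ℝ → ℝ} (hu : Continuous u) (hv : Continuous v)
    {s e : ℝ} (hs : 0 < s) (huv : ∀ t, u t ≤ (s + v t / s) / 2)
    (h : ∫ t in (0 : ℝ)..2 * π, O.D (O.γ a) t * v t ≤ e) :
    ∫ t in (0 : ℝ)..2 * π, O.D (O.γ a) t * u t ≤ (s + e / s) / 2 := by
  have hD := intble_D O a 0 (2 * π)
  have h1 : ∫ t in (0 : ℝ)..2 * π, O.D (O.γ a) t * u t ≤
      ∫ t in (0 : ℝ)..2 * π, O.D (O.γ a) t * ((s + v t / s) / 2) := by
    refine intervalIntegral.integral_mono_on (by positivity) (intble_D_mul hD hu)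
      (intble_D_mul hD (by fun_prop)) fun t _ => ?_
    exact mul_le_mul_of_nonneg_left (huv t) (D_nonneg O (γ_mem O a) t)
  refine h1.trans ?_
  have h2 : ∀ t, O.D (O.γ a) t * ((s + v t / s) / 2) =
      O.D (O.γ a) t * (s / 2) + (O.D (O.γ a) t * v t) * (1 / (2 * s)) := by
    intro t
    field_simp
  simp_rw [h2]
  rw [intervalIntegral.integral_add (hD.mul_const _) ((intble_D_mul hD hv).mul_const _),
    intervalIntegral.integral_mul_const, intervalIntegral.integral_mul_const, int_D_γ]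
  have h3 : (∫ t in (0 : ℝ)..2 * π, O.D (O.γ a) t * v t) * (1 / (2 * s)) ≤ e * (1 / (2 * s)) :=
    mul_le_mul_of_nonneg_right h (by positivity)
  have h4 : (s + e / s) / 2 = 1 * (s / 2) + e * (1 / (2 * s)) := by
    field_simp
  rw [h4]
  linarith

theorem inner_est (P : ℂ[X]) (h : ∀ t, ‖P.eval (O.γ t)‖ ≤ 1) {a b : ℝ}
    (hab : Good O a b) {c : ℂ} (hc1 : ‖c‖ ≤ 1) (hc2 : 1 - 1 / 10 ^ 10 ≤ ‖c‖)
    (hA : ∫ t in (0 : ℝ)..2 * π, O.D (O.γ a) t * ‖P.eval (O.γ t) - c‖ ≤ 1 / 10 ^ 17)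
    (hB : ∫ t in (0 : ℝ)..2 * π, O.D (O.γ b) t * ‖P.eval (O.γ t) + c‖ ≤ 3 / 10 ^ 17)
    {z : ℂ} (hz : z ∈ O.cl) (hzm : ‖z - (O.γ a + O.γ b) / 2‖ ≤ ‖O.γ a - O.γ b‖) :
    ‖(P.eval ((319 / 320 : ℝ) • z + (1 / 320 : ℝ) • ((O.γ a + O.γ b) / 2))) ^ 2 - c ^ 2‖ ≤
      0.003 := by
  have hcP : Continuous fun t => P.eval (O.γ t) := P.continuous.comp cont_γ
  have hDa := intble_D O a 0 (2 * π)
  have hDb := intble_D O b 0 (2 * π)
  obtain ⟨hop, hdom⟩ := dom_D hab hz hzm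
  set w := (319 / 320 : ℝ) • z + (1 / 320 : ℝ) • ((O.γ a + O.γ b) / 2) with hw
  have hcl : w ∈ O.cl := fun t => (hop t).le
  have hPw : ‖P.eval w‖ ≤ 1 := max_mod O P h hcl
  have hT := max_T O (P ^ 2) (fun t => by
    rw [eval_pow, norm_pow]; exact pow_le_one₀ (norm_nonneg _) (h t)) hop
  simp only [eval_pow] at hT
  have hcD := continuous_D_op hop
  have e1 : ∫ t in (0 : ℝ)..2 * π, (O.D w t : ℂ) * P.eval (O.γ t) ^ 2 =
      (∫ t in (0 : ℝ)..2 * π, (O.D w t : ℂ) * (P.eval (O.γ t) ^ 2 - c ^ 2)) + 2 * c ^ 2 := by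
    have e2 : ∫ t in (0 : ℝ)..2 * π, (O.D w t : ℂ) * c ^ 2 = 2 * c ^ 2 := by
      rw [intervalIntegral.integral_mul_const, intervalIntegral.integral_ofReal,
        int_D_op O hop]
      norm_num
    rw [← e2, ← intervalIntegral.integral_add]
    · refine intervalIntegral.integral_congr fun t _ => ?_
      ring
    · exact ((Complex.continuous_ofReal.comp hcD).mul
        ((hcP.pow 2).sub continuous_const)).intervalIntegrable _ _
    · exact ((Complex.continuous_ofReal.comp hcD).mul continuous_const).intervalIntegrable _ _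
  have i1 : IntervalIntegrable (fun t => O.D (O.γ a) t * (2 * ‖P.eval (O.γ t) - c‖)) volume
      0 (2 * π) := intble_D_mul hDa (by fun_prop)
  have i2 : IntervalIntegrable (fun t => O.D (O.γ b) t * (2 * ‖P.eval (O.γ t) + c‖)) volume
      0 (2 * π) := intble_D_mul hDb (by fun_prop)
  have e3 : ‖∫ t in (0 : ℝ)..2 * π, (O.D w t : ℂ) * (P.eval (O.γ t) ^ 2 - c ^ 2)‖ ≤
      ∫ t in (0 : ℝ)..2 * π, 6 * 10 ^ 10 * (O.D (O.γ a) t * (2 * ‖P.eval (O.γ t) - c‖) +
        O.D (O.γ b) t * (2 * ‖P.eval (O.γ t) + c‖)) := by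
    refine intervalIntegral.norm_integral_le_of_norm_le (by positivity)
      (Filter.Eventually.of_forall fun t _ => ?_) ((i1.add i2).const_mul _)
    have hDa0 := D_nonneg O (γ_mem O a) t
    have hDb0 := D_nonneg O (γ_mem O b) t
    have hft := h t
    set v := P.eval (O.γ t) with hv
    have e4 : ‖v ^ 2 - c ^ 2‖ = ‖v - c‖ * ‖v + c‖ := by
      rw [← norm_mul]; congr 1; ring
    have e5 : ‖v - c‖ ≤ 2 := (norm_sub_le _ _).trans (by linarith)
    have e6 : ‖v + c‖ ≤ 2 := (norm_add_le _ _).trans (by linarith)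
    have e7 : ‖v ^ 2 - c ^ 2‖ ≤ 2 * ‖v - c‖ := by
      rw [e4]; nlinarith [norm_nonneg (v - c)]
    have e8 : ‖v ^ 2 - c ^ 2‖ ≤ 2 * ‖v + c‖ := by
      rw [e4]; nlinarith [norm_nonneg (v + c)]
    rw [norm_mul, Complex.norm_real, Real.norm_of_nonneg (D_nonneg O hcl t)]
    calc O.D w t * ‖v ^ 2 - c ^ 2‖
        ≤ 6 * 10 ^ 10 * (O.D (O.γ a) t + O.D (O.γ b) t) * ‖v ^ 2 - c ^ 2‖ :=
          mul_le_mul_of_nonneg_right (hdom t) (norm_nonneg _)
      _ = 6 * 10 ^ 10 * (O.D (O.γ a) t * ‖v ^ 2 - c ^ 2‖ +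
          O.D (O.γ b) t * ‖v ^ 2 - c ^ 2‖) := by ring
      _ ≤ _ := by
          apply mul_le_mul_of_nonneg_left _ (by positivity)
          exact add_le_add (mul_le_mul_of_nonneg_left e7 hDa0)
            (mul_le_mul_of_nonneg_left e8 hDb0)
  have e4 : ∫ t in (0 : ℝ)..2 * π, 6 * 10 ^ 10 * (O.D (O.γ a) t * (2 * ‖P.eval (O.γ t) - c‖) +
        O.D (O.γ b) t * (2 * ‖P.eval (O.γ t) + c‖)) ≤ 5 / 10 ^ 6 := by
    rw [intervalIntegral.integral_const_mul, intervalIntegral.integral_add i1 i2]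
    have e5 : ∀ t, O.D (O.γ a) t * (2 * ‖P.eval (O.γ t) - c‖) =
        2 * (O.D (O.γ a) t * ‖P.eval (O.γ t) - c‖) := by
      intro t; ring
    have e6 : ∀ t, O.D (O.γ b) t * (2 * ‖P.eval (O.γ t) + c‖) =
        2 * (O.D (O.γ b) t * ‖P.eval (O.γ t) + c‖) := by
      intro t; ring
    simp_rw [e5, e6]
    rw [intervalIntegral.integral_const_mul, intervalIntegral.integral_const_mul]
    linarith
  have e5 : ‖2 * c ^ 2 - P.eval w ^ 2‖ ≤ 1 + 5 / 10 ^ 6 := by
    have e6 : 2 * c ^ 2 - P.eval w ^ 2 =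
        ((∫ t in (0 : ℝ)..2 * π, (O.D w t : ℂ) * P.eval (O.γ t) ^ 2) - P.eval w ^ 2) -
        ∫ t in (0 : ℝ)..2 * π, (O.D w t : ℂ) * (P.eval (O.γ t) ^ 2 - c ^ 2) := by
      rw [e1]; ring
    rw [e6]
    exact (norm_sub_le _ _).trans (add_le_add hT (e3.trans e4))
  have e6 := parallelogram_law_with_norm ℝ (c ^ 2) (P.eval w ^ 2 - c ^ 2)
  have e7 : c ^ 2 + (P.eval w ^ 2 - c ^ 2) = P.eval w ^ 2 := by ring
  have e8 : c ^ 2 - (P.eval w ^ 2 - c ^ 2) = 2 * c ^ 2 - P.eval w ^ 2 := by ring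
  rw [e7, e8] at e6
  have e9 : ‖P.eval w ^ 2‖ ≤ 1 := by
    rw [norm_pow]; exact pow_le_one₀ (norm_nonneg _) hPw
  have e10 : 1 - 2 / 10 ^ 10 ≤ ‖c ^ 2‖ := by
    rw [norm_pow]; nlinarith
  set X := ‖P.eval w ^ 2 - c ^ 2‖ with hX
  have e12 : X * X ≤ 0.003 * 0.003 := by
    have e13 : ‖P.eval w ^ 2‖ * ‖P.eval w ^ 2‖ ≤ 1 :=
      mul_le_one₀ e9 (norm_nonneg _) e9
    have e14 : ‖2 * c ^ 2 - P.eval w ^ 2‖ * ‖2 * c ^ 2 - P.eval w ^ 2‖ ≤
        (1 + 5 / 10 ^ 6) * (1 + 5 / 10 ^ 6) :=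
      mul_le_mul e5 e5 (norm_nonneg _) (by norm_num)
    have e15 : (1 - 2 / 10 ^ 10) * (1 - 2 / 10 ^ 10) ≤ ‖c ^ 2‖ * ‖c ^ 2‖ :=
      mul_le_mul e10 e10 (by norm_num) (norm_nonneg _)
    have e16 : X * X = (‖P.eval w ^ 2‖ * ‖P.eval w ^ 2‖ +
      ‖2 * c ^ 2 - P.eval w ^ 2‖ * ‖2 * c ^ 2 - P.eval w ^ 2‖) / 2 - ‖c ^ 2‖ * ‖c ^ 2‖ := by
      linarith
    rw [e16]
    have e17 : (1 + (1 + 5 / 10 ^ 6) * (1 + 5 / 10 ^ 6) : ℝ) / 2 -
      (1 - 2 / 10 ^ 10) * (1 - 2 / 10 ^ 10) ≤ 0.003 * 0.003 := by norm_num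
    linarith
  exact abs_le_of_sq_le_sq' (by rw [sq, sq]; exact e12) (by norm_num) |>.2

theorem norm_add_sq' (v c : ℂ) : ‖v + c‖ ^ 2 = ‖v‖ ^ 2 + ‖c‖ ^ 2 + 2 * (v * conj c).re := by
  rw [← Complex.normSq_eq_norm_sq, ← Complex.normSq_eq_norm_sq, ← Complex.normSq_eq_norm_sq,
    Complex.normSq_add]

theorem norm_sub_sq' (v c : ℂ) : ‖v - c‖ ^ 2 = ‖v‖ ^ 2 + ‖c‖ ^ 2 - 2 * (v * conj c).re := by
  rw [← Complex.normSq_eq_norm_sq, ← Complex.normSq_eq_norm_sq, ← Complex.normSq_eq_norm_sq,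
    Complex.normSq_sub]

/-- square root alternative -/
theorem sq_alt {v c : ℂ} (hc : 0.999 ≤ ‖c‖) (h : ‖v ^ 2 - c ^ 2‖ ≤ 0.003) :
    (v * conj c).re ≠ 0 ∧ (0 < (v * conj c).re → ‖v - c‖ ≤ 1 / 250) ∧
      ((v * conj c).re < 0 → ‖v - -c‖ ≤ 1 / 250) := by
  have h5 : ‖v - c‖ * ‖v + c‖ ≤ 0.003 := by
    rw [← norm_mul]
    have : (v - c) * (v + c) = v ^ 2 - c ^ 2 := by ring
    rw [this]; exact h
  have h7 := norm_add_sq' v c
  have h8 := norm_sub_sq' v c
  have hv : 0 ≤ ‖v‖ ^ 2 := sq_nonneg _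
  refine ⟨fun h0 => ?_, fun h0 => ?_, fun h0 => ?_⟩
  · rw [h0] at h7 h8
    have h9 : ‖v - c‖ ^ 2 = ‖v + c‖ ^ 2 := by linarith
    have h10 : ‖v - c‖ = ‖v + c‖ :=
      (pow_left_inj₀ (norm_nonneg _) (norm_nonneg _) two_ne_zero).mp h9
    rw [h10] at h5
    nlinarith
  · have h9 : 0.999 ≤ ‖v + c‖ := by
      apply le_of_sq_le_sq _ (norm_nonneg _)
      nlinarith
    nlinarith [norm_nonneg (v - c)]
  · have h9 : 0.999 ≤ ‖v - c‖ := by
      apply le_of_sq_le_sq _ (norm_nonneg _)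
      nlinarith
    rw [sub_neg_eq_add]
    nlinarith [norm_nonneg (v + c)]

/-- constant sign on the convex region -/
theorem sign_alt (P : ℂ[X]) {a b : ℝ} {c : ℂ} (hc : 0.999 ≤ ‖c‖)
    (hin : ∀ z ∈ O.cl, ‖z - (O.γ a + O.γ b) / 2‖ ≤ ‖O.γ a - O.γ b‖ →
      ‖(P.eval ((319 / 320 : ℝ) • z + (1 / 320 : ℝ) • ((O.γ a + O.γ b) / 2))) ^ 2 - c ^ 2‖ ≤
      0.003) :
    (∀ z ∈ O.cl, ‖z - (O.γ a + O.γ b) / 2‖ ≤ ‖O.γ a - O.γ b‖ →
      ‖P.eval ((319 / 320 : ℝ) • z + (1 / 320 : ℝ) • ((O.γ a + O.γ b) / 2)) - c‖ ≤ 1 / 250) ∨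
    (∀ z ∈ O.cl, ‖z - (O.γ a + O.γ b) / 2‖ ≤ ‖O.γ a - O.γ b‖ →
      ‖P.eval ((319 / 320 : ℝ) • z + (1 / 320 : ℝ) • ((O.γ a + O.γ b) / 2)) - -c‖ ≤ 1 / 250) := by
  set m := (O.γ a + O.γ b) / 2 with hm
  set l := ‖O.γ a - O.γ b‖ with hl
  set ψ : ℂ → ℝ := fun z =>
    (P.eval ((319 / 320 : ℝ) • z + (1 / 320 : ℝ) • m) * conj c).re with hψ
  have hψc : Continuous ψ := by
    have : Continuous fun z : ℂ => P.eval ((319 / 320 : ℝ) • z + (1 / 320 : ℝ) • m) :=
      P.continuous.comp (by fun_prop)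
    exact Complex.continuous_re.comp (this.mul continuous_const)
  set W : Set ℂ := O.cl ∩ Metric.closedBall m l with hW
  have hWc : Convex ℝ W := (convex_cl O).inter (convex_closedBall m l)
  have hWmem : ∀ z, z ∈ W ↔ z ∈ O.cl ∧ ‖z - m‖ ≤ l := by
    intro z
    rw [hW, mem_inter_iff, Metric.mem_closedBall, dist_eq_norm]
  have hψ0 : ∀ z ∈ W, ψ z ≠ 0 := fun z hz =>
    (sq_alt hc (hin z ((hWmem z).1 hz).1 ((hWmem z).1 hz).2)).1
  have hamem : O.γ a ∈ W := by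
    refine (hWmem _).2 ⟨γ_mem O a, ?_⟩
    have h1 : O.γ a - m = (O.γ a - O.γ b) / 2 := by rw [hm]; ring
    have h2 : (0 : ℝ) ≤ l := norm_nonneg _
    have h3 : ‖(2 : ℂ)‖ = 2 := by simp
    rw [h1, norm_div, ← hl, h3]
    linarith
  rcases lt_or_gt_of_ne (hψ0 _ hamem) with h5 | h5
  · right
    intro z hz hzm
    have hzW : z ∈ W := (hWmem z).2 ⟨hz, hzm⟩
    refine (sq_alt hc (hin z hz hzm)).2.2 ?_
    by_contra hcon
    push Not at hcon
    obtain ⟨z', hz', h6⟩ := hWc.isPreconnected.intermediate_value hamem hzW hψc.continuousOn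
      ⟨h5.le, hcon⟩
    exact hψ0 z' hz' h6
  · left
    intro z hz hzm
    have hzW : z ∈ W := (hWmem z).2 ⟨hz, hzm⟩
    refine (sq_alt hc (hin z hz hzm)).2.1 ?_
    by_contra hcon
    push Not at hcon
    obtain ⟨z', hz', h6⟩ := hWc.isPreconnected.intermediate_value hzW hamem hψc.continuousOn
      ⟨hcon, h5.le⟩
    exact hψ0 z' hz' h6

theorem good_contra (O : Dom) (P : ℂ[X]) (h : ∀ t, ‖P.eval (O.γ t)‖ ≤ 1) {a b : ℝ}
    (hab : Good O a b) {e : ℝ} (he : e ≤ 1 / 10 ^ 34)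
    (h1 : 1 - e ≤ ‖P.eval (O.γ a)‖) (h2 : ‖P.eval (O.γ a) + P.eval (O.γ b)‖ ^ 2 ≤ e)
    (h3 : ∫ t in (0 : ℝ)..2 * π, O.D (O.γ a) t * ‖P.eval (O.γ t) + P.eval (O.γ a)‖ ^ 2 ≤ e)
    (h4 : ∫ t in (0 : ℝ)..2 * π, O.D (O.γ b) t * ‖P.eval (O.γ t) + P.eval (O.γ b)‖ ^ 2 ≤ e) :
    False := by
  have he0 : 0 ≤ e := (sq_nonneg _).trans h2
  have hcP : Continuous fun t => P.eval (O.γ t) := P.continuous.comp cont_γ
  have hDb := intble_D O b 0 (2 * π)
  obtain ⟨c, hc⟩ : ∃ c : ℂ, c = -P.eval (O.γ a) := ⟨_, rfl⟩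
  have hcn : ‖c‖ = ‖P.eval (O.γ a)‖ := by rw [hc, norm_neg]
  have hc1 : ‖c‖ ≤ 1 := by rw [hcn]; exact h a
  have hc2 : 1 - 1 / 10 ^ 10 ≤ ‖c‖ := by
    have : (1 : ℝ) / 10 ^ 34 ≤ 1 / 10 ^ 10 := by norm_num
    rw [hcn]; linarith
  have hc99 : 0.999 ≤ ‖c‖ := by
    have : (1 : ℝ) / 10 ^ 10 ≤ 0.001 := by norm_num
    linarith
  obtain ⟨s, hs⟩ : ∃ s : ℝ, s = 1 / 10 ^ 17 := ⟨_, rfl⟩
  have hs0 : 0 < s := by rw [hs]; positivity
  have hes : e / s ≤ 1 / 10 ^ 17 := by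
    rw [div_le_iff₀ hs0, hs]
    refine he.trans (le_of_eq ?_)
    norm_num
  -- seen from a
  have h3' : ∫ t in (0 : ℝ)..2 * π, O.D (O.γ a) t * ‖P.eval (O.γ t) - c‖ ^ 2 ≤ e := by
    refine le_trans (le_of_eq ?_) h3
    refine intervalIntegral.integral_congr fun t _ => ?_
    simp only [hc, sub_neg_eq_add]
  have h4' : ∫ t in (0 : ℝ)..2 * π, O.D (O.γ b) t * ‖P.eval (O.γ t) + c‖ ^ 2 ≤ 4 * e := by
    have hb2 : ‖c - P.eval (O.γ b)‖ ^ 2 ≤ e := by
      have : c - P.eval (O.γ b) = -(P.eval (O.γ a) + P.eval (O.γ b)) := by rw [hc]; ring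
      rw [this, norm_neg]
      exact h2
    have h5 : ∀ t, ‖P.eval (O.γ t) + c‖ ^ 2 ≤ 2 * ‖P.eval (O.γ t) + P.eval (O.γ b)‖ ^ 2 +
        2 * e := by
      intro t
      have e1 : P.eval (O.γ t) + c = (P.eval (O.γ t) + P.eval (O.γ b)) +
        (c - P.eval (O.γ b)) := by ring
      have e2 := norm_add_le (P.eval (O.γ t) + P.eval (O.γ b)) (c - P.eval (O.γ b))
      rw [← e1] at e2
      have e3 : ‖P.eval (O.γ t) + c‖ ^ 2 ≤ (‖P.eval (O.γ t) + P.eval (O.γ b)‖ +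
        ‖c - P.eval (O.γ b)‖) ^ 2 := pow_le_pow_left₀ (norm_nonneg _) e2 2
      nlinarith [sq_nonneg (‖P.eval (O.γ t) + P.eval (O.γ b)‖ - ‖c - P.eval (O.γ b)‖)]
    have i1 : IntervalIntegrable (fun t => O.D (O.γ b) t *
      ‖P.eval (O.γ t) + P.eval (O.γ b)‖ ^ 2) volume 0 (2 * π) := intble_D_mul hDb (by fun_prop)
    have h6 : ∫ t in (0 : ℝ)..2 * π, O.D (O.γ b) t * ‖P.eval (O.γ t) + c‖ ^ 2 ≤
        ∫ t in (0 : ℝ)..2 * π, O.D (O.γ b) t *
          (2 * ‖P.eval (O.γ t) + P.eval (O.γ b)‖ ^ 2 + 2 * e) := by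
      refine intervalIntegral.integral_mono_on (by positivity) (intble_D_mul hDb (by fun_prop))
        (intble_D_mul hDb (by fun_prop)) fun t _ => ?_
      exact mul_le_mul_of_nonneg_left (h5 t) (D_nonneg O (γ_mem O b) t)
    have h7 : ∀ t, O.D (O.γ b) t * (2 * ‖P.eval (O.γ t) + P.eval (O.γ b)‖ ^ 2 + 2 * e) =
        2 * (O.D (O.γ b) t * ‖P.eval (O.γ t) + P.eval (O.γ b)‖ ^ 2) +
          O.D (O.γ b) t * (2 * e) := by
      intro t; ring
    simp_rw [h7] at h6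
    rw [intervalIntegral.integral_add (i1.const_mul _)
      (hDb.mul_const _), intervalIntegral.integral_const_mul, intervalIntegral.integral_mul_const,
      int_D_γ] at h6
    linarith
  have hAM : ∀ x : ℝ, x ≤ (s + x ^ 2 / s) / 2 := by
    intro x
    have h6 : 0 ≤ (s - x) ^ 2 / s := by positivity
    have h7 : (s - x) ^ 2 / s = s - 2 * x + x ^ 2 / s := by
      field_simp
      ring
    linarith
  have hA : ∫ t in (0 : ℝ)..2 * π, O.D (O.γ a) t * ‖P.eval (O.γ t) - c‖ ≤ 1 / 10 ^ 17 := by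
    have := int_norm_le (O := O) (a := a) (u := fun t => ‖P.eval (O.γ t) - c‖)
      (v := fun t => ‖P.eval (O.γ t) - c‖ ^ 2)
      (by fun_prop) (by fun_prop) hs0 (fun t => hAM _) h3'
    linarith
  have hB : ∫ t in (0 : ℝ)..2 * π, O.D (O.γ b) t * ‖P.eval (O.γ t) + c‖ ≤ 3 / 10 ^ 17 := by
    have := int_norm_le (O := O) (a := b) (u := fun t => ‖P.eval (O.γ t) + c‖)
      (v := fun t => ‖P.eval (O.γ t) + c‖ ^ 2)
      (by fun_prop) (by fun_prop) hs0 (fun t => hAM _) h4'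
    rw [mul_div_assoc] at this
    linarith
  have hin := fun z hz hzm => inner_est P h hab hc1 hc2 hA hB (z := z) hz hzm
  rcases sign_alt P hc99 hin with hall | hall
  · exact arc_contra P h hab (c := c) (by linarith) hc1 (hB.trans (by norm_num)) hall
  · have hba : Good O b a := by
      refine ⟨hab.1.symm, fun β => ?_⟩
      rw [add_comm (O.γ b), norm_sub_rev]
      exact hab.2 β
    refine arc_contra P h hba (c := -c) (by rw [norm_neg]; linarith) (by rw [norm_neg]; exact hc1)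
      ?_ ?_
    · simp only [← sub_eq_add_neg]
      exact hA.trans (by norm_num)
    · intro z hz hzm
      rw [add_comm (O.γ b), norm_sub_rev (O.γ b)] at hzm
      rw [add_comm (O.γ b)]
      exact hall z hz hzm

end Inner

end P123
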