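import Vale.Agent.P123.Defs

/-!
# P123, module Curve : the boundary curve of a smooth strictly convex domain
-/

namespace P123

open MeasureTheory Complex Polynomial Set
open scoped Real ComplexConjugate

section Nu

theorem nu_eq (t : ℝ) : nu t = Real.cos t + Real.sin t * I := by
  unfold nu
  rw [Complex.exp_mul_I, Complex.ofReal_cos, Complex.ofReal_sin]

theorem nu_re (t : ℝ) : (nu t).re = Real.cos t := by
  unfold nu
  rw [Complex.exp_ofReal_mul_I_re]

theorem nu_im (t : ℝ) : (nu t).im = Real.sin t := by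
  unfold nu
  rw [Complex.exp_ofReal_mul_I_im]

theorem sp_eq (t : ℝ) (z : ℂ) : sp t z = (conj (nu t) * z).re := by
  unfold sp
  rw [Complex.mul_re, Complex.conj_re, Complex.conj_im, nu_re, nu_im]
  ring

theorem norm_nu (t : ℝ) : ‖nu t‖ = 1 := by
  unfold nu
  exact Complex.norm_exp_ofReal_mul_I t

theorem nu_ne_zero (t : ℝ) : nu t ≠ 0 := Complex.exp_ne_zero _

theorem conj_nu_mul (t : ℝ) : conj (nu t) * nu t = 1 := by
  rw [← Complex.normSq_eq_conj_mul_self, Complex.normSq_eq_norm_sq, norm_nu]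
  simp

theorem nu_per (t : ℝ) : nu (t + 2 * π) = nu t := by
  rw [nu_eq, nu_eq, Real.cos_add_two_pi, Real.sin_add_two_pi]

theorem hasDerivAt_nu (t : ℝ) : HasDerivAt nu (I * nu t) t := by
  have h1 : HasDerivAt (fun s : ℝ => (s : ℂ) * I) (1 * I) t :=
    (Complex.ofRealCLM.hasDerivAt).mul_const I
  have h2 := h1.cexp
  unfold nu
  refine h2.congr_deriv ?_
  ring

theorem continuous_nu : Continuous nu :=
  continuous_iff_continuousAt.mpr fun t => (hasDerivAt_nu t).continuousAt

end Nu

section Curve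

variable (O : Dom)

theorem continuous_h : Continuous O.h :=
  continuous_iff_continuousAt.mpr fun t => (O.hd t).continuousAt

theorem continuous_h1 : Continuous O.h1 :=
  continuous_iff_continuousAt.mpr fun t => (O.hd1 t).continuousAt

theorem h1_per (t : ℝ) : O.h1 (t + 2 * π) = O.h1 t := by
  have e : (fun s => O.h (s + 2 * π)) = O.h := funext O.per
  have h2 := HasDerivAt.comp_add_const t (2 * π) (O.hd (t + 2 * π))
  rw [e] at h2
  exact h2.unique (O.hd t)

theorem h2_per (t : ℝ) : O.h2 (t + 2 * π) = O.h2 t := by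
  have e : (fun s => O.h1 (s + 2 * π)) = O.h1 := funext (h1_per O)
  have h2 := HasDerivAt.comp_add_const t (2 * π) (O.hd1 (t + 2 * π))
  rw [e] at h2
  exact h2.unique (O.hd1 t)

theorem R_pos (t : ℝ) : 0 < O.R t := O.pos t

theorem continuous_R : Continuous O.R := (continuous_h O).add O.cont

theorem R_per (t : ℝ) : O.R (t + 2 * π) = O.R t := by
  unfold Dom.R
  rw [O.per, h2_per]

theorem γ_per (t : ℝ) : O.γ (t + 2 * π) = O.γ t := by
  unfold Dom.γ
  rw [O.per, h1_per, nu_per]

theorem hasDerivAt_γ (t : ℝ) : HasDerivAt O.γ (O.R t * I * nu t) t := by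
  have h1 : HasDerivAt (fun s => ((O.h s : ℝ) : ℂ)) ((O.h1 t : ℝ) : ℂ) t := (O.hd t).ofReal_comp
  have h2 : HasDerivAt (fun s => ((O.h1 s : ℝ) : ℂ)) ((O.h2 t : ℝ) : ℂ) t :=
    (O.hd1 t).ofReal_comp
  have h3 := (h1.add (h2.mul_const I)).mul (hasDerivAt_nu t)
  refine h3.congr_deriv ?_
  unfold Dom.R
  simp only [Pi.add_apply]
  push_cast
  linear_combination ((O.h1 t : ℂ) * nu t) * Complex.I_mul_I

theorem continuous_γ : Continuous O.γ :=
  continuous_iff_continuousAt.mpr fun t => (hasDerivAt_γ O t).continuousAt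

theorem sp_γ_self (t : ℝ) : sp t (O.γ t) = O.h t := by
  rw [sp_eq]
  unfold Dom.γ
  have : conj (nu t) * ((O.h t + O.h1 t * I) * nu t) =
      (conj (nu t) * nu t) * (O.h t + O.h1 t * I) := by ring
  rw [this, conj_nu_mul, one_mul]
  simp

theorem hasDerivAt_sp_γ (t s : ℝ) :
    HasDerivAt (fun s => sp t (O.γ s)) (-(O.R s * Real.sin (s - t))) s := by
  have h1 := hasDerivAt_γ O s
  have h2 : HasDerivAt (fun s => (conj (nu t) * O.γ s).re)
      (conj (nu t) * (O.R s * I * nu s)).re s := by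
    have h3 := h1.const_mul (conj (nu t))
    exact (Complex.reCLM.hasFDerivAt.comp_hasDerivAt s h3)
  have h4 : (fun s => sp t (O.γ s)) = fun s => (conj (nu t) * O.γ s).re :=
    funext fun s => sp_eq t _
  rw [h4]
  refine h2.congr_deriv ?_
  rw [Complex.mul_re, Complex.mul_re, Complex.mul_im, Complex.mul_re, Complex.mul_im,
    Complex.conj_re, Complex.conj_im, nu_re, nu_im, nu_re, nu_im, Real.sin_sub]
  simp
  ring

theorem sp_γ_lt {s t : ℝ} (h1 : t < s) (h2 : s < t + 2 * π) : sp t (O.γ s) < O.h t := by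
  have hπ := Real.pi_pos
  have hcont : Continuous fun s => sp t (O.γ s) :=
    continuous_iff_continuousAt.mpr fun s => (hasDerivAt_sp_γ O t s).continuousAt
  rcases le_or_gt s (t + π) with h | h
  · have hanti : StrictAntiOn (fun s => sp t (O.γ s)) (Icc t (t + π)) := by
      refine strictAntiOn_of_deriv_neg (convex_Icc _ _) hcont.continuousOn fun x hx => ?_
      rw [interior_Icc] at hx
      rw [(hasDerivAt_sp_γ O t x).deriv]
      have := Real.sin_pos_of_pos_of_lt_pi (x := x - t) (by linarith [hx.1]) (by linarith [hx.2])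
      have := mul_pos (R_pos O x) this
      linarith
    have := hanti ⟨le_rfl, by linarith⟩ ⟨h1.le, h⟩ h1
    simp only at this
    rwa [sp_γ_self] at this
  · have hmono : StrictMonoOn (fun s => sp t (O.γ s)) (Icc (t + π) (t + 2 * π)) := by
      refine strictMonoOn_of_deriv_pos (convex_Icc _ _) hcont.continuousOn fun x hx => ?_
      rw [interior_Icc] at hx
      rw [(hasDerivAt_sp_γ O t x).deriv]
      have h3 := Real.sin_neg_of_neg_of_neg_pi_lt (x := x - t - 2 * π) (by linarith [hx.2])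
        (by linarith [hx.1])
      rw [Real.sin_sub_two_pi] at h3
      have := mul_pos (R_pos O x) (neg_pos.mpr h3)
      linarith
    have := hmono ⟨h.le, h2.le⟩ ⟨by linarith, le_rfl⟩ h2
    simp only [γ_per] at this
    rwa [sp_γ_self] at this

theorem sp_perC (t : ℝ) (z : ℂ) : sp (t + 2 * π) z = sp t z := by
  unfold sp
  rw [Real.cos_add_two_pi, Real.sin_add_two_pi]

theorem γ_mem (s : ℝ) : O.γ s ∈ O.cl := by
  intro t
  obtain ⟨n, hn, -⟩ := existsUnique_add_zsmul_mem_Ico (show (0 : ℝ) < 2 * π by positivity) s t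
  have hper : Function.Periodic O.γ (2 * π) := γ_per O
  rw [← hper.zsmul n s]
  rcases hn.1.lt_or_eq with h | h
  · exact (sp_γ_lt O h hn.2).le
  · rw [← h, sp_γ_self]

theorem convex_cl : Convex ℝ O.cl := by
  intro x hx y hy a b ha hb hab t
  have h1 : sp t (a • x + b • y) = a * sp t x + b * sp t y := by
    unfold sp; simp; ring
  rw [h1]
  have h2 := mul_le_mul_of_nonneg_left (hx t) ha
  have h3 := mul_le_mul_of_nonneg_left (hy t) hb
  have h4 : a * O.h t + b * O.h t = O.h t := by rw [← add_mul, hab, one_mul]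
  linarith

theorem sp_sub' (t : ℝ) (z w : ℂ) : sp t (z - w) = sp t z - sp t w := by
  unfold sp; simp; ring

theorem D_eq (z : ℂ) (t : ℝ) :
    O.D z t = O.R t / π * ((O.h t - sp t z) / ‖O.γ t - z‖ ^ 2) := by
  unfold Dom.D
  congr 1
  have h1 : (nu t / (O.γ t - z)).re = sp t (O.γ t - z) / ‖O.γ t - z‖ ^ 2 := by
    rw [Complex.div_re, ← Complex.normSq_eq_norm_sq, nu_re, nu_im, ← add_div]
    unfold sp
    congr 1
    ring
  rw [h1, sp_sub', sp_γ_self]

theorem D_nonneg {z : ℂ} (hz : z ∈ O.cl) (t : ℝ) : 0 ≤ O.D z t := by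
  rw [D_eq]
  have h1 := R_pos O t
  have h2 := hz t
  have h3 : 0 ≤ O.h t - sp t z := by linarith
  positivity

theorem D_per (z : ℂ) (t : ℝ) : O.D z (t + 2 * π) = O.D z t := by
  unfold Dom.D
  rw [R_per, nu_per, γ_per]

theorem abs_sp_le' (t : ℝ) (z : ℂ) : |sp t z| ≤ ‖z‖ := by
  rw [sp_eq]
  refine (Complex.abs_re_le_norm _).trans ?_
  rw [norm_mul, RCLike.norm_conj, norm_nu, one_mul]

theorem op_sub_ne {z : ℂ} (hz : z ∈ O.op) (t : ℝ) : O.γ t - z ≠ 0 := by
  intro h
  have h1 : sp t (O.γ t - z) = 0 := by rw [h]; simp [sp]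
  rw [sp_sub', sp_γ_self] at h1
  linarith [hz t]

theorem continuous_γ' : Continuous fun t => (O.R t * I * nu t : ℂ) := by
  have h1 := continuous_R O
  have h2 := continuous_nu
  fun_prop

theorem winding {z : ℂ} (hz : z ∈ O.op) :
    ∫ t in (0 : ℝ)..2 * π, (O.R t * I * nu t) / (O.γ t - z) = 2 * π * I := by
  have hcn : ∀ t : ℝ, HasDerivAt (fun s => conj (nu s)) (-I * conj (nu t)) t := by
    intro t
    have h1 := (Complex.conjCLE.toContinuousLinearMap.hasFDerivAt).comp_hasDerivAt t
      (hasDerivAt_nu t)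
    have h2 : Complex.conjCLE.toContinuousLinearMap (I * nu t) = -I * conj (nu t) := by
      change conj (I * nu t) = _
      rw [map_mul, Complex.conj_I]
    rw [h2] at h1
    exact h1
  have hder : ∀ t : ℝ, HasDerivAt
      (fun s : ℝ => Complex.log ((O.γ s - z) * conj (nu s)) + (s : ℂ) * I)
      ((O.R t * I * nu t) / (O.γ t - z)) t := by
    intro t
    have h1 := ((hasDerivAt_γ O t).sub_const z).mul (hcn t)
    have hre : ((O.γ t - z) * conj (nu t)).re = O.h t - sp t z := by
      rw [mul_comm, ← sp_eq, sp_sub', sp_γ_self]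
    have hsl : (O.γ t - z) * conj (nu t) ∈ slitPlane := by
      left
      rw [hre]
      linarith [hz t]
    have h2 := h1.clog_real hsl
    have h3 : HasDerivAt (fun s : ℝ => (s : ℂ) * I) (1 * I) t :=
      (Complex.ofRealCLM.hasDerivAt).mul_const I
    have h4 := h2.add h3
    refine h4.congr_deriv ?_
    have hne := op_sub_ne O hz t
    have hnn : conj (nu t) ≠ 0 := by
      rw [Ne, map_eq_zero]; exact nu_ne_zero t
    have hcc := conj_nu_mul t
    change (O.R t * I * nu t * conj (nu t) + (O.γ t - z) * (-I * conj (nu t))) /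
      ((O.γ t - z) * conj (nu t)) + 1 * I = O.R t * I * nu t / (O.γ t - z)
    field_simp
    ring
  have hcont : Continuous fun t => (O.R t * I * nu t) / (O.γ t - z) :=
    (continuous_γ' O).div ((continuous_γ O).sub continuous_const) (op_sub_ne O hz)
  rw [intervalIntegral.integral_eq_sub_of_hasDerivAt (fun t _ => hder t)
    (hcont.intervalIntegrable _ _)]
  have e1 : O.γ (2 * π) = O.γ 0 := by
    have := γ_per O 0
    rwa [zero_add] at this
  have e2 : nu (2 * π) = nu 0 := by
    have := nu_per 0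
    rwa [zero_add] at this
  rw [e1, e2]
  push_cast
  ring

theorem D_eq_im (z : ℂ) (t : ℝ) : O.D z t = ((O.R t * I * nu t) / (O.γ t - z)).im / π := by
  unfold Dom.D
  have : (O.R t * I * nu t) / (O.γ t - z) = (O.R t : ℂ) * (I * (nu t / (O.γ t - z))) := by
    ring
  rw [this, Complex.im_ofReal_mul, Complex.I_mul_im]
  ring

theorem int_D_op {z : ℂ} (hz : z ∈ O.op) : ∫ t in (0 : ℝ)..2 * π, O.D z t = 2 := by
  have hcont : Continuous fun t => (O.R t * I * nu t) / (O.γ t - z) :=
    (continuous_γ' O).div ((continuous_γ O).sub continuous_const) (op_sub_ne O hz)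
  have h1 := Complex.imCLM.intervalIntegral_comp_comm
    (hcont.intervalIntegrable (μ := volume) 0 (2 * π))
  simp only [Complex.imCLM_apply] at h1
  simp_rw [D_eq_im]
  rw [intervalIntegral.integral_div, h1, winding O hz]
  have : (2 * (π : ℂ) * I).im = 2 * π := by
    have : (2 * (π : ℂ) * I) = ((2 * π : ℝ) : ℂ) * I := by push_cast; ring
    rw [this, Complex.im_ofReal_mul]
    simp
  rw [this]
  field_simp

theorem exists_prim (P : ℂ[X]) : ∃ F : ℂ[X], derivative F = P := by
  induction P using Polynomial.induction_on' with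
  | add p q hp hq =>
    obtain ⟨F, hF⟩ := hp
    obtain ⟨G, hG⟩ := hq
    exact ⟨F + G, by rw [derivative_add, hF, hG]⟩
  | monomial n a =>
    refine ⟨monomial (n + 1) (a / (n + 1)), ?_⟩
    rw [derivative_monomial]
    have : (n : ℂ) + 1 ≠ 0 := Nat.cast_add_one_ne_zero n
    simp only [add_tsub_cancel_right, Nat.cast_add, Nat.cast_one]
    rw [div_mul_cancel₀ _ this]

/-- closed curve: the integral of a polynomial vanishes -/
theorem int_poly (P : ℂ[X]) :
    ∫ t in (0 : ℝ)..2 * π, P.eval (O.γ t) * (O.R t * I * nu t) = 0 := by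
  obtain ⟨F, hF⟩ := exists_prim P
  have h1 : ∀ t ∈ uIcc (0 : ℝ) (2 * π), HasDerivAt (fun t => F.eval (O.γ t))
      (P.eval (O.γ t) * (O.R t * I * nu t)) t := by
    intro t _
    have h2 := (F.hasDerivAt (O.γ t)).comp t (hasDerivAt_γ O t)
    rw [hF] at h2
    exact h2
  rw [intervalIntegral.integral_eq_sub_of_hasDerivAt h1
    (((P.continuous.comp (continuous_γ O)).mul (continuous_γ' O)).intervalIntegrable _ _)]
  have e1 : O.γ (2 * π) = O.γ 0 := by
    have := γ_per O 0
    rwa [zero_add] at this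
  rw [e1, sub_self]

theorem continuous_sp_t (z : ℂ) : Continuous fun t => sp t z := by
  unfold sp; fun_prop

theorem continuous_sp_z (t : ℝ) : Continuous fun z => sp t z := by
  unfold sp
  exact (Complex.continuous_re.mul continuous_const).add
    (Complex.continuous_im.mul continuous_const)

/-- distance of an interior point to the boundary -/
theorem exists_gap {z : ℂ} (hz : z ∈ O.op) : ∃ ε > 0, ∀ t, ε ≤ O.h t - sp t z := by
  have hc : Continuous fun t => O.h t - sp t z := (continuous_h O).sub (continuous_sp_t z)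
  obtain ⟨t₀, -, ht₀⟩ := isCompact_Icc.exists_isMinOn
    (⟨0, ⟨le_rfl, by positivity⟩⟩ : (Icc (0 : ℝ) (2 * π)).Nonempty) hc.continuousOn
  refine ⟨O.h t₀ - sp t₀ z, by linarith [hz t₀], fun t => ?_⟩
  have hper : Function.Periodic (fun t => O.h t - sp t z) (2 * π) := by
    intro t
    simp only [O.per, sp_perC]
  obtain ⟨n, hn, -⟩ := existsUnique_add_zsmul_mem_Ico (show (0 : ℝ) < 2 * π by positivity) t 0
  rw [zero_add] at hn
  have h1 := ht₀ ⟨hn.1, hn.2.le⟩
  have h2 := hper.zsmul n t
  change O.h t₀ - sp t₀ z ≤ O.h (t + n • (2 * π)) - sp (t + n • (2 * π)) z at h1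
  rw [h2] at h1
  exact h1

theorem isOpen_op : IsOpen O.op := by
  rw [Metric.isOpen_iff]
  intro z hz
  obtain ⟨ε, hε, hgap⟩ := exists_gap O hz
  refine ⟨ε, hε, fun w hw t => ?_⟩
  rw [Metric.mem_ball, dist_eq_norm] at hw
  have h1 := abs_sp_le' t (w - z)
  rw [sp_sub'] at h1
  have h2 := le_abs_self (sp t w - sp t z)
  linarith [hgap t]

theorem isClosed_cl : IsClosed O.cl := by
  have : O.cl = ⋂ t, {z | sp t z ≤ O.h t} := by
    ext z; simp [Dom.cl]
  rw [this]
  exact isClosed_iInter fun t => isClosed_le (continuous_sp_z t) continuous_const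

theorem isBounded_cl : Bornology.IsBounded O.cl := by
  obtain ⟨C, hC⟩ : ∃ C, ∀ t, O.h t ≤ C := by
    obtain ⟨t₀, -, ht₀⟩ := isCompact_Icc.exists_isMaxOn
      (⟨0, ⟨le_rfl, by positivity⟩⟩ : (Icc (0 : ℝ) (2 * π)).Nonempty) (continuous_h O).continuousOn
    refine ⟨O.h t₀, fun t => ?_⟩
    have hper : Function.Periodic O.h (2 * π) := O.per
    obtain ⟨n, hn, -⟩ := existsUnique_add_zsmul_mem_Ico (show (0 : ℝ) < 2 * π by positivity) t 0
    rw [zero_add] at hn
    rw [← hper.zsmul n t]
    exact ht₀ ⟨hn.1, hn.2.le⟩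
  rw [isBounded_iff_forall_norm_le]
  refine ⟨C, fun z hz => ?_⟩
  have h1 := hz (Complex.arg z)
  have h2 : sp (Complex.arg z) z = ‖z‖ := by
    have h3 := Complex.norm_mul_cos_arg z
    have h4 := Complex.norm_mul_sin_arg z
    have h5 := Real.sin_sq_add_cos_sq (Complex.arg z)
    have h6 : sp (Complex.arg z) z = z.re * Real.cos (Complex.arg z) +
      z.im * Real.sin (Complex.arg z) := rfl
    rw [h6]
    linear_combination ‖z‖ * h5 - Real.cos (Complex.arg z) * h3 - Real.sin (Complex.arg z) * h4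
  rw [h2] at h1
  exact h1.trans (hC _)

theorem frontier_cl {z : ℂ} (hz : z ∈ frontier O.cl) : ∃ t, z = O.γ t := by
  have hzcl : z ∈ O.cl := by
    have := frontier_subset_closure hz
    rwa [(isClosed_cl O).closure_eq] at this
  have hnot : z ∉ O.op := by
    intro h
    have h1 : O.op ⊆ interior O.cl :=
      interior_maximal (fun w hw t => (hw t).le) (isOpen_op O)
    exact hz.2 (h1 h)
  simp only [Dom.op, Set.mem_ofPred_eq, not_forall, not_lt] at hnot
  obtain ⟨t, ht⟩ := hnot
  have heq : sp t z = O.h t := le_antisymm (hzcl t) ht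
  refine ⟨t, ?_⟩
  have hd1 : HasDerivAt (fun s => sp s z - O.h s)
      (z.re * (-Real.sin t) + z.im * Real.cos t - O.h1 t) t := by
    unfold sp
    exact (((Real.hasDerivAt_cos t).const_mul z.re).add
      ((Real.hasDerivAt_sin t).const_mul z.im)).sub (O.hd t)
  have hmax : IsLocalMax (fun s => sp s z - O.h s) t := by
    refine Filter.Eventually.of_forall fun s => ?_
    show sp s z - O.h s ≤ sp t z - O.h t
    rw [heq, sub_self]
    linarith [hzcl s]
  have hzero := hmax.hasDerivAt_eq_zero hd1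
  have h3 : conj (nu t) * z = O.h t + O.h1 t * I := by
    apply Complex.ext
    · rw [← sp_eq, heq]; simp
    · rw [Complex.mul_im, Complex.conj_re, Complex.conj_im, nu_re, nu_im]
      simp
      linarith
  unfold Dom.γ
  rw [← h3]
  have := conj_nu_mul t
  linear_combination (-z) * this

theorem max_mod (P : ℂ[X]) {C : ℝ} (h : ∀ t, ‖P.eval (O.γ t)‖ ≤ C) {z : ℂ} (hz : z ∈ O.cl) :
    ‖P.eval z‖ ≤ C := by
  have hd : DiffContOnCl ℂ (fun w => P.eval w) O.cl := P.differentiable.diffContOnCl
  refine Complex.norm_le_of_forall_mem_frontier_norm_le (isBounded_cl O) hd ?_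
    (subset_closure hz)
  intro w hw
  obtain ⟨t, rfl⟩ := frontier_cl O hw
  exact h t

end Curve

end P123
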