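import Mathlib

/-!
# P123 : definitions

Smooth strictly convex domains given by their support function, the numerical range, and the
abstract system used in the proof of the strict improvement of the Crouzeix-Palencia bound.
-/

namespace P123

open MeasureTheory Complex Polynomial Set
open scoped Real ComplexConjugate

universe u

/-- the numerical range `{⟨Ax, x⟩ : ‖x‖ = 1}` (inner product linear in the first argument) -/
def numRange {H : Type*} [NormedAddCommGroup H] [InnerProductSpace ℂ H] (A : H →L[ℂ] H) : Set ℂ :=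
  {z | ∃ x : H, ‖x‖ = 1 ∧ inner ℂ x (A x) = z}

/-- A smooth strictly convex domain, given by its support function `h` with derivatives
`h1`, `h2`; `h + h2 > 0` is the radius of curvature. -/
structure Dom where
  h : ℝ → ℝ
  h1 : ℝ → ℝ
  h2 : ℝ → ℝ
  hd : ∀ t, HasDerivAt h (h1 t) t
  hd1 : ∀ t, HasDerivAt h1 (h2 t) t
  cont : Continuous h2
  per : ∀ t, h (t + 2 * π) = h t
  pos : ∀ t, 0 < h t + h2 t

/-- `e^{it}` -/
noncomputable def nu (t : ℝ) : ℂ := Complex.exp (t * I)

/-- `Re (e^{-it} z)` -/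
noncomputable def sp (t : ℝ) (z : ℂ) : ℝ := z.re * Real.cos t + z.im * Real.sin t

namespace Dom

variable (O : Dom)

/-- radius of curvature -/
noncomputable def R (t : ℝ) : ℝ := O.h t + O.h2 t

/-- the boundary curve, `γ' = R i e^{it}` -/
noncomputable def γ (t : ℝ) : ℂ := (O.h t + O.h1 t * I) * nu t

/-- `D z t dt / 2 = ω_z(dt)` is the angle under which `γ(dt)` is seen from `z`, divided by `2π`
(mass 1 for `z` inside); `D (γ s) t dt` is the double layer (probability) kernel `μ_s(dt)`. -/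
noncomputable def D (z : ℂ) (t : ℝ) : ℝ := O.R t / π * (nu t / (O.γ t - z)).re

/-- the closed convex domain -/
def cl : Set ℂ := {z | ∀ t, sp t z ≤ O.h t}

/-- the open convex domain -/
def op : Set ℂ := {z | ∀ t, sp t z < O.h t}

/-- the numerical range of `A` is inside `O`, at distance at least `d` from the boundary -/
def Inside {H : Type*} [NormedAddCommGroup H] [InnerProductSpace ℂ H] (A : H →L[ℂ] H)
    (d : ℝ) : Prop := ∀ t x, sp t (inner ℂ x (A x)) ≤ (O.h t - d) * ‖x‖ ^ 2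

/-- `T u (s) = ∫ conj u dμ_s` -/
noncomputable def T (u : ℝ → ℂ) (s : ℝ) : ℂ :=
  ∫ t in (0 : ℝ)..2 * π, (O.D (O.γ s) t : ℂ) * conj (u t)

end Dom

/-- the chord `[γ t, γ t']` is good: the ball of radius `|γ t - γ t'| / 80` around its midpoint
is inside the domain -/
def Good (O : Dom) (t t' : ℝ) : Prop :=
  O.γ t ≠ O.γ t' ∧
  ∀ β, sp β ((O.γ t + O.γ t') / 2) + ‖O.γ t - O.γ t'‖ / 80 ≤ O.h β

/-- The closed algebra generated by `A` and the coordinate function on the boundary, with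
the positive operator valued measure `M` and the optimal constant `K`. -/
structure Sys (O : Dom) (H : Type u) [NormedAddCommGroup H] [InnerProductSpace ℂ H]
    [CompleteSpace H] (A : H →L[ℂ] H) where
  B : Type u
  [ring : CommRing B]
  [alg : Algebra ℂ B]
  op : B →ₐ[ℂ] (H →L[ℂ] H)
  ev : B →ₐ[ℂ] (ℝ → ℂ)
  X : B
  op_X : op X = A
  ev_X : ev X = O.γ
  cont_ev : ∀ b, Continuous (ev b)
  per_ev : ∀ b t, ev b (t + 2 * π) = ev b t
  M : ℝ → H →L[ℂ] H
  cont_M : Continuous M
  selfadj_M : ∀ t x y, inner ℂ (M t x) y = inner ℂ x (M t y)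
  nonneg_M : ∀ t x, 0 ≤ (inner ℂ x (M t x)).re
  int_M : ∫ t in (0 : ℝ)..2 * π, M t = 1
  K : ℝ
  norm_le : ∀ b C, (∀ t, ‖ev b t‖ ≤ C) → ‖op b‖ ≤ K * C
  sup : ∀ τ > 0, ∃ P : ℂ[X], (∀ t, ‖P.eval (O.γ t)‖ ≤ 1) ∧ K - τ ≤ ‖aeval A P‖
  T : B → B
  ev_T : ∀ b, ev (T b) = O.T (ev b)
  op_T : ∀ b, op (T b) + ContinuousLinearMap.adjoint (op b) =
    (2 : ℂ) • ∫ t in (0 : ℝ)..2 * π, conj (ev b t) • M t

attribute [instance] Sys.ring Sys.alg

end P123
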