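import Vale.Agent.P123.Angle

/-!
# P123, module Ext : near-extremal functions
-/

namespace P123

open MeasureTheory Complex Polynomial Set
open scoped Real ComplexConjugate

universe u

section

variable {O : Dom} {H : Type u} [NormedAddCommGroup H] [InnerProductSpace ℂ H]
  [CompleteSpace H] {A : H →L[ℂ] H} (S : Sys O H A)

theorem op_aeval (P : ℂ[X]) : S.op (aeval S.X P) = aeval A P := by
  rw [← Polynomial.aeval_algHom_apply, S.op_X]

theorem ev_aeval (P : ℂ[X]) (t : ℝ) : S.ev (aeval S.X P) t = P.eval (O.γ t) := by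
  have h : S.ev (aeval S.X P) = aeval O.γ P := by
    rw [← Polynomial.aeval_algHom_apply, S.ev_X]
  rw [h]
  have h2 := Polynomial.aeval_algHom_apply (Pi.evalAlgHom ℂ (fun _ : ℝ => ℂ) t) O.γ P
  rw [Pi.evalAlgHom_apply, Pi.evalAlgHom_apply] at h2
  rw [← h2, Polynomial.aeval_def, Polynomial.eval₂_eq_eval_map]
  simp

theorem inner_self' {H : Type*} [NormedAddCommGroup H] [InnerProductSpace ℂ H] (x : H) :
    inner ℂ x x = ((‖x‖ ^ 2 : ℝ) : ℂ) := by
  rw [inner_self_eq_norm_sq_to_K]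
  push_cast
  rfl

omit [CompleteSpace H] in
theorem exists_unit {a : H →L[ℂ] H} {r : ℝ} (hr0 : 0 ≤ r) (hr : r < ‖a‖) :
    ∃ x : H, ‖x‖ = 1 ∧ r ≤ ‖a x‖ := by
  obtain ⟨x, hx1, hx2⟩ := a.exists_lt_apply_of_lt_opNorm hr
  have hx0 : x ≠ 0 := by
    rintro rfl
    rw [map_zero, norm_zero] at hx2
    linarith
  have hpos : 0 < ‖x‖ := norm_pos_iff.mpr hx0
  refine ⟨((‖x‖⁻¹ : ℝ) : ℂ) • x, ?_, ?_⟩
  · rw [norm_smul, Complex.norm_real, norm_inv, norm_norm, inv_mul_cancel₀ hpos.ne']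
  · rw [map_smul, norm_smul, Complex.norm_real, norm_inv, norm_norm]
    have h1 : 1 ≤ ‖x‖⁻¹ := (one_le_inv₀ hpos).mpr hx1.le
    nlinarith [norm_nonneg (a x)]

theorem near_ext [Nontrivial H] (hK : 1 ≤ S.K) {ι M₀ : ℝ} (hι : 0 < ι) (hM : 0 ≤ M₀) :
    ∃ (P : ℂ[X]) (f : S.B) (x y : H), (∀ t, ‖P.eval (O.γ t)‖ ≤ 1) ∧
      (∀ t, S.ev f t = P.eval (O.γ t)) ∧ ‖x‖ = 1 ∧ ‖y‖ ≤ 1 ∧ (S.K : ℂ) • y = S.op f x ∧
      (∀ b, (∀ t, ‖S.ev b t‖ ≤ M₀) →
        ‖inner ℂ y (S.op b y) - inner ℂ x (S.op b x)‖ ≤ ι) ∧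
      (∀ b (c : ℝ), (∀ t, (S.ev b t).re ≤ c) → (∀ t, ‖S.ev b t - c‖ ≤ M₀) →
        (inner ℂ x (S.op b x)).re ≤ c + ι) := by
  set K := S.K with hKdef
  have hK0 : 0 < K := by linarith
  -- small parameter
  obtain ⟨ς, hς0, hς1, hςM⟩ : ∃ ς : ℝ, 0 < ς ∧ ς ≤ 1 ∧ ς * (M₀ ^ 2 / 2 + 1 + M₀) ≤ ι := by
    have hpos : 0 < M₀ ^ 2 / 2 + 1 + M₀ := by positivity
    refine ⟨min 1 (ι / (M₀ ^ 2 / 2 + 1 + M₀)), by positivity, min_le_left _ _, ?_⟩
    calc min 1 (ι / (M₀ ^ 2 / 2 + 1 + M₀)) * (M₀ ^ 2 / 2 + 1 + M₀)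
        ≤ (ι / (M₀ ^ 2 / 2 + 1 + M₀)) * (M₀ ^ 2 / 2 + 1 + M₀) :=
          mul_le_mul_of_nonneg_right (min_le_right _ _) hpos.le
      _ = ι := div_mul_cancel₀ _ hpos.ne'
  set σ := ς ^ 2 with hσ
  have hσ0 : 0 < σ := by positivity
  set τ := σ ^ 2 / (4 * K) with hτ
  have hτ0 : 0 < τ := by positivity
  have hσ1 : σ ≤ 1 := by
    rw [hσ]; nlinarith
  have hτK : 2 * τ ≤ K := by
    rw [hτ, mul_div_assoc', div_le_iff₀ (by positivity)]
    nlinarith
  obtain ⟨P, hP1, hP2⟩ := S.sup τ hτ0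
  set f := aeval S.X P with hf
  have hopf : S.op f = aeval A P := op_aeval S P
  have hevf : ∀ t, S.ev f t = P.eval (O.γ t) := ev_aeval S P
  set a := S.op f with ha
  rw [← hopf] at hP2
  have haK : ‖a‖ ≤ K := by
    have := S.norm_le f 1 (fun t => by rw [hevf]; exact hP1 t)
    linarith
  obtain ⟨x, hx, hax⟩ : ∃ x : H, ‖x‖ = 1 ∧ K - 2 * τ ≤ ‖a x‖ :=
    exists_unit (by linarith) (by linarith)
  have hax2 : ‖a x‖ ≤ K := by
    have := a.le_opNorm x
    rw [hx, mul_one] at this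
    linarith
  set y := ((K⁻¹ : ℝ) : ℂ) • a x with hy
  have hKy : (K : ℂ) • y = a x := by
    rw [hy, smul_smul, ← Complex.ofReal_mul, mul_inv_cancel₀ hK0.ne', Complex.ofReal_one, one_smul]
  have hynorm : ‖y‖ = ‖a x‖ / K := by
    rw [hy, norm_smul, Complex.norm_real, norm_inv, Real.norm_of_nonneg hK0.le]
    field_simp
  have hy1 : ‖y‖ ≤ 1 := by
    rw [hynorm, div_le_one hK0]; exact hax2
  -- the error vector
  set e := ContinuousLinearMap.adjoint a y - (K : ℂ) • x with he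
  have he1 : ‖e‖ ≤ σ := by
    have h1 : ‖e‖ ^ 2 ≤ σ ^ 2 := by
      rw [he, @norm_sub_sq ℂ]
      have h2 : ‖ContinuousLinearMap.adjoint a y‖ ≤ K * ‖y‖ := by
        refine (ContinuousLinearMap.le_opNorm _ _).trans ?_
        rw [LinearIsometryEquiv.norm_map]
        exact mul_le_mul_of_nonneg_right haK (norm_nonneg _)
      have h3 : inner ℂ (ContinuousLinearMap.adjoint a y) ((K : ℂ) • x) =
          ((K ^ 2 * ‖y‖ ^ 2 : ℝ) : ℂ) := by
        rw [ContinuousLinearMap.adjoint_inner_left, map_smul, ← hKy, inner_smul_right,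
          inner_smul_right, inner_self']
        push_cast
        ring
      rw [h3]
      have h4 : ‖(K : ℂ) • x‖ = K := by
        rw [norm_smul, Complex.norm_real, Real.norm_of_nonneg hK0.le, hx, mul_one]
      rw [h4]
      have h5 : ‖ContinuousLinearMap.adjoint a y‖ ^ 2 ≤ (K * ‖y‖) ^ 2 :=
        pow_le_pow_left₀ (norm_nonneg _) h2 2
      have h6 : K * ‖y‖ = ‖a x‖ := by rw [hynorm]; field_simp
      have h7 : K ^ 2 - ‖a x‖ ^ 2 ≤ σ ^ 2 := by
        have : (K - 2 * τ) ^ 2 ≤ ‖a x‖ ^ 2 := pow_le_pow_left₀ (by linarith) hax 2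
        have h8 : 4 * K * τ = σ ^ 2 := by
          rw [hτ]; field_simp
        nlinarith
      have h9 : (K * ‖y‖) ^ 2 = K ^ 2 * ‖y‖ ^ 2 := by ring
      rw [h6] at h5
      have h10 : K ^ 2 * ‖y‖ ^ 2 = ‖a x‖ ^ 2 := by rw [← h9, h6]
      simp only [RCLike.re_to_complex, Complex.ofReal_re]
      rw [h10]
      linarith
    exact le_of_sq_le_sq h1 hσ0.le
  have hay : ContinuousLinearMap.adjoint a y = (K : ℂ) • x + e := by
    rw [he]; abel
  -- the basic formula
  have hbas : ∀ b : S.B, inner ℂ y (a (S.op b x)) =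
      K * inner ℂ x (S.op b x) + inner ℂ e (S.op b x) := by
    intro b
    rw [← ContinuousLinearMap.adjoint_inner_left, hay, inner_add_left, inner_smul_left,
      Complex.conj_ofReal]
  have hcomm : ∀ b : S.B, ∀ z : H, a (S.op b z) = S.op b (a z) := by
    intro b z
    have : a * S.op b = S.op b * a := by
      rw [ha, ← map_mul, mul_comm, map_mul]
    exact congrArg (fun T => T z) this
  have heop : ∀ (b : S.B) (C : ℝ), (∀ t, ‖S.ev b t‖ ≤ C) →
      ‖inner ℂ e (S.op b x)‖ ≤ σ * (K * C) := by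
    intro b C hb
    have hC : 0 ≤ C := (norm_nonneg _).trans (hb 0)
    have h1 := S.norm_le b C hb
    have h2 := (S.op b).le_opNorm x
    rw [hx, mul_one] at h2
    calc ‖inner ℂ e (S.op b x)‖ ≤ ‖e‖ * ‖S.op b x‖ := norm_inner_le_norm _ _
      _ ≤ σ * (K * C) := mul_le_mul he1 (h2.trans h1) (norm_nonneg _) hσ0.le
  refine ⟨P, f, x, y, hP1, hevf, hx, hy1, hKy, ?_, ?_⟩
  · intro b hb
    have h1 : inner ℂ y (S.op b y) = inner ℂ x (S.op b x) + (K : ℂ)⁻¹ * inner ℂ e (S.op b x) := by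
      have h2 : S.op b y = (K : ℂ)⁻¹ • a (S.op b x) := by
        have h3 : a (S.op b x) = (K : ℂ) • S.op b y := by
          rw [hcomm, ← map_smul, hKy]
        rw [h3, smul_smul, inv_mul_cancel₀ (by exact_mod_cast hK0.ne'), one_smul]
      rw [h2, inner_smul_right, hbas, mul_add, ← mul_assoc,
        inv_mul_cancel₀ (by exact_mod_cast hK0.ne'), one_mul]
    rw [h1, add_sub_cancel_left, norm_mul, norm_inv, Complex.norm_real,
      Real.norm_of_nonneg hK0.le]
    have h3 := heop b M₀ hb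
    calc K⁻¹ * ‖inner ℂ e (S.op b x)‖ ≤ K⁻¹ * (σ * (K * M₀)) :=
          mul_le_mul_of_nonneg_left h3 (by positivity)
      _ = σ * M₀ := by field_simp
      _ ≤ ς * (M₀ ^ 2 / 2 + 1 + M₀) := by
          rw [hσ]
          have : ς ^ 2 ≤ ς := by nlinarith
          nlinarith [sq_nonneg M₀]
      _ ≤ ι := hςM
  · intro b c hb1 hb2
    set w : S.B := 1 + algebraMap ℂ S.B (ς : ℂ) * (b - algebraMap ℂ S.B (c : ℂ)) with hw
    have hevw : ∀ t, S.ev w t = 1 + ς * (S.ev b t - c) := by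
      intro t
      rw [hw, map_add, map_mul, map_sub, map_one, AlgHom.commutes, AlgHom.commutes]
      rfl
    have hw1 : ∀ t, ‖S.ev w t‖ ≤ 1 + ς * M₀ := by
      intro t
      rw [hevw]
      refine (norm_add_le _ _).trans ?_
      rw [norm_one, norm_mul, Complex.norm_real, Real.norm_of_nonneg hς0.le]
      have := mul_le_mul_of_nonneg_left (hb2 t) hς0.le
      linarith
    have hw2 : ∀ t, ‖S.ev w t‖ ≤ 1 + ς ^ 2 * M₀ ^ 2 / 2 := by
      intro t
      rw [hevw]
      have h1 : ‖(1 : ℂ) + ς * (S.ev b t - c)‖ ^ 2 ≤ (1 + ς ^ 2 * M₀ ^ 2 / 2) ^ 2 := by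
        have h2 : ‖(1 : ℂ) + ς * (S.ev b t - c)‖ ^ 2 = 1 + 2 * ς * ((S.ev b t).re - c) +
            ς ^ 2 * ‖S.ev b t - c‖ ^ 2 := by
          rw [← Complex.normSq_eq_norm_sq, ← Complex.normSq_eq_norm_sq, Complex.normSq_apply,
            Complex.normSq_apply]
          simp
          ring
        rw [h2]
        have h3 : ‖S.ev b t - c‖ ^ 2 ≤ M₀ ^ 2 := pow_le_pow_left₀ (norm_nonneg _) (hb2 t) 2
        have h4 : ς * ((S.ev b t).re - c) ≤ 0 :=
          mul_nonpos_of_nonneg_of_nonpos hς0.le (by linarith [hb1 t])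
        have h5 : ς ^ 2 * ‖S.ev b t - c‖ ^ 2 ≤ ς ^ 2 * M₀ ^ 2 :=
          mul_le_mul_of_nonneg_left h3 (by positivity)
        nlinarith [sq_nonneg (ς ^ 2 * M₀ ^ 2)]
      exact le_of_sq_le_sq h1 (by positivity)
    have hfw : ‖S.op (f * w)‖ ≤ K * (1 + ς ^ 2 * M₀ ^ 2 / 2) := by
      refine S.norm_le _ _ fun t => ?_
      rw [map_mul, Pi.mul_apply, norm_mul, hevf]
      calc ‖P.eval (O.γ t)‖ * ‖S.ev w t‖ ≤ 1 * (1 + ς ^ 2 * M₀ ^ 2 / 2) :=
            mul_le_mul (hP1 t) (hw2 t) (norm_nonneg _) zero_le_one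
        _ = _ := one_mul _
    have h1 : (inner ℂ y (a (S.op w x))).re ≤ K * (1 + ς ^ 2 * M₀ ^ 2 / 2) := by
      have h2 : a (S.op w x) = S.op (f * w) x := by
        rw [map_mul]; rfl
      rw [h2]
      calc (inner ℂ y (S.op (f * w) x)).re ≤ ‖inner ℂ y (S.op (f * w) x)‖ :=
            Complex.re_le_norm _
        _ ≤ ‖y‖ * ‖S.op (f * w) x‖ := norm_inner_le_norm _ _
        _ ≤ 1 * (‖S.op (f * w)‖ * ‖x‖) :=
            mul_le_mul hy1 ((S.op (f * w)).le_opNorm x) (norm_nonneg _) zero_le_one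
        _ ≤ K * (1 + ς ^ 2 * M₀ ^ 2 / 2) := by rw [hx, one_mul, mul_one]; exact hfw
    rw [hbas w] at h1
    have h3 := heop w _ hw1
    have h4 : inner ℂ x (S.op w x) = 1 + ς * (inner ℂ x (S.op b x) - c) := by
      have : S.op w x = x + (ς : ℂ) • (S.op b x - (c : ℂ) • x) := by
        rw [hw, map_add, map_mul, map_sub, map_one, AlgHom.commutes, AlgHom.commutes]
        simp [Algebra.algebraMap_eq_smul_one]
      rw [this, inner_add_right, inner_smul_right, inner_sub_right, inner_smul_right,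
        inner_self', hx]
      simp
    rw [h4] at h1
    have h5 : ((K : ℂ) * (1 + ς * (inner ℂ x (S.op b x) - c)) + inner ℂ e (S.op w x)).re =
        K * (1 + ς * ((inner ℂ x (S.op b x)).re - c)) + (inner ℂ e (S.op w x)).re := by
      rw [Complex.add_re, Complex.re_ofReal_mul, Complex.add_re, Complex.re_ofReal_mul,
        Complex.sub_re, Complex.ofReal_re, Complex.one_re]
    rw [h5] at h1
    have h6 : -(σ * (K * (1 + ς * M₀))) ≤ (inner ℂ e (S.op w x)).re := by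
      have := Complex.abs_re_le_norm (inner ℂ e (S.op w x))
      have := neg_abs_le (inner ℂ e (S.op w x)).re
      linarith
    set φ := (inner ℂ x (S.op b x)).re with hφ
    have h7 : K * (ς * (φ - c)) ≤ K * (ς * (ς * (M₀ ^ 2 / 2 + 1 + M₀))) := by
      have hςM : ς * M₀ ≤ M₀ := mul_le_of_le_one_left hM hς1
      have h8 : K * (σ * (1 + ς * M₀)) ≤ K * (σ * (1 + M₀)) :=
        mul_le_mul_of_nonneg_left (mul_le_mul_of_nonneg_left (by linarith) hσ0.le) hK0.le
      have e1 : K * (1 + ς * (φ - c)) = K + K * (ς * (φ - c)) := by ring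
      have e2 : K * (1 + ς ^ 2 * M₀ ^ 2 / 2) = K + K * (σ * (M₀ ^ 2 / 2)) := by rw [hσ]; ring
      have e3 : σ * (K * (1 + ς * M₀)) = K * (σ * (1 + ς * M₀)) := by ring
      have e4 : K * (ς * (ς * (M₀ ^ 2 / 2 + 1 + M₀))) =
          K * (σ * (M₀ ^ 2 / 2)) + K * (σ * (1 + M₀)) := by rw [hσ]; ring
      rw [e1, e2] at h1
      rw [e3] at h6
      rw [e4]
      linarith
    have h8 : ς * (φ - c) ≤ ς * (ς * (M₀ ^ 2 / 2 + 1 + M₀)) := le_of_mul_le_mul_left h7 hK0
    have h9 : φ - c ≤ ς * (M₀ ^ 2 / 2 + 1 + M₀) := le_of_mul_le_mul_left h8 hς0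
    linarith

end

section Tfacts

variable {O : Dom}

theorem intble_Dmul (s : ℝ) {u : ℝ → ℂ} (hu : Continuous u) :
    IntervalIntegrable (fun t => (O.D (O.γ s) t : ℂ) * u t) volume 0 (2 * π) := by
  have h1 : IntervalIntegrable (fun t => (O.D (O.γ s) t : ℂ)) volume 0 (2 * π) :=
    ⟨(intble_D O s 0 (2 * π)).1.ofReal, (intble_D O s 0 (2 * π)).2.ofReal⟩
  exact h1.mul_continuousOn hu.continuousOn

theorem intble_Dmul_real (s : ℝ) {u : ℝ → ℝ} (hu : Continuous u) :
    IntervalIntegrable (fun t => O.D (O.γ s) t * u t) volume 0 (2 * π) :=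
  (intble_D O s 0 (2 * π)).mul_continuousOn hu.continuousOn

theorem norm_T_le {u : ℝ → ℂ} {C : ℝ} (hC : ∀ t, ‖u t‖ ≤ C) (s : ℝ) : ‖O.T u s‖ ≤ C := by
  have h1 : ‖O.T u s‖ ≤ ∫ t in (0 : ℝ)..2 * π, O.D (O.γ s) t * C := by
    refine intervalIntegral.norm_integral_le_of_norm_le (by positivity)
      (Filter.Eventually.of_forall fun t _ => ?_) ((intble_D O s 0 (2 * π)).mul_const C)
    rw [norm_mul, Complex.norm_real, RCLike.norm_conj,
      Real.norm_of_nonneg (D_nonneg O (γ_mem O s) t)]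
    exact mul_le_mul_of_nonneg_left (hC t) (D_nonneg O (γ_mem O s) t)
  rw [intervalIntegral.integral_mul_const, int_D_γ, one_mul] at h1
  exact h1

theorem norm_fT_le {f k : ℝ → ℂ} (hf : Continuous f) (hk : Continuous k)
    (hf1 : ∀ t, ‖f t‖ ≤ 1) (hk1 : ∀ t, ‖k t‖ ≤ 1) {β : ℝ} (hβ : 0 < β) (s : ℝ) :
    ‖f s * O.T (fun t => k t * f t) s + O.T k s‖ ≤
      (β + 2 * (1 + (f s * O.T f s).re) / β) / 2 := by
  have hcf : Continuous fun t => conj (f t) := Complex.continuous_conj.comp hf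
  have hck : Continuous fun t => conj (k t) := Complex.continuous_conj.comp hk
  have e1 : f s * O.T (fun t => k t * f t) s + O.T k s =
      ∫ t in (0 : ℝ)..2 * π, (O.D (O.γ s) t : ℂ) * (conj (k t) * (1 + f s * conj (f t))) := by
    unfold Dom.T
    rw [← intervalIntegral.integral_const_mul, ← intervalIntegral.integral_add]
    · refine intervalIntegral.integral_congr fun t _ => ?_
      simp only [map_mul]
      ring
    · refine IntervalIntegrable.const_mul ?_ _
      simp only [map_mul]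
      exact intble_Dmul s (hck.mul hcf)
    · exact intble_Dmul s hck
  have e2 : ‖f s * O.T (fun t => k t * f t) s + O.T k s‖ ≤
      ∫ t in (0 : ℝ)..2 * π, O.D (O.γ s) t *
        ((β + (2 + 2 * (f s * conj (f t)).re) / β) / 2) := by
    rw [e1]
    refine intervalIntegral.norm_integral_le_of_norm_le (by positivity)
      (Filter.Eventually.of_forall fun t _ => ?_) (intble_Dmul_real s ?_)
    · rw [norm_mul, Complex.norm_real, Real.norm_of_nonneg (D_nonneg O (γ_mem O s) t)]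
      apply mul_le_mul_of_nonneg_left _ (D_nonneg O (γ_mem O s) t)
      rw [norm_mul, RCLike.norm_conj]
      set z := f s * conj (f t) with hz
      have hz1 : ‖z‖ ≤ 1 := by
        rw [hz, norm_mul, RCLike.norm_conj]
        exact mul_le_one₀ (hf1 s) (norm_nonneg _) (hf1 t)
      have h2 : ‖1 + z‖ ^ 2 ≤ 2 + 2 * z.re := by
        have h3 : ‖1 + z‖ ^ 2 = 1 + 2 * z.re + ‖z‖ ^ 2 := by
          rw [← Complex.normSq_eq_norm_sq, ← Complex.normSq_eq_norm_sq, Complex.normSq_apply,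
            Complex.normSq_apply]
          simp
          ring
        rw [h3]
        have : ‖z‖ ^ 2 ≤ 1 := pow_le_one₀ (norm_nonneg _) hz1
        linarith
      have h4 : ‖1 + z‖ ≤ (β + (2 + 2 * z.re) / β) / 2 := by
        have h5 : ‖1 + z‖ ≤ (β + ‖1 + z‖ ^ 2 / β) / 2 := by
          have h6 : 0 ≤ (β - ‖1 + z‖) ^ 2 / β := by positivity
          have h7 : (β - ‖1 + z‖) ^ 2 / β = β - 2 * ‖1 + z‖ + ‖1 + z‖ ^ 2 / β := by
            field_simp
            ring
          linarith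
        have h6 : ‖1 + z‖ ^ 2 / β ≤ (2 + 2 * z.re) / β := div_le_div_of_nonneg_right h2 hβ.le
        linarith
      calc ‖k t‖ * ‖1 + z‖ ≤ 1 * ‖1 + z‖ :=
            mul_le_mul_of_nonneg_right (hk1 t) (norm_nonneg _)
        _ ≤ _ := by rw [one_mul]; exact h4
    · fun_prop
  refine e2.trans (le_of_eq ?_)
  have e3 : ∀ t, O.D (O.γ s) t * ((β + (2 + 2 * (f s * conj (f t)).re) / β) / 2) =
      O.D (O.γ s) t * ((β + 2 / β) / 2) + (1 / β) * (f s * ((O.D (O.γ s) t : ℂ) *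
        conj (f t))).re := by
    intro t
    have : f s * ((O.D (O.γ s) t : ℂ) * conj (f t)) =
      (O.D (O.γ s) t : ℂ) * (f s * conj (f t)) := by ring
    rw [this, Complex.re_ofReal_mul]
    field_simp
    ring
  simp_rw [e3]
  rw [intervalIntegral.integral_add, intervalIntegral.integral_mul_const, int_D_γ,
    intervalIntegral.integral_const_mul]
  · have e4 : ∫ t in (0 : ℝ)..2 * π, (f s * ((O.D (O.γ s) t : ℂ) * conj (f t))).re =
        (f s * O.T f s).re := by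
      have h8 := (intble_Dmul (O := O) s hcf).const_mul (f s)
      have h9 := Complex.reCLM.intervalIntegral_comp_comm h8
      simp only [Complex.reCLM_apply] at h9
      rw [h9, intervalIntegral.integral_const_mul]
      rfl
    rw [e4]
    field_simp
    ring
  · exact (intble_D O s 0 (2 * π)).mul_const _
  · refine IntervalIntegrable.const_mul ?_ _
    have h8 := (intble_Dmul (O := O) s hcf).const_mul (f s)
    exact ⟨h8.1.re, h8.2.re⟩

end Tfacts

section Mfacts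

variable {O : Dom} {H : Type u} [NormedAddCommGroup H] [InnerProductSpace ℂ H]
  [CompleteSpace H] {A : H →L[ℂ] H} (S : Sys O H A)

theorem continuous_inner_M (x y : H) : Continuous fun t => inner ℂ x (S.M t y) := by
  have h1 : Continuous fun t => S.M t y := S.cont_M.clm_apply continuous_const
  exact continuous_const.inner h1

/-- positivity: Cauchy-Schwarz -/
theorem inner_M_le (t : ℝ) (x z : H) {α : ℝ} (hα : 0 < α) :
    ‖inner ℂ x (S.M t z)‖ ≤ (α * (inner ℂ x (S.M t x)).re + (inner ℂ z (S.M t z)).re / α) / 2 := by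
  -- choose the phase
  obtain ⟨c, hc, hcz⟩ : ∃ c : ℂ, ‖c‖ = 1 ∧ c * inner ℂ x (S.M t z) = ‖inner ℂ x (S.M t z)‖ := by
    by_cases h0 : inner ℂ x (S.M t z) = 0
    · exact ⟨1, norm_one, by rw [h0]; simp⟩
    · refine ⟨conj (inner ℂ x (S.M t z)) / ‖inner ℂ x (S.M t z)‖, ?_, ?_⟩
      · rw [norm_div, RCLike.norm_conj, Complex.norm_real, norm_norm,
          div_self (norm_ne_zero_iff.mpr h0)]
      · have hn : (‖inner ℂ x (S.M t z)‖ : ℂ) ≠ 0 := by
          exact_mod_cast norm_ne_zero_iff.mpr h0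
        rw [div_mul_eq_mul_div, div_eq_iff hn, ← Complex.normSq_eq_conj_mul_self,
          Complex.normSq_eq_norm_sq]
        push_cast
        ring
  have h1 := S.nonneg_M t ((α : ℂ) • x - c • z)
  have h2 : inner ℂ ((α : ℂ) • x - c • z) (S.M t ((α : ℂ) • x - c • z)) =
      (α : ℂ) ^ 2 * inner ℂ x (S.M t x) - α * (c * inner ℂ x (S.M t z)) -
        α * conj (c * inner ℂ x (S.M t z)) + (conj c * c) * inner ℂ z (S.M t z) := by
    have h3 : inner ℂ z (S.M t x) = conj (inner ℂ x (S.M t z)) := by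
      rw [inner_conj_symm, S.selfadj_M]
    rw [map_sub, map_smul, map_smul, inner_sub_left, inner_sub_right, inner_sub_right,
      inner_smul_left, inner_smul_left, inner_smul_left, inner_smul_left, inner_smul_right,
      inner_smul_right, inner_smul_right, inner_smul_right, h3, Complex.conj_ofReal, map_mul]
    ring
  have hcc : conj c * c = 1 := by
    rw [← Complex.normSq_eq_conj_mul_self, Complex.normSq_eq_norm_sq, hc]
    simp
  have hr : (inner ℂ ((α : ℂ) • x - c • z) (S.M t ((α : ℂ) • x - c • z))).re =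
      α ^ 2 * (inner ℂ x (S.M t x)).re - 2 * α * ‖inner ℂ x (S.M t z)‖ +
        (inner ℂ z (S.M t z)).re := by
    rw [h2, hcz, Complex.conj_ofReal, hcc, one_mul]
    have h4 : (α : ℂ) ^ 2 = ((α ^ 2 : ℝ) : ℂ) := by push_cast; ring
    rw [h4, Complex.add_re, Complex.sub_re, Complex.sub_re, Complex.re_ofReal_mul,
      ← Complex.ofReal_mul, Complex.ofReal_re]
    ring
  have h5 : 0 ≤ (inner ℂ ((α : ℂ) • x - c • z) (S.M t ((α : ℂ) • x - c • z))).re := by
    exact S.nonneg_M t ((α : ℂ) • x - c • z)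
  rw [hr] at h5
  have h6 : (α * (inner ℂ x (S.M t x)).re + (inner ℂ z (S.M t z)).re / α) / 2 =
      (α ^ 2 * (inner ℂ x (S.M t x)).re + (inner ℂ z (S.M t z)).re) / (2 * α) := by
    field_simp
  rw [h6, le_div_iff₀ (by positivity)]
  linarith

theorem inner_M_nonneg (t : ℝ) (x : H) : 0 ≤ (inner ℂ x (S.M t x)).re := by
  exact S.nonneg_M t x

theorem inner_M_im (t : ℝ) (x : H) : inner ℂ x (S.M t x) = ((inner ℂ x (S.M t x)).re : ℂ) := by
  have h1 : conj (inner ℂ x (S.M t x)) = inner ℂ x (S.M t x) := by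
    rw [inner_conj_symm, S.selfadj_M]
  exact (Complex.conj_eq_iff_re.mp h1).symm

theorem int_apply {u : ℝ → H →L[ℂ] H} (hu : Continuous u) (x y : H) :
    inner ℂ x ((∫ t in (0 : ℝ)..2 * π, u t) y) = ∫ t in (0 : ℝ)..2 * π, inner ℂ x (u t y) := by
  have h1 := ((innerSL ℂ x).comp (ContinuousLinearMap.apply ℂ H y)).intervalIntegral_comp_comm
    (hu.intervalIntegrable (μ := volume) 0 (2 * π))
  simpa using h1.symm

theorem int_inner_M (x y : H) : ∫ t in (0 : ℝ)..2 * π, inner ℂ x (S.M t y) = inner ℂ x y := by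
  rw [← int_apply S.cont_M, S.int_M]
  rfl

theorem inner_T (b : S.B) (x y : H) : inner ℂ x (S.op (S.T b) y) + inner ℂ (S.op b x) y =
    2 * ∫ t in (0 : ℝ)..2 * π, conj (S.ev b t) * inner ℂ x (S.M t y) := by
  have h1 := congrArg (fun T : H →L[ℂ] H => inner ℂ x (T y)) (S.op_T b)
  simp only [add_apply, smul_apply, inner_add_right,
    inner_smul_right, ContinuousLinearMap.adjoint_inner_right] at h1
  rw [h1, int_apply]
  · congr 1
    refine intervalIntegral.integral_congr fun t _ => ?_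
    simp only [smul_apply, inner_smul_right]
  · exact (Complex.continuous_conj.comp (S.cont_ev b)).smul S.cont_M

end Mfacts

section Core

variable {O : Dom} {H : Type u} [NormedAddCommGroup H] [InnerProductSpace ℂ H]
  [CompleteSpace H] {A : H →L[ℂ] H} (S : Sys O H A)

/-- algebra of the final step -/
theorem core_algebra {K E₁ E₂ E₄ ι : ℝ} (hK : 1 < K) {a c h w : ℂ}
    (h1 : ‖(h - c) / K + K * conj w - c - conj a‖ ≤ E₁) (h2 : ‖h‖ ≤ E₂) (h3 : ‖w - a‖ ≤ ι)
    (h4 : |2 + 1 / K - K| ≤ E₄) (h5 : ‖c‖ ≤ K) :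
    ‖conj a - c‖ ≤ (E₁ + E₂ / K + K * ι + K * E₄) / (K - 1) := by
  have hK0 : 0 < K := by linarith
  have hK1 : 0 < K - 1 := by linarith
  have hKc : (K : ℂ) ≠ 0 := by exact_mod_cast hK0.ne'
  have e1 : ((K - 1 : ℝ) : ℂ) * (conj a - c) = ((h - c) / K + K * conj w - c - conj a) -
      h / K - K * conj (w - a) + ((2 + 1 / K - K : ℝ) : ℂ) * c := by
    rw [map_sub]
    push_cast
    field_simp
    ring
  have e2 : (K - 1) * ‖conj a - c‖ ≤ E₁ + E₂ / K + K * ι + K * E₄ := by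
    have e3 : ‖((K - 1 : ℝ) : ℂ) * (conj a - c)‖ = (K - 1) * ‖conj a - c‖ := by
      rw [norm_mul, Complex.norm_real, Real.norm_of_nonneg hK1.le]
    rw [← e3, e1]
    refine (norm_add_le _ _).trans ?_
    refine add_le_add ((norm_sub_le _ _).trans (add_le_add ((norm_sub_le _ _).trans
      (add_le_add h1 ?_)) ?_)) ?_
    · rw [norm_div, Complex.norm_real, Real.norm_of_nonneg hK0.le]
      exact div_le_div_of_nonneg_right h2 hK0.le
    · rw [norm_mul, Complex.norm_real, Real.norm_of_nonneg hK0.le, RCLike.norm_conj]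
      exact mul_le_mul_of_nonneg_left h3 hK0.le
    · rw [norm_mul, Complex.norm_real, Real.norm_eq_abs, mul_comm]
      exact mul_le_mul h5 h4 (abs_nonneg _) hK0.le
  rw [le_div_iff₀ hK1, mul_comm]
  exact e2

/-- the quadratic form estimate -/
theorem quad_est (f : S.B) (hf : ∀ t, ‖S.ev f t‖ ≤ 1) {x y : H} (hx : ‖x‖ = 1) (hy : ‖y‖ ≤ 1)
    (k : S.B) (hk : ∀ t, ‖S.ev k t‖ ≤ 1) {α : ℝ} (hα : 0 < α) :
    0 ≤ 1 - (∫ t in (0 : ℝ)..2 * π, conj (S.ev f t) * inner ℂ x (S.M t y)).re ∧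
    ‖(2 * ∫ t in (0 : ℝ)..2 * π, conj (S.ev (k * f) t) * inner ℂ x (S.M t y)) -
      2 * ∫ t in (0 : ℝ)..2 * π, conj (S.ev k t) * inner ℂ x (S.M t x)‖ ≤
      (α + 2 * (1 - (∫ t in (0 : ℝ)..2 * π, conj (S.ev f t) * inner ℂ x (S.M t y)).re) / α) +
      4 * (1 - (∫ t in (0 : ℝ)..2 * π, conj (S.ev f t) * inner ℂ x (S.M t y)).re) := by
  set Λ := ∫ t in (0 : ℝ)..2 * π, conj (S.ev f t) * inner ℂ x (S.M t y) with hΛ
  have hcf : Continuous fun t => S.ev f t := S.cont_ev f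
  have hck : Continuous fun t => S.ev k t := S.cont_ev k
  have hcf' : Continuous fun t => conj (S.ev f t) := Complex.continuous_conj.comp hcf
  have hck' : Continuous fun t => conj (S.ev k t) := Complex.continuous_conj.comp hck
  set p : ℝ → ℝ := fun t => (inner ℂ x (S.M t x)).re with hp
  set z : ℝ → H := fun t => S.ev f t • x - y with hz
  set q : ℝ → ℝ := fun t => (inner ℂ (z t) (S.M t (z t))).re with hq
  have hcz : Continuous z := (hcf.smul continuous_const).sub continuous_const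
  have hcp : Continuous p := Complex.continuous_re.comp (continuous_inner_M S x x)
  have hcMz : Continuous fun t => S.M t (z t) := S.cont_M.clm_apply hcz
  have hcq : Continuous q := Complex.continuous_re.comp (hcz.inner hcMz)
  have hp0 : ∀ t, 0 ≤ p t := fun t => inner_M_nonneg S t x
  have hq0 : ∀ t, 0 ≤ q t := fun t => inner_M_nonneg S t (z t)
  have hci : ∀ {u : ℝ → ℝ}, Continuous u → IntervalIntegrable u volume 0 (2 * π) :=
    fun h => h.intervalIntegrable _ _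
  have hcc : ∀ {u : ℝ → ℂ}, Continuous u → IntervalIntegrable u volume 0 (2 * π) :=
    fun h => h.intervalIntegrable _ _
  have h2π : (0 : ℝ) ≤ 2 * π := by positivity
  have hint_p : ∫ t in (0 : ℝ)..2 * π, p t = 1 := by
    have h1 := Complex.reCLM.intervalIntegral_comp_comm (hcc (continuous_inner_M S x x))
    simp only [Complex.reCLM_apply] at h1
    rw [hp, h1, int_inner_M, inner_self', hx]
    simp
  have hint_y : ∫ t in (0 : ℝ)..2 * π, (inner ℂ y (S.M t y)).re = ‖y‖ ^ 2 := by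
    have h1 := Complex.reCLM.intervalIntegral_comp_comm (hcc (continuous_inner_M S y y))
    simp only [Complex.reCLM_apply] at h1
    rw [h1, int_inner_M, inner_self', Complex.ofReal_re]
  have hint_Λ : ∫ t in (0 : ℝ)..2 * π, (conj (S.ev f t) * inner ℂ x (S.M t y)).re = Λ.re := by
    have hc0 : Continuous fun t => conj (S.ev f t) * inner ℂ x (S.M t y) :=
      hcf'.mul (continuous_inner_M S x y)
    have h1 := Complex.reCLM.intervalIntegral_comp_comm (hcc hc0)
    simp only [Complex.reCLM_apply] at h1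
    rw [h1]
  set I := ∫ t in (0 : ℝ)..2 * π, ‖S.ev f t‖ ^ 2 * p t with hI
  have hI1 : I ≤ 1 := by
    rw [← hint_p]
    refine intervalIntegral.integral_mono_on h2π (hci (by fun_prop)) (hci hcp) fun t _ => ?_
    have : ‖S.ev f t‖ ^ 2 ≤ 1 := pow_le_one₀ (norm_nonneg _) (hf t)
    nlinarith [hp0 t]
  have hq_eq : ∀ t, q t = ‖S.ev f t‖ ^ 2 * p t -
      2 * (conj (S.ev f t) * inner ℂ x (S.M t y)).re + (inner ℂ y (S.M t y)).re := by
    intro t
    have h3 : inner ℂ y (S.M t x) = conj (inner ℂ x (S.M t y)) := by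
      rw [inner_conj_symm, S.selfadj_M]
    have h4 : inner ℂ (z t) (S.M t (z t)) = ((‖S.ev f t‖ ^ 2 : ℝ) : ℂ) * inner ℂ x (S.M t x) -
        conj (S.ev f t) * inner ℂ x (S.M t y) - conj (conj (S.ev f t) * inner ℂ x (S.M t y)) +
        inner ℂ y (S.M t y) := by
      rw [hz]
      simp only
      rw [map_sub, map_smul, inner_sub_left, inner_sub_right, inner_sub_right,
        inner_smul_left, inner_smul_left, inner_smul_right, inner_smul_right, h3, map_mul,
        Complex.conj_conj]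
      have : ((‖S.ev f t‖ ^ 2 : ℝ) : ℂ) = conj (S.ev f t) * S.ev f t := by
        rw [← Complex.normSq_eq_conj_mul_self, Complex.normSq_eq_norm_sq]
      rw [this]
      ring
    show (inner ℂ (z t) (S.M t (z t))).re = _
    rw [h4, Complex.add_re, Complex.sub_re, Complex.sub_re, Complex.re_ofReal_mul,
      Complex.conj_re]
    ring
  have hint_q : ∫ t in (0 : ℝ)..2 * π, q t = I - 2 * Λ.re + ‖y‖ ^ 2 := by
    have hc1 : Continuous fun t => ‖S.ev f t‖ ^ 2 * p t := by fun_prop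
    have hc2 : Continuous fun t => 2 * (conj (S.ev f t) * inner ℂ x (S.M t y)).re :=
      continuous_const.mul (Complex.continuous_re.comp (hcf'.mul (continuous_inner_M S x y)))
    have hc3 : Continuous fun t => (inner ℂ y (S.M t y)).re :=
      Complex.continuous_re.comp (continuous_inner_M S y y)
    have hc4 : Continuous fun t => ‖S.ev f t‖ ^ 2 * p t -
        2 * (conj (S.ev f t) * inner ℂ x (S.M t y)).re := hc1.sub hc2
    simp_rw [hq_eq]
    rw [intervalIntegral.integral_add (hci hc4) (hci hc3),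
      intervalIntegral.integral_sub (hci hc1) (hci hc2), intervalIntegral.integral_const_mul,
      hint_Λ, hint_y]
  have hq_nn : 0 ≤ ∫ t in (0 : ℝ)..2 * π, q t :=
    intervalIntegral.integral_nonneg h2π fun t _ => hq0 t
  have hy2 : ‖y‖ ^ 2 ≤ 1 := pow_le_one₀ (norm_nonneg _) hy
  have hlam : 0 ≤ 1 - Λ.re := by linarith
  refine ⟨hlam, ?_⟩
  have hq2 : ∫ t in (0 : ℝ)..2 * π, q t ≤ 2 * (1 - Λ.re) := by linarith
  have hI2 : 1 - I ≤ 2 * (1 - Λ.re) := by linarith
  -- decomposition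
  have e1 : (∫ t in (0 : ℝ)..2 * π, conj (S.ev (k * f) t) * inner ℂ x (S.M t y)) -
      (∫ t in (0 : ℝ)..2 * π, conj (S.ev k t) * inner ℂ x (S.M t x)) =
      -(∫ t in (0 : ℝ)..2 * π, conj (S.ev (k * f) t) * inner ℂ x (S.M t (z t))) -
      ∫ t in (0 : ℝ)..2 * π, conj (S.ev k t) * (((1 - ‖S.ev f t‖ ^ 2) * p t : ℝ) : ℂ) := by
    have hckf : Continuous fun t => conj (S.ev (k * f) t) :=
      Complex.continuous_conj.comp (S.cont_ev _)
    have hc1 : Continuous fun t => conj (S.ev (k * f) t) * inner ℂ x (S.M t y) :=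
      hckf.mul (continuous_inner_M S x y)
    have hc2 : Continuous fun t => conj (S.ev k t) * inner ℂ x (S.M t x) :=
      hck'.mul (continuous_inner_M S x x)
    have hc3 : Continuous fun t => conj (S.ev (k * f) t) * inner ℂ x (S.M t (z t)) :=
      hckf.mul (continuous_const.inner hcMz)
    have hc4 : Continuous fun t => conj (S.ev k t) * (((1 - ‖S.ev f t‖ ^ 2) * p t : ℝ) : ℂ) :=
      hck'.mul (Complex.continuous_ofReal.comp (by fun_prop))
    have hc5 : Continuous fun t => -(conj (S.ev (k * f) t) * inner ℂ x (S.M t (z t))) := hc3.neg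
    rw [← intervalIntegral.integral_sub (hcc hc1) (hcc hc2), ← intervalIntegral.integral_neg,
      ← intervalIntegral.integral_sub (hcc hc5) (hcc hc4)]
    refine intervalIntegral.integral_congr fun t _ => ?_
    have h5 : inner ℂ x (S.M t (z t)) = S.ev f t * inner ℂ x (S.M t x) - inner ℂ x (S.M t y) := by
      rw [hz]
      simp only
      rw [map_sub, map_smul, inner_sub_right, inner_smul_right]
    have h6 : inner ℂ x (S.M t x) = (p t : ℂ) := inner_M_im S t x
    rw [h5, h6, map_mul, Pi.mul_apply, map_mul]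
    have h7 : ((‖S.ev f t‖ : ℝ) : ℂ) ^ 2 = conj (S.ev f t) * S.ev f t := by
      rw [← Complex.normSq_eq_conj_mul_self, Complex.normSq_eq_norm_sq]
      push_cast
      ring
    push_cast
    rw [h7]
    ring
  have e2 : ‖∫ t in (0 : ℝ)..2 * π, conj (S.ev (k * f) t) * inner ℂ x (S.M t (z t))‖ ≤
      (α + 2 * (1 - Λ.re) / α) / 2 := by
    have h1 : ‖∫ t in (0 : ℝ)..2 * π, conj (S.ev (k * f) t) * inner ℂ x (S.M t (z t))‖ ≤
        ∫ t in (0 : ℝ)..2 * π, (α * p t + q t / α) / 2 := by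
      refine intervalIntegral.norm_integral_le_of_norm_le h2π
        (Filter.Eventually.of_forall fun t _ => ?_) (hci (by fun_prop))
      rw [norm_mul, RCLike.norm_conj, map_mul, Pi.mul_apply, norm_mul]
      have h3 := inner_M_le S t x (z t) hα
      have h4 : ‖S.ev k t‖ * ‖S.ev f t‖ ≤ 1 := mul_le_one₀ (hk t) (norm_nonneg _) (hf t)
      calc ‖S.ev k t‖ * ‖S.ev f t‖ * ‖inner ℂ x (S.M t (z t))‖
          ≤ 1 * ‖inner ℂ x (S.M t (z t))‖ := mul_le_mul_of_nonneg_right h4 (norm_nonneg _)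
        _ ≤ _ := by rw [one_mul]; exact h3
    have h2 : ∫ t in (0 : ℝ)..2 * π, (α * p t + q t / α) / 2 =
        (α * 1 + (∫ t in (0 : ℝ)..2 * π, q t) / α) / 2 := by
      rw [intervalIntegral.integral_div, intervalIntegral.integral_add (hci (by fun_prop))
        (hci (by fun_prop)), intervalIntegral.integral_const_mul, hint_p,
        intervalIntegral.integral_div]
    rw [h2] at h1
    have h3 : (∫ t in (0 : ℝ)..2 * π, q t) / α ≤ 2 * (1 - Λ.re) / α :=
      div_le_div_of_nonneg_right hq2 hα.le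
    linarith
  have e3 : ‖∫ t in (0 : ℝ)..2 * π, conj (S.ev k t) * (((1 - ‖S.ev f t‖ ^ 2) * p t : ℝ) : ℂ)‖ ≤
      2 * (1 - Λ.re) := by
    have h1 : ‖∫ t in (0 : ℝ)..2 * π, conj (S.ev k t) *
        (((1 - ‖S.ev f t‖ ^ 2) * p t : ℝ) : ℂ)‖ ≤
        ∫ t in (0 : ℝ)..2 * π, (1 - ‖S.ev f t‖ ^ 2) * p t := by
      refine intervalIntegral.norm_integral_le_of_norm_le h2π
        (Filter.Eventually.of_forall fun t _ => ?_) (hci (by fun_prop))
      have h2 : 0 ≤ (1 - ‖S.ev f t‖ ^ 2) * p t := by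
        have : ‖S.ev f t‖ ^ 2 ≤ 1 := pow_le_one₀ (norm_nonneg _) (hf t)
        exact mul_nonneg (by linarith) (hp0 t)
      rw [norm_mul, RCLike.norm_conj, Complex.norm_real, Real.norm_of_nonneg h2]
      exact mul_le_of_le_one_left h2 (hk t)
    have h2 : ∫ t in (0 : ℝ)..2 * π, (1 - ‖S.ev f t‖ ^ 2) * p t = 1 - I := by
      have : ∀ t, (1 - ‖S.ev f t‖ ^ 2) * p t = p t - ‖S.ev f t‖ ^ 2 * p t := fun t => by ring
      simp_rw [this]
      rw [intervalIntegral.integral_sub (hci hcp) (hci (by fun_prop)), hint_p]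
    linarith
  rw [← mul_sub, e1, norm_mul]
  have h2 : ‖(2 : ℂ)‖ = 2 := by simp
  rw [h2]
  have e4 := norm_sub_le
    (-(∫ t in (0 : ℝ)..2 * π, conj (S.ev (k * f) t) * inner ℂ x (S.M t (z t))))
    (∫ t in (0 : ℝ)..2 * π, conj (S.ev k t) * (((1 - ‖S.ev f t‖ ^ 2) * p t : ℝ) : ℂ))
  rw [norm_neg] at e4
  linarith

end Core

section Final

theorem numeric_K {K δ ι u lam Y : ℝ} (hδ : 0 < δ) (hδ1 : δ ≤ 1 / 100) (hι : ι = δ / 100)
    (hK : 1 + √2 - δ ≤ K) (hY : 1 - ι ≤ Y) (hu : -(1 + ι) ≤ u) (hlam : 0 ≤ lam)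
    (he : 2 * K * (1 - lam) = u + K ^ 2 * Y) :
    2.4 ≤ K ∧ K ≤ 2.5 ∧ lam ≤ 1.015 * δ ∧ 1 + u ≤ 5.0625 * δ ∧ |2 + 1 / K - K| ≤ 2 * δ := by
  have hs : (1.414 : ℝ) ≤ √2 := by
    rw [Real.le_sqrt (by norm_num) (by norm_num)]; norm_num
  have hs2 : √2 ^ 2 = 2 := Real.sq_sqrt (by norm_num)
  have hs3 : √2 ≤ 1.415 := by
    rw [Real.sqrt_le_left (by norm_num)]; norm_num
  have h1 : 2.4 ≤ K := by linarith
  have hι0 : 0 < ι := by rw [hι]; positivity
  have hι1 : ι ≤ 1 / 10000 := by rw [hι]; linarith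
  have h2 : 2 * K * lam + (1 + u) ≤ 2 * K + 1 - K ^ 2 * (1 - ι) := by
    have : K ^ 2 * (1 - ι) ≤ K ^ 2 * Y := mul_le_mul_of_nonneg_left hY (sq_nonneg K)
    linarith
  have h3 : 0 ≤ 2 * K * lam := by positivity
  have h4 : K ≤ 2.5 := by
    by_contra h
    push Not at h
    have h5 : K ^ 2 * (1 - ι) ≤ 2 * K + 1 + ι := by linarith
    have h6 : K ^ 2 * (1 - 1 / 10000) ≤ K ^ 2 * (1 - ι) :=
      mul_le_mul_of_nonneg_left (by linarith) (sq_nonneg K)
    nlinarith
  have h5 : 2 * K + 1 - K ^ 2 ≤ 2 * δ * K := by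
    have h6 : (√2 - δ) ^ 2 ≤ (K - 1) ^ 2 := pow_le_pow_left₀ (by linarith) (by linarith) 2
    nlinarith
  have h6 : 2 * K * lam + (1 + u) ≤ 2 * δ * K + K ^ 2 * ι := by nlinarith
  have hK2 : K ^ 2 * ι ≤ 6.25 * ι := by
    have : K ^ 2 ≤ 6.25 := by nlinarith
    exact mul_le_mul_of_nonneg_right this hι0.le
  refine ⟨h1, h4, ?_, ?_, ?_⟩
  · have h7 : 2 * K * lam ≤ 2 * δ * K + K ^ 2 * ι + ι := by linarith
    have h8 : K * lam ≤ K * (1.015 * δ) := by
      have : K ^ 2 * ι ≤ 2.5 * (K * ι) := by nlinarith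
      have h9 : ι ≤ (5 / 12) * (K * ι) := by nlinarith
      rw [hι] at *
      nlinarith
    exact le_of_mul_le_mul_left h8 (by linarith)
  · rw [hι] at *
    nlinarith
  · have hK0 : 0 < K := by linarith
    have e1 : 2 + 1 / K - K = (2 * K + 1 - K ^ 2) / K := by field_simp
    rw [e1, abs_le]
    constructor
    · rw [le_div_iff₀ hK0]
      have : -ι ≤ 2 * K + 1 - K ^ 2 * (1 - ι) := by linarith
      rw [hι] at *
      nlinarith
    · rw [div_le_iff₀ hK0]
      linarith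

theorem numeric_E {r K lam u ι α E₁ E₂ E₄ : ℝ} (hr0 : 0 < r) (hr1 : r ≤ 1 / 10)
    (hι : ι = r ^ 2 / 100) (hK1 : 2.4 ≤ K) (hK2 : K ≤ 2.5)
    (hlam : lam ≤ 1.015 * r ^ 2) (hu : 1 + u ≤ 5.0625 * r ^ 2) (hα : α = 3 * r / 2)
    (hE₁ : E₁ = (α + 2 * lam / α) + 4 * lam)
    (hE₂ : E₂ = 1 / (3 * r) * (1 + u) + 3 * r / 2 + ι) (hE₄ : E₄ = 2 * r ^ 2) :
    (E₁ + E₂ / K + K * ι + K * E₄) / (K - 1) ≤ 10 * r := by
  have hK0 : 0 < K := by linarith
  have h1 : E₁ ≤ 3.3 * r := by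
    rw [hE₁, hα]
    have : 2 * lam / (3 * r / 2) ≤ 1.36 * r := by
      rw [div_le_iff₀ (by positivity)]
      nlinarith
    nlinarith
  have h2 : E₂ ≤ 3.2 * r := by
    rw [hE₂]
    have : 1 / (3 * r) * (1 + u) ≤ 1.6875 * r := by
      rw [one_div, inv_mul_le_iff₀ (by positivity)]
      nlinarith
    rw [hι]
    nlinarith
  have h3 : E₂ / K ≤ 1.4 * r := by
    rw [div_le_iff₀ hK0]
    nlinarith
  have h4 : K * ι ≤ 0.1 * r := by
    rw [hι]
    nlinarith [mul_pos hr0 hr0]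
  have h5 : K * E₄ ≤ 0.5 * r := by
    rw [hE₄]
    nlinarith [mul_pos hr0 hr0]
  rw [div_le_iff₀ (by linarith)]
  nlinarith

theorem exists_chain {O : Dom} {H : Type u} [NormedAddCommGroup H] [InnerProductSpace ℂ H]
    [CompleteSpace H] [Nontrivial H] {A : H →L[ℂ] H} (S : Sys O H A) {δ : ℝ} (hδ : 0 < δ)
    (hδ1 : δ ≤ 1 / 100) (hK : 1 + √2 - δ ≤ S.K) :
    ∃ P : ℂ[X], (∀ t, ‖P.eval (O.γ t)‖ ≤ 1) ∧ ∃ G G₁ G₂ : ℝ → ℂ,
      Continuous G ∧ Continuous G₁ ∧ Continuous G₂ ∧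
      (∀ t, G t = O.T (fun t => P.eval (O.γ t)) t * P.eval (O.γ t)) ∧
      (∀ t, G₁ t = O.T G t) ∧ (∀ t, G₂ t = O.T G₁ t) ∧
      ∃ s, (G₁ s).re ≤ -1 + 100 * √δ ∧ (G₂ s).re ≤ -1 + 100 * √δ := by
  set r := √δ with hr
  have hr0 : 0 < r := Real.sqrt_pos.mpr hδ
  have hr2 : r ^ 2 = δ := Real.sq_sqrt hδ.le
  have hr1 : r ≤ 1 / 10 := by
    rw [hr, Real.sqrt_le_left (by norm_num)]
    linarith
  set ι := r ^ 2 / 100 with hι
  have hι0 : 0 < ι := by positivity
  set L := 1 / (3 * r) with hL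
  have hL0 : 0 < L := by positivity
  set M₀ := 20 + 2 * L + 3 * r / 2 with hM₀
  have hM0 : 0 ≤ M₀ := by positivity
  have hs : (1.414 : ℝ) ≤ √2 := by
    rw [Real.le_sqrt (by norm_num) (by norm_num)]; norm_num
  set K := S.K with hKdef
  have hK1 : 1 ≤ K := by linarith
  obtain ⟨P, f, x, y, hP, hevf, hx, hy, hKy, hE0, hE1⟩ := near_ext S hK1 hι0 hM0
  have hf1 : ∀ t, ‖S.ev f t‖ ≤ 1 := fun t => by rw [hevf]; exact hP t
  have hK0 : 0 < K := by linarith
  have hKc : (K : ℂ) ≠ 0 := by exact_mod_cast hK0.ne'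
  set g := S.T f with hg
  have hT1 : ∀ b : S.B, (∀ t, ‖S.ev b t‖ ≤ 1) → ∀ t, ‖S.ev (S.T b) t‖ ≤ 1 := by
    intro b hb t
    rw [S.ev_T]
    exact norm_T_le hb t
  have hg1 : ∀ t, ‖S.ev g t‖ ≤ 1 := hT1 f hf1
  have hgf1 : ∀ t, ‖S.ev (g * f) t‖ ≤ 1 := by
    intro t
    rw [map_mul, Pi.mul_apply, norm_mul]
    exact mul_le_one₀ (hg1 t) (norm_nonneg _) (hf1 t)
  set φ : S.B → ℂ := fun b => inner ℂ x (S.op b x) with hφ
  have hφ1 : φ 1 = 1 := by
    show inner ℂ x (S.op 1 x) = 1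
    rw [map_one]
    change inner ℂ x x = 1
    rw [inner_self', hx]
    simp
  have hφadd : ∀ a b, φ (a + b) = φ a + φ b := by
    intro a b
    show inner ℂ x (S.op (a + b) x) = inner ℂ x (S.op a x) + inner ℂ x (S.op b x)
    rw [map_add, add_apply, inner_add_right]
  have hφmul : ∀ (c : ℂ) b, φ (algebraMap ℂ S.B c * b) = c * φ b := by
    intro c b
    show inner ℂ x (S.op (algebraMap ℂ S.B c * b) x) = c * inner ℂ x (S.op b x)
    rw [map_mul, AlgHom.commutes]
    simp [Algebra.algebraMap_eq_smul_one]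
  have hevmul : ∀ (c : ℂ) b t, S.ev (algebraMap ℂ S.B c * b) t = c * S.ev b t := by
    intro c b t
    rw [map_mul, AlgHom.commutes]
    rfl
  -- move `f`
  have hmove : ∀ b : S.B, inner ℂ x (S.op b y) = φ (b * f) / K := by
    intro b
    rw [eq_div_iff hKc, mul_comm]
    show (K : ℂ) * inner ℂ x (S.op b y) = inner ℂ x (S.op (b * f) x)
    rw [← inner_smul_right, ← map_smul, hKy, map_mul]
    rfl
  -- Lambda
  set Λ := ∫ t in (0 : ℝ)..2 * π, conj (S.ev f t) * inner ℂ x (S.M t y) with hΛ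
  have hinn : inner ℂ (S.op f x) y = K * ((‖y‖ ^ 2 : ℝ) : ℂ) := by
    rw [← hKy, inner_smul_left, Complex.conj_ofReal, inner_self']
  have hΛ2 : 2 * Λ = φ (g * f) / K + K * ((‖y‖ ^ 2 : ℝ) : ℂ) := by
    rw [hΛ, ← inner_T S f x y, ← hg, hmove, hinn]
  set u := (φ (g * f)).re with hu
  set lam := 1 - Λ.re with hlam
  have hlam0 : 0 ≤ lam := (quad_est S f hf1 hx hy f hf1 one_pos).1
  have hY : 1 - ι ≤ ‖y‖ ^ 2 := by
    have h1 := hE0 1 (fun t => by rw [map_one, Pi.one_apply, norm_one]; linarith)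
    rw [map_one] at h1
    change ‖inner ℂ y y - inner ℂ x x‖ ≤ ι at h1
    rw [inner_self', inner_self', hx, ← Complex.ofReal_sub,
      Complex.norm_real, Real.norm_eq_abs, abs_le] at h1
    linarith [h1.1]
  have hneg : ∀ b, φ (-b) = -φ b := by
    intro b
    show inner ℂ x (S.op (-b) x) = -inner ℂ x (S.op b x)
    rw [map_neg, neg_apply, inner_neg_right]
  have hu1 : -(1 + ι) ≤ u := by
    have h1 := hE1 (-(g * f)) 1 (fun t => ?_) (fun t => ?_)
    · change (φ (-(g * f))).re ≤ 1 + ι at h1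
      rw [hneg, Complex.neg_re] at h1
      linarith
    · rw [map_neg, Pi.neg_apply, Complex.neg_re]
      have := Complex.abs_re_le_norm (S.ev (g * f) t)
      have h2 := neg_abs_le (S.ev (g * f) t).re
      linarith [hgf1 t]
    · refine (norm_sub_le _ _).trans ?_
      rw [map_neg, Pi.neg_apply, norm_neg, Complex.ofReal_one, norm_one]
      linarith [hgf1 t]
  have hkey : 2 * K * (1 - lam) = u + K ^ 2 * ‖y‖ ^ 2 := by
    have h1 : (K : ℂ) * (2 * Λ) = φ (g * f) + ((K ^ 2 * ‖y‖ ^ 2 : ℝ) : ℂ) := by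
      rw [hΛ2]
      push_cast
      field_simp
    have h2 := congrArg Complex.re h1
    have h3 : ((K : ℂ) * (2 * Λ)).re = 2 * K * Λ.re := by
      have : (K : ℂ) * (2 * Λ) = ((2 * K : ℝ) : ℂ) * Λ := by push_cast; ring
      rw [this, Complex.re_ofReal_mul]
    rw [h3, Complex.add_re, Complex.ofReal_re] at h2
    rw [hlam]
    linarith
  obtain ⟨hKl, hKu, hlam1, hu2, hE4⟩ := numeric_K hδ hδ1 (ι := ι) (by rw [hι, hr2]) hK hY hu1
    hlam0 hkey
  rw [← hr2] at hlam1 hu2 hE4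
  -- the main estimate
  have hmain : ∀ k : S.B, (∀ t, ‖S.ev k t‖ ≤ 1) → ‖conj (φ k) - φ (S.T k)‖ ≤ 10 * r := by
    intro k hk
    set h := S.T (k * f) * f + S.T k with hh
    have hkf1 : ∀ t, ‖S.ev (k * f) t‖ ≤ 1 := by
      intro t
      rw [map_mul, Pi.mul_apply, norm_mul]
      exact mul_le_one₀ (hk t) (norm_nonneg _) (hf1 t)
    have hevh : ∀ s, S.ev h s = S.ev f s * O.T (fun t => S.ev k t * S.ev f t) s +
        O.T (S.ev k) s := by
      intro s
      rw [hh, map_add, map_mul, Pi.add_apply, Pi.mul_apply, S.ev_T, S.ev_T, map_mul, mul_comm]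
      rfl
    have hevh1 : ∀ s, ‖S.ev h s‖ ≤ 1 / L / 2 + L * (1 + (S.ev (g * f) s).re) := by
      intro s
      rw [hevh]
      have h1 := norm_fT_le (O := O) (S.cont_ev f) (S.cont_ev k) hf1 hk (β := 1 / L) (by positivity) s
      refine h1.trans (le_of_eq ?_)
      have h2 : S.ev (g * f) s = S.ev f s * O.T (S.ev f) s := by
        rw [map_mul, Pi.mul_apply, hg, S.ev_T, mul_comm]
      rw [h2]
      field_simp
    have hevh2 : ∀ s, ‖S.ev h s‖ ≤ 2 := by
      intro s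
      rw [hh, map_add, map_mul, Pi.add_apply, Pi.mul_apply]
      refine (norm_add_le _ _).trans ?_
      rw [norm_mul]
      have h1 := mul_le_one₀ (hT1 _ hkf1 s) (norm_nonneg _) (hf1 s)
      have h2 := hT1 _ hk s
      linarith
    have hLL : 1 / L = 3 * r := by rw [hL, one_div_one_div]
    clear_value h
    -- bound of φ h
    have hφh : ‖φ h‖ ≤ 1 / (3 * r) * (1 + u) + 3 * r / 2 + ι := by
      obtain ⟨c, hc, hcz⟩ : ∃ c : ℂ, ‖c‖ = 1 ∧ c * φ h = ‖φ h‖ := by
        by_cases h0 : φ h = 0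
        · exact ⟨1, norm_one, by rw [h0]; simp⟩
        · refine ⟨conj (φ h) / ‖φ h‖, ?_, ?_⟩
          · rw [norm_div, RCLike.norm_conj, Complex.norm_real, norm_norm,
              div_self (norm_ne_zero_iff.mpr h0)]
          · have hn : (‖φ h‖ : ℂ) ≠ 0 := by
              exact_mod_cast norm_ne_zero_iff.mpr h0
            rw [div_mul_eq_mul_div, div_eq_iff hn, ← Complex.normSq_eq_conj_mul_self,
              Complex.normSq_eq_norm_sq]
            push_cast
            ring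
      set b := algebraMap ℂ S.B c * h + -(algebraMap ℂ S.B (L : ℂ) * (1 + g * f)) with hb
      have hevb : ∀ t, S.ev b t = c * S.ev h t - L * (1 + S.ev (g * f) t) := by
        intro t
        rw [hb, map_add, Pi.add_apply, hevmul, map_neg, Pi.neg_apply, hevmul, map_add,
          Pi.add_apply, map_one, Pi.one_apply, sub_eq_add_neg]
      have h1 := hE1 b (3 * r / 2) (fun t => ?_) (fun t => ?_)
      · have h2 : (inner ℂ x (S.op b x)) = ‖φ h‖ - L * (1 + φ (g * f)) := by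
          change φ b = _
          rw [hb, hφadd, hneg, hφmul, hφmul, hφadd, hφ1, hcz, sub_eq_add_neg]
        rw [h2, Complex.sub_re, Complex.ofReal_re, Complex.re_ofReal_mul, Complex.add_re,
          Complex.one_re] at h1
        rw [← hL]
        linarith
      · rw [hevb, Complex.sub_re, Complex.re_ofReal_mul, Complex.add_re, Complex.one_re]
        have h2 : (c * S.ev h t).re ≤ ‖S.ev h t‖ := by
          refine (Complex.re_le_norm _).trans ?_
          rw [norm_mul, hc, one_mul]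
        have h3 := hevh1 t
        rw [hLL] at h3
        linarith
      · rw [hevb]
        have h2 : ‖(1 : ℂ) + S.ev (g * f) t‖ ≤ 2 := by
          refine (norm_add_le _ _).trans ?_
          rw [norm_one]
          linarith [hgf1 t]
        calc ‖c * S.ev h t - L * (1 + S.ev (g * f) t) - ((3 * r / 2 : ℝ) : ℂ)‖
            ≤ ‖c * S.ev h t - L * (1 + S.ev (g * f) t)‖ + ‖((3 * r / 2 : ℝ) : ℂ)‖ :=
              norm_sub_le _ _
          _ ≤ ‖c * S.ev h t‖ + ‖(L : ℂ) * (1 + S.ev (g * f) t)‖ + ‖((3 * r / 2 : ℝ) : ℂ)‖ := by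
              gcongr; exact norm_sub_le _ _
          _ ≤ 2 + L * 2 + 3 * r / 2 := by
              rw [norm_mul, hc, one_mul, norm_mul, Complex.norm_real, Complex.norm_real,
                Real.norm_of_nonneg hL0.le, Real.norm_of_nonneg (by positivity)]
              have := mul_le_mul_of_nonneg_left h2 hL0.le
              linarith [hevh2 t]
          _ ≤ M₀ := by rw [hM₀]; linarith
    -- quadratic form
    have hq := (quad_est S f hf1 hx hy k hk (α := 3 * r / 2) (by positivity)).2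
    rw [← inner_T S (k * f) x y, ← inner_T S k x x, hmove] at hq
    have h1 : inner ℂ (S.op (k * f) x) y = K * conj (inner ℂ y (S.op k y)) := by
      rw [map_mul]
      change inner ℂ (S.op k (S.op f x)) y = _
      rw [← hKy, map_smul, inner_smul_left, Complex.conj_ofReal, inner_conj_symm]
    have h2 : inner ℂ (S.op k x) x = conj (φ k) := by
      rw [hφ]
      simp only
      rw [inner_conj_symm]
    rw [h1, h2] at hq
    have h3 : φ (S.T (k * f) * f) = φ h - φ (S.T k) := by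
      rw [hh, hφadd]; ring
    rw [h3] at hq
    have hcore := core_algebra (K := K) (by linarith) (a := φ k) (c := φ (S.T k)) (h := φ h)
      (w := inner ℂ y (S.op k y))
      (E₁ := (3 * r / 2 + 2 * lam / (3 * r / 2)) + 4 * lam) ?_ hφh
      (hE0 k (fun t => (hk t).trans (by rw [hM₀]; linarith))) hE4 ?_
    · refine hcore.trans (numeric_E hr0 hr1 hι hKl hKu hlam1 hu2 rfl rfl rfl rfl)
    · refine le_trans (le_of_eq ?_) hq
      congr 1
      show _ = _ - (φ (S.T k) + conj (φ k))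
      ring
    · have h4 := S.norm_le (S.T k) 1 (hT1 k hk)
      rw [mul_one] at h4
      calc ‖φ (S.T k)‖ ≤ ‖x‖ * ‖S.op (S.T k) x‖ := norm_inner_le_norm _ _
        _ ≤ ‖x‖ * (‖S.op (S.T k)‖ * ‖x‖) :=
            mul_le_mul_of_nonneg_left ((S.op (S.T k)).le_opNorm x) (norm_nonneg _)
        _ ≤ K := by rw [hx, one_mul, mul_one]; exact h4
  -- iterate
  set k₀ := g * f with hk₀
  set k₁ := S.T k₀ with hk₁
  set k₂ := S.T k₁ with hk₂
  have hk₁1 : ∀ t, ‖S.ev k₁ t‖ ≤ 1 := hT1 _ hgf1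
  have hk₂1 : ∀ t, ‖S.ev k₂ t‖ ≤ 1 := hT1 _ hk₁1
  have hm1 : (φ k₁).re ≤ u + 10 * r := by
    have h1 := (Complex.abs_re_le_norm _).trans (hmain k₀ hgf1)
    rw [Complex.sub_re, Complex.conj_re, abs_le] at h1
    linarith [h1.1]
  have hm2 : (φ k₂).re ≤ u + 20 * r := by
    have h1 := (Complex.abs_re_le_norm _).trans (hmain k₁ hk₁1)
    rw [Complex.sub_re, Complex.conj_re, abs_le] at h1
    linarith [h1.1]
  have hex : ∃ s, (S.ev k₁ s).re + (S.ev k₂ s).re ≤ -2 + 100 * r := by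
    by_contra hcon
    push Not at hcon
    have h1 := hE1 (-(k₁ + k₂)) (2 - 100 * r) (fun t => ?_) (fun t => ?_)
    · change (φ (-(k₁ + k₂))).re ≤ _ at h1
      rw [hneg, hφadd, Complex.neg_re, Complex.add_re] at h1
      rw [hι] at h1
      nlinarith
    · rw [map_neg, map_add, Pi.neg_apply, Pi.add_apply, Complex.neg_re, Complex.add_re]
      linarith [hcon t]
    · rw [map_neg, map_add, Pi.neg_apply, Pi.add_apply]
      refine (norm_sub_le _ _).trans ?_
      rw [norm_neg, Complex.norm_real, Real.norm_eq_abs]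
      have h2 : |2 - 100 * r| ≤ 10 := by rw [abs_le]; constructor <;> linarith
      have h3 := norm_add_le (S.ev k₁ t) (S.ev k₂ t)
      have h4 := hk₁1 t
      have h5 := hk₂1 t
      rw [hM₀]
      linarith
  obtain ⟨s, hs2⟩ := hex
  have hre : ∀ z : ℂ, ‖z‖ ≤ 1 → -1 ≤ z.re := by
    intro z hz
    have := (abs_le.mp ((Complex.abs_re_le_norm z).trans hz)).1
    exact this
  refine ⟨P, hP, S.ev k₀, S.ev k₁, S.ev k₂, S.cont_ev _, S.cont_ev _, S.cont_ev _, ?_, ?_, ?_,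
    s, ?_, ?_⟩
  · intro t
    rw [hk₀, map_mul, Pi.mul_apply, hg, S.ev_T, hevf]
    congr 1
    congr 1
    exact funext hevf
  · intro t
    rw [hk₁, S.ev_T]
  · intro t
    rw [hk₂, S.ev_T]
  · have := hre _ (hk₂1 s)
    linarith
  · have := hre _ (hk₁1 s)
    linarith

end Final

end P123
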