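import Vale.Agent.P123.Angle

/-!
# P123 : good chords
-/

namespace P123

open MeasureTheory Complex Set
open scoped Real ComplexConjugate

theorem geo_alg {d ρ c s a b a' b' k : ℝ} (hd : 0 < d) (hρ : 0 < ρ) (hρd : ρ ≤ 4 * d)
    (hb : 0.257 ≤ b) (hb' : 0.257 ≤ b') (hk : 1 / 2 ≤ k) (ha0 : 0 ≤ a) (ha1 : a ≤ 1)
    (ha0' : 0 ≤ a') (ha1' : a' ≤ 1) (hcs : s ^ 2 + c ^ 2 = 1) :
    ρ / 80 ≤ ρ / 2 * c ∨ ρ / 80 ≤ -(ρ / 2 * c) ∨
    ρ / 80 ≤ -(d * k * (c * a - s * b)) + ρ / 2 * c ∨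
    ρ / 80 ≤ -(d * (c * a' + s * b')) + ρ / 2 * c := by
  by_cases g1 : 1 / 40 ≤ c
  · left
    have := mul_le_mul_of_nonneg_left g1 (by positivity : (0 : ℝ) ≤ ρ / 2)
    linarith
  by_cases g2 : c ≤ -(1 / 40)
  · right; left
    have := mul_le_mul_of_nonneg_left g2 (by positivity : (0 : ℝ) ≤ ρ / 2)
    linarith
  push Not at g1 g2
  have hc2 : c ^ 2 ≤ (1 / 40) ^ 2 := sq_le_sq' (by linarith) (by linarith)
  have hs2 : 0.999 ^ 2 ≤ s ^ 2 := by norm_num at hc2 ⊢; linarith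
  have k5 : -(ρ / 80) ≤ ρ / 2 * c := by
    have := mul_le_mul_of_nonneg_left g2.le (by positivity : (0 : ℝ) ≤ ρ / 2)
    linarith
  rcases le_total 0 s with g3 | g3
  · right; right; left
    have g4 : 0.999 ≤ s := by
      have := sq_le_sq.1 hs2
      rwa [abs_of_nonneg g3, abs_of_nonneg (by norm_num : (0 : ℝ) ≤ 0.999)] at this
    have k1 : c * a ≤ 1 / 40 := by
      have h1 := mul_le_mul_of_nonneg_right g1.le ha0
      linarith
    have k2 : 0.999 * 0.257 ≤ s * b := mul_le_mul g4 hb (by norm_num) g3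
    have k3 : c * a - s * b ≤ -0.23 := by norm_num at k2 ⊢; linarith
    have k6 : 1 / 2 * d ≤ d * k := by
      have := mul_le_mul_of_nonneg_left hk hd.le
      linarith
    have k7 : d * k * (c * a - s * b) ≤ d * k * (-0.23) :=
      mul_le_mul_of_nonneg_left k3 (by linarith)
    linarith
  · right; right; right
    have g4 : s ≤ -0.999 := by
      have := sq_le_sq.1 hs2
      rw [abs_of_nonpos g3, abs_of_nonneg (by norm_num : (0 : ℝ) ≤ 0.999)] at this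
      linarith
    have k1 : c * a' ≤ 1 / 40 := by
      have h1 := mul_le_mul_of_nonneg_right g1.le ha0'
      linarith
    have k2 : 0.999 * 0.257 ≤ (-s) * b' :=
      mul_le_mul (by linarith) hb' (by norm_num) (by linarith)
    have k3 : c * a' + s * b' ≤ -0.23 := by
      norm_num at k2 ⊢; linarith
    have k7 : d * (c * a' + s * b') ≤ d * (-0.23) := mul_le_mul_of_nonneg_left k3 hd.le
    linarith

theorem sin_ge {x : ℝ} (hx1 : π / 12 ≤ x) (hx2 : x ≤ π / 4) : 0.257 ≤ Real.sin x := by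
  have hpi := Real.pi_pos
  have hpi3 : π > 3.141592 := Real.pi_gt_d6
  have hpi4 : π < 3.141593 := Real.pi_lt_d6
  have ha : Real.sin (π / 12) ≤ Real.sin x :=
    Real.sin_le_sin_of_le_of_le_pi_div_two (by linarith) (by linarith) hx1
  have hb : π / 12 - (π / 12) ^ 3 / 6 < Real.sin (π / 12) :=
    Real.sin_gt_sub_cube (by positivity)
  have hc : (π / 12) ^ 3 ≤ (0.2618 : ℝ) ^ 3 := by
    apply pow_le_pow_left₀ (by positivity)
    linarith
  norm_num at hc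
  linarith

/-- the core inequality in local coordinates -/
theorem geo_core {d ρ φ ψ : ℝ} (hd : 0 < d) (hρ : 0 < ρ) (h1 : π / 4 ≤ φ) (h2 : φ ≤ π / 3)
    (h3 : π / 12 ≤ ψ) (h4 : ψ ≤ φ - π / 12) (him : ρ * Real.sin ψ ≤ d * Real.sin φ) (θ : ℝ) :
    ρ / 80 ≤ ρ / 2 * Real.cos (θ - ψ) ∨ ρ / 80 ≤ -(ρ / 2 * Real.cos (θ - ψ)) ∨
    ρ / 80 ≤ -(d * Real.cos φ * Real.cos θ) + ρ / 2 * Real.cos (θ - ψ) ∨
    ρ / 80 ≤ -(d * Real.cos (θ - φ)) + ρ / 2 * Real.cos (θ - ψ) := by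
  have hpi := Real.pi_pos
  have hsψ : 0.257 ≤ Real.sin ψ := sin_ge h3 (by linarith)
  have hsφψ : 0.257 ≤ Real.sin (φ - ψ) := sin_ge (by linarith) (by linarith)
  have hsφ : Real.sin φ ≤ 1 := Real.sin_le_one φ
  have hcφ : 1 / 2 ≤ Real.cos φ := by
    rw [← Real.cos_pi_div_three]
    exact Real.cos_le_cos_of_nonneg_of_le_pi (by linarith) (by linarith) h2
  have hρd : ρ ≤ 4 * d := by
    have k1 : ρ * 0.257 ≤ ρ * Real.sin ψ := mul_le_mul_of_nonneg_left hsψ hρ.le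
    have k2 : d * Real.sin φ ≤ d * 1 := mul_le_mul_of_nonneg_left hsφ hd.le
    norm_num at k1
    linarith
  have hcψ0 : 0 ≤ Real.cos ψ := Real.cos_nonneg_of_mem_Icc ⟨by linarith, by linarith⟩
  have hcφψ0 : 0 ≤ Real.cos (φ - ψ) := Real.cos_nonneg_of_mem_Icc ⟨by linarith, by linarith⟩
  have e1 : Real.cos θ = Real.cos (θ - ψ) * Real.cos ψ - Real.sin (θ - ψ) * Real.sin ψ := by
    rw [← Real.cos_add]; ring_nf
  have e2 : Real.cos (θ - φ) = Real.cos (θ - ψ) * Real.cos (φ - ψ) +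
      Real.sin (θ - ψ) * Real.sin (φ - ψ) := by
    rw [← Real.cos_sub]; ring_nf
  rw [e1, e2]
  exact geo_alg hd hρ hρd hsψ hsφψ hcφ hcψ0 (Real.cos_le_one ψ) hcφψ0 (Real.cos_le_one _)
    (Real.sin_sq_add_cos_sq (θ - ψ))

theorem sp_add' (β : ℝ) (z w : ℂ) : sp β (z + w) = sp β z + sp β w := by
  simp only [sp, add_re, add_im]; ring

theorem sp_half (β : ℝ) (z : ℂ) : sp β (z / 2) = sp β z / 2 := by
  have h : z / 2 = ((1 / 2 : ℝ) : ℂ) * z := by push_cast; ring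
  rw [h]
  simp only [sp, re_ofReal_mul, im_ofReal_mul]; ring

theorem sp_polar (β s x φ : ℝ) :
    sp β ((x : ℂ) * (I * nu s) * Complex.exp (φ * I)) = x * Real.cos (β - s - π / 2 - φ) := by
  have h1 : (x : ℂ) * (I * nu s) * Complex.exp (φ * I) =
      (x : ℂ) * (I * Complex.exp ((s + φ : ℝ) * I)) := by
    rw [nu, mul_assoc, mul_assoc, ← Complex.exp_add]; push_cast; ring_nf
  have h2 : β - s - π / 2 - φ = (β - (s + φ)) - π / 2 := by ring
  rw [h1, h2, Real.cos_sub_pi_div_two, Real.sin_sub]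
  simp only [sp, re_ofReal_mul, im_ofReal_mul, I_mul_re, I_mul_im, Complex.exp_ofReal_mul_I_re,
    Complex.exp_ofReal_mul_I_im]
  ring

/-- arcs seen from `γ t` under given angles -/
theorem exists_arc (O : Dom) (t : ℝ) {α β : ℝ} (h1 : 0 < α) (h2 : α ≤ β) (h3 : β < π) :
    ∃ t₃ t₄ : ℝ, t ≤ t₃ ∧ t₃ ≤ t₄ ∧ t₄ ≤ t + 2 * π ∧
      ∫ t' in t₃..t₄, O.D (O.γ t) t' = (β - α) / π ∧
      ∀ t' ∈ Icc t₃ t₄, t' ∈ Ioo t (t + 2 * π) ∧ ∃ a ∈ Icc α β,
        O.γ t' = O.γ t + ‖O.γ t' - O.γ t‖ * (I * nu t) * Complex.exp (a * I) := by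
  obtain ⟨ang, hang⟩ := exists_angle O
  obtain ⟨hc, hm, h0, hπ, hint, hpol⟩ := hang t
  have hpi := Real.pi_pos
  have hle : t ≤ t + 2 * π := by linarith
  have hivt := intermediate_value_Icc hle hc
  rw [h0, hπ] at hivt
  obtain ⟨t₃, ht₃, e₃⟩ := hivt (show α ∈ Icc 0 π from ⟨h1.le, by linarith⟩)
  obtain ⟨t₄, ht₄, e₄⟩ := hivt (show β ∈ Icc 0 π from ⟨by linarith, h3.le⟩)
  have h34 : t₃ ≤ t₄ := by
    rw [← hm.le_iff_le ht₃ ht₄, e₃, e₄]; exact h2
  refine ⟨t₃, t₄, ht₃.1, h34, ht₄.2, ?_, ?_⟩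
  · rw [(hint t₃ t₄ ht₃.1 h34 ht₄.2).2, e₃, e₄]
  · intro t' ht'
    have hI : t' ∈ Icc t (t + 2 * π) := ⟨ht₃.1.trans ht'.1, ht'.2.trans ht₄.2⟩
    have ha1 : α ≤ ang t t' := by
      rw [← e₃]; exact hm.monotoneOn ht₃ hI ht'.1
    have ha2 : ang t t' ≤ β := by
      rw [← e₄]; exact hm.monotoneOn hI ht₄ ht'.2
    have hIoo : t' ∈ Ioo t (t + 2 * π) := by
      refine ⟨lt_of_le_of_ne hI.1 ?_, lt_of_le_of_ne hI.2 ?_⟩
      · rintro rfl
        rw [h0] at ha1; linarith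
      · rintro rfl
        rw [hπ] at ha2; linarith
    refine ⟨hIoo, ang t t', ⟨ha1, ha2⟩, ?_⟩
    rw [← hpol t' hIoo]; ring

theorem sp_lt' (O : Dom) {s t : ℝ} (h1 : s < t) (h2 : t < s + 2 * π) :
    sp t (O.γ s) < O.h t := by
  rw [← γ_per]
  exact sp_γ_lt O (by linarith) (by linarith)

theorem norm_pos' (O : Dom) {s t : ℝ} (h1 : s < t) (h2 : t < s + 2 * π) :
    0 < ‖O.γ t - O.γ s‖ := by
  rw [norm_pos_iff, sub_ne_zero]
  intro h
  have h3 := sp_lt' O h1 h2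
  rw [← h, sp_γ_self] at h3
  exact lt_irrefl _ h3

/-- final step -/
theorem good_of (O : Dom) {t t' d ρ φ ψ : ℝ} (hd : 0 < d) (hρ : 0 < ρ) (h1 : π / 4 ≤ φ)
    (h2 : φ ≤ π / 3) (h3 : π / 12 ≤ ψ) (h4 : ψ ≤ φ - π / 12)
    (him : ρ * Real.sin ψ ≤ d * Real.sin φ) (hn : ‖O.γ t' - O.γ t‖ = ρ)
    (H : ∀ β, ∃ θ P : ℝ, sp β (O.γ t) = P + d * Real.cos (θ - φ) ∧
      sp β (O.γ t') = P + d * Real.cos (θ - φ) - ρ * Real.cos (θ - ψ) ∧ P ≤ O.h β ∧
      P + d * Real.sin φ * Real.sin θ ≤ O.h β) : Good O t t' := by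
  refine ⟨?_, ?_⟩
  · intro h
    rw [h, sub_self, norm_zero] at hn
    linarith
  · intro β
    obtain ⟨θ, P, e1, e2, e3, e4⟩ := H β
    have m1 := γ_mem O t β
    have m2 := γ_mem O t' β
    have hn' : ‖O.γ t - O.γ t'‖ = ρ := by rw [norm_sub_rev]; exact hn
    rw [hn', sp_half, sp_add', e1, e2]
    rw [e1] at m1
    rw [e2] at m2
    have ec : Real.cos (θ - φ) = Real.cos θ * Real.cos φ + Real.sin θ * Real.sin φ :=
      Real.cos_sub θ φ
    rcases geo_core hd hρ h1 h2 h3 h4 him θ with g | g | g | g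
    · linarith
    · linarith
    · have : d * Real.cos (θ - φ) = d * Real.cos φ * Real.cos θ + d * Real.sin φ * Real.sin θ := by
        rw [ec]; ring
      linarith
    · linarith

/-- points on the inner normal -/
theorem normal_mem (O : Dom) {s x y : ℝ} (hx : 0 ≤ x) (hxy : x ≤ y) (β : ℝ)
    (h : sp β (O.γ s) + y * Real.cos (β - s - π / 2 - π / 2) ≤ O.h β) :
    sp β (O.γ s) + x * Real.cos (β - s - π / 2 - π / 2) ≤ O.h β := by
  have m := γ_mem O s β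
  set c := Real.cos (β - s - π / 2 - π / 2)
  rcases le_total 0 c with hc | hc
  · have := mul_le_mul_of_nonneg_right hxy hc
    linarith
  · have := mul_nonpos_of_nonneg_of_nonpos hx hc
    linarith

/-- one of the two sides is good -/
theorem side (O : Dom) {s tB y : ℝ} (hB : tB ∈ Ioo s (s + 2 * π)) (hy : 0 < y)
    (hyB : O.γ tB = O.γ s + y * (I * nu s) * Complex.exp ((π / 2 : ℝ) * I)) :
    (∀ x φ : ℝ, 0 < x → π / 4 ≤ φ → φ ≤ π / 3 →
      O.γ s + x * (I * nu s) * Complex.exp (φ * I) ∈ O.cl → x * Real.sin φ ≤ y) ∨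
    (∀ x φ : ℝ, 0 < x → π / 4 ≤ φ → φ ≤ π / 3 →
      O.γ s + x * (I * nu s) * Complex.exp ((π - φ : ℝ) * I) ∈ O.cl → x * Real.sin φ ≤ y) := by
  by_contra hcon
  push Not at hcon
  obtain ⟨⟨x, φ, hx, h1, h2, hm, hl⟩, ⟨x', φ', hx', h1', h2', hm', hl'⟩⟩ := hcon
  have hpi := Real.pi_pos
  have k1 := hm tB
  have k2 := hm' tB
  rw [sp_add', sp_polar] at k1 k2
  have k3 := sp_lt' O hB.1 hB.2
  have k4 := sp_γ_self O tB
  have k5 : sp tB (O.γ tB) = sp tB (O.γ s) + y * Real.cos (tB - s - π / 2 - π / 2) := by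
    conv_lhs => rw [hyB]
    rw [sp_add', sp_polar]
  set θ := tB - s - π / 2 with hθ
  have c1 : Real.cos (θ - π / 2) = Real.sin θ := Real.cos_sub_pi_div_two θ
  have c2 : Real.cos (θ - φ) = Real.cos θ * Real.cos φ + Real.sin θ * Real.sin φ :=
    Real.cos_sub θ φ
  have c3 : Real.cos (θ - (π - φ')) = -(Real.cos θ * Real.cos φ') + Real.sin θ * Real.sin φ' := by
    rw [show θ - (π - φ') = (θ + φ') - π by ring, Real.cos_sub_pi, Real.cos_add]; ring
  rw [c1] at k5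
  rw [c2] at k1
  rw [c3] at k2
  have hs : 0 < Real.sin θ := by
    have : 0 < y * Real.sin θ := by linarith
    exact (mul_pos_iff_of_pos_left hy).1 this
  have hcφ : 0 < Real.cos φ := Real.cos_pos_of_mem_Ioo ⟨by linarith, by linarith⟩
  have hcφ' : 0 < Real.cos φ' := Real.cos_pos_of_mem_Ioo ⟨by linarith, by linarith⟩
  have a1 : x * Real.cos φ * Real.cos θ < 0 := by
    have := mul_lt_mul_of_pos_right hl hs
    nlinarith
  have a2 : x' * Real.cos φ' * Real.cos θ > 0 := by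
    have := mul_lt_mul_of_pos_right hl' hs
    nlinarith
  have b1 : 0 < x * Real.cos φ := mul_pos hx hcφ
  have b2 : 0 < x' * Real.cos φ' := mul_pos hx' hcφ'
  have d1 : Real.cos θ < 0 := by
    by_contra hh
    push Not at hh
    have := mul_nonneg b1.le hh
    linarith
  have d2 := mul_neg_of_pos_of_neg b2 d1
  linarith

/-- facts at `γ t` seen from `γ s` -/
theorem seen (O : Dom) {s t d φ : ℝ} (htI : t ∈ Ioo s (s + 2 * π)) (hd : 0 < d)
    (he : O.γ t = O.γ s + d * (I * nu s) * Complex.exp (φ * I))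
    (hN : ∀ β, sp β (O.γ s) + d * Real.sin φ * Real.cos (β - s - π / 2 - π / 2) ≤ O.h β) :
    0 < Real.sin (t - s - φ) ∧ 0 ≤ Real.cos φ * Real.sin (t - s) := by
  have k1 := sp_lt' O htI.1 htI.2
  have k2 := sp_γ_self O t
  have k3 : sp t (O.γ t) = sp t (O.γ s) + d * Real.cos (t - s - π / 2 - φ) := by
    conv_lhs => rw [he]
    rw [sp_add', sp_polar]
  have k4 := hN t
  have c1 : Real.cos (t - s - π / 2 - φ) = Real.sin (t - s - φ) := by
    rw [← Real.cos_sub_pi_div_two]; ring_nf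
  have c2 : Real.cos (t - s - π / 2 - π / 2) = - Real.cos (t - s) := by
    rw [← Real.cos_sub_pi]; ring_nf
  rw [c1] at k3
  rw [c2] at k4
  constructor
  · have : 0 < d * Real.sin (t - s - φ) := by linarith
    exact (mul_pos_iff_of_pos_left hd).1 this
  · have c3 := Real.sin_sub (t - s) φ
    have : 0 ≤ d * (Real.cos φ * Real.sin (t - s)) := by
      rw [c3] at k3
      linarith
    exact (mul_nonneg_iff_of_pos_left hd).1 this

theorem right_case (O : Dom) {s t d φ : ℝ} (htI : t ∈ Ioo s (s + 2 * π)) (hd : 0 < d)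
    (h1 : π / 4 ≤ φ) (h2 : φ ≤ π / 3)
    (he : O.γ t = O.γ s + d * (I * nu s) * Complex.exp (φ * I))
    (hN : ∀ β, sp β (O.γ s) + d * Real.sin φ * Real.cos (β - s - π / 2 - π / 2) ≤ O.h β) :
    ∃ t₃ t₄ : ℝ, t ≤ t₃ ∧ t₃ ≤ t₄ ∧ t₄ ≤ t + 2 * π ∧ 1 / 12 ≤ ∫ t' in t₃..t₄, O.D (O.γ t) t' ∧
      ∀ t' ∈ Icc t₃ t₄, Good O t t' := by
  have hpi := Real.pi_pos
  obtain ⟨k1, k2⟩ := seen O htI hd he hN
  obtain ⟨hI1, hI2⟩ := htI
  have hcφ : 0 < Real.cos φ := Real.cos_pos_of_mem_Ioo ⟨by linarith, by linarith⟩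
  have hts : t - s ≤ π := by
    by_contra hcon
    push Not at hcon
    have : Real.sin (t - s - 2 * π) < 0 :=
      Real.sin_neg_of_neg_of_neg_pi_lt (by linarith) (by linarith)
    rw [Real.sin_sub_two_pi] at this
    have := mul_neg_of_pos_of_neg hcφ this
    linarith
  have hts2 : φ < t - s := by
    by_contra hcon
    push Not at hcon
    have : Real.sin (t - s - φ) ≤ 0 :=
      Real.sin_nonpos_of_nonpos_of_neg_pi_le (by linarith) (by linarith)
    linarith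
  obtain ⟨t₃, t₄, g1, g2, g3, g4, g5⟩ := exists_arc O t (α := π + π / 12 - (t - s))
    (β := π + (φ - π / 12) - (t - s)) (by linarith) (by linarith) (by linarith)
  refine ⟨t₃, t₄, g1, g2, g3, ?_, ?_⟩
  · rw [g4, div_le_div_iff₀ (by norm_num) hpi]
    linarith
  · intro t' ht'
    obtain ⟨ht'I, a, ha, hae⟩ := g5 t' ht'
    set ρ := ‖O.γ t' - O.γ t‖ with hρ
    have hρ0 : 0 < ρ := norm_pos' O ht'I.1 ht'I.2
    set ψ := a + (t - s) - π with hψ
    have q : ∀ β, sp β (O.γ t) = sp β (O.γ s) + d * Real.cos (β - s - π / 2 - φ) := by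
      intro β
      conv_lhs => rw [he]
      rw [sp_add', sp_polar]
    have r : ∀ β, sp β (O.γ t') = sp β (O.γ s) + d * Real.cos (β - s - π / 2 - φ) -
        ρ * Real.cos (β - s - π / 2 - ψ) := by
      intro β
      conv_lhs => rw [hae]
      rw [sp_add', sp_polar, q]
      have : Real.cos (β - t - π / 2 - a) = - Real.cos (β - s - π / 2 - ψ) := by
        rw [← Real.cos_sub_pi, hψ]; ring_nf
      rw [this]; ring
    refine good_of O (φ := φ) (ψ := ψ) hd hρ0 h1 h2 (by linarith [ha.1]) (by linarith [ha.2]) ?_ rfl ?_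
    · have m := γ_mem O t' s
      rw [r, ← sp_γ_self] at m
      have c1 : Real.cos (s - s - π / 2 - φ) = - Real.sin φ := by
        rw [← Real.cos_add_pi_div_two, ← Real.cos_neg]; ring_nf
      have c2 : Real.cos (s - s - π / 2 - ψ) = - Real.sin ψ := by
        rw [← Real.cos_add_pi_div_two, ← Real.cos_neg]; ring_nf
      rw [c1, c2] at m
      linarith
    · intro β
      refine ⟨β - s - π / 2, sp β (O.γ s), q β, r β, γ_mem O s β, ?_⟩
      have := hN β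
      rwa [Real.cos_sub_pi_div_two (β - s - π / 2)] at this

theorem left_case (O : Dom) {s t d φ : ℝ} (htI : t ∈ Ioo s (s + 2 * π)) (hd : 0 < d)
    (h1 : π / 4 ≤ φ) (h2 : φ ≤ π / 3)
    (he : O.γ t = O.γ s + d * (I * nu s) * Complex.exp ((π - φ : ℝ) * I))
    (hN : ∀ β, sp β (O.γ s) + d * Real.sin φ * Real.cos (β - s - π / 2 - π / 2) ≤ O.h β) :
    ∃ t₃ t₄ : ℝ, t ≤ t₃ ∧ t₃ ≤ t₄ ∧ t₄ ≤ t + 2 * π ∧ 1 / 12 ≤ ∫ t' in t₃..t₄, O.D (O.γ t) t' ∧
      ∀ t' ∈ Icc t₃ t₄, Good O t t' := by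
  have hpi := Real.pi_pos
  obtain ⟨k1, k2⟩ := seen O htI hd he (by rw [Real.sin_pi_sub]; exact hN)
  obtain ⟨hI1, hI2⟩ := htI
  have hcφ : 0 < Real.cos φ := Real.cos_pos_of_mem_Ioo ⟨by linarith, by linarith⟩
  rw [Real.cos_pi_sub] at k2
  have hts : π ≤ t - s := by
    by_contra hcon
    push Not at hcon
    have : 0 < Real.sin (t - s) := Real.sin_pos_of_pos_of_lt_pi (by linarith) hcon
    have := mul_pos hcφ this
    linarith
  have hts2 : t - s < π + (π - φ) := by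
    by_contra hcon
    push Not at hcon
    have : Real.sin (t - s - (π - φ) - 2 * π) ≤ 0 :=
      Real.sin_nonpos_of_nonpos_of_neg_pi_le (by linarith) (by linarith)
    rw [Real.sin_sub_two_pi] at this
    linarith
  obtain ⟨t₃, t₄, g1, g2, g3, g4, g5⟩ := exists_arc O t (α := 2 * π - (φ - π / 12) - (t - s))
    (β := 2 * π - π / 12 - (t - s)) (by linarith) (by linarith) (by linarith)
  refine ⟨t₃, t₄, g1, g2, g3, ?_, ?_⟩
  · rw [g4, div_le_div_iff₀ (by norm_num) hpi]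
    linarith
  · intro t' ht'
    obtain ⟨ht'I, a, ha, hae⟩ := g5 t' ht'
    set ρ := ‖O.γ t' - O.γ t‖ with hρ
    have hρ0 : 0 < ρ := norm_pos' O ht'I.1 ht'I.2
    set ψ := 2 * π - (t - s) - a with hψ
    have q : ∀ β, sp β (O.γ t) =
        sp β (O.γ s) + d * Real.cos ((π - (β - s - π / 2)) - φ) := by
      intro β
      conv_lhs => rw [he]
      rw [sp_add', sp_polar]
      have : Real.cos (β - s - π / 2 - (π - φ)) = Real.cos ((π - (β - s - π / 2)) - φ) := by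
        rw [← Real.cos_neg]; ring_nf
      rw [this]
    have r : ∀ β, sp β (O.γ t') = sp β (O.γ s) + d * Real.cos ((π - (β - s - π / 2)) - φ) -
        ρ * Real.cos ((π - (β - s - π / 2)) - ψ) := by
      intro β
      conv_lhs => rw [hae]
      rw [sp_add', sp_polar, q]
      have : Real.cos (β - t - π / 2 - a) = - Real.cos ((π - (β - s - π / 2)) - ψ) := by
        rw [show β - t - π / 2 - a = (β - t - a + π / 2) - π by ring, Real.cos_sub_pi,
          ← Real.cos_neg (β - t - a + π / 2), hψ]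
        ring_nf
      rw [this]; ring
    refine good_of O (φ := φ) (ψ := ψ) hd hρ0 h1 h2 (by linarith [ha.2]) (by linarith [ha.1]) ?_ rfl ?_
    · have m := γ_mem O t' s
      rw [r, ← sp_γ_self] at m
      have c1 : Real.cos ((π - (s - s - π / 2)) - φ) = - Real.sin φ := by
        rw [show (π - (s - s - π / 2)) - φ = -(φ + π / 2) + 2 * π by ring,
          Real.cos_add_two_pi, Real.cos_neg, Real.cos_add_pi_div_two]
      have c2 : Real.cos ((π - (s - s - π / 2)) - ψ) = - Real.sin ψ := by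
        rw [show (π - (s - s - π / 2)) - ψ = -(ψ + π / 2) + 2 * π by ring,
          Real.cos_add_two_pi, Real.cos_neg, Real.cos_add_pi_div_two]
      rw [c1, c2] at m
      linarith
    · intro β
      refine ⟨π - (β - s - π / 2), sp β (O.γ s), q β, r β, γ_mem O s β, ?_⟩
      have := hN β
      rwa [Real.cos_sub_pi_div_two (β - s - π / 2), ← Real.sin_pi_sub (β - s - π / 2)] at this

theorem exists_good (O : Dom) (s : ℝ) : ∃ t₁ t₂ : ℝ, s ≤ t₁ ∧ t₁ ≤ t₂ ∧ t₂ ≤ s + 2 * π ∧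
    1 / 12 ≤ ∫ t in t₁..t₂, O.D (O.γ s) t ∧ ∀ t ∈ Icc t₁ t₂, ∃ t₃ t₄ : ℝ,
      t ≤ t₃ ∧ t₃ ≤ t₄ ∧ t₄ ≤ t + 2 * π ∧ 1 / 12 ≤ ∫ t' in t₃..t₄, O.D (O.γ t) t' ∧
      ∀ t' ∈ Icc t₃ t₄, Good O t t' := by
  have hpi := Real.pi_pos
  obtain ⟨tB, tB', hB1, hB2, hB3, -, hB⟩ := exists_arc O s (α := π / 2) (β := π / 2)
    (by linarith) le_rfl (by linarith)
  obtain ⟨hBI, a, ha, hBe⟩ := hB tB ⟨le_rfl, hB2⟩
  obtain rfl : a = π / 2 := le_antisymm ha.2 ha.1
  set y := ‖O.γ tB - O.γ s‖ with hy0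
  have hy : 0 < y := norm_pos' O hBI.1 hBI.2
  have hN : ∀ x, 0 ≤ x → x ≤ y → ∀ β,
      sp β (O.γ s) + x * Real.cos (β - s - π / 2 - π / 2) ≤ O.h β := by
    intro x hx hxy β
    refine normal_mem O hx hxy β ?_
    have m := γ_mem O tB β
    rw [hBe, sp_add', sp_polar] at m
    exact m
  rcases side O hBI hy hBe with hR | hL
  · obtain ⟨t₁, t₂, h1, h12, h2, hint, harc⟩ := exists_arc O s (α := π / 4) (β := π / 3)
      (by linarith) (by linarith) (by linarith)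
    refine ⟨t₁, t₂, h1, h12, h2, ?_, fun t ht => ?_⟩
    · rw [hint, div_le_div_iff₀ (by norm_num) hpi]
      linarith
    · obtain ⟨htI, φ, hφ, het⟩ := harc t ht
      have hd : 0 < ‖O.γ t - O.γ s‖ := norm_pos' O htI.1 htI.2
      have hle := hR _ φ hd hφ.1 hφ.2 (by rw [← het]; exact γ_mem O t)
      have hs0 : 0 ≤ Real.sin φ :=
        Real.sin_nonneg_of_nonneg_of_le_pi (by linarith [hφ.1]) (by linarith [hφ.2])
      exact right_case O htI hd hφ.1 hφ.2 het (hN _ (by positivity) hle)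
  · obtain ⟨t₁, t₂, h1, h12, h2, hint, harc⟩ := exists_arc O s (α := π - π / 3)
      (β := π - π / 4) (by linarith) (by linarith) (by linarith)
    refine ⟨t₁, t₂, h1, h12, h2, ?_, fun t ht => ?_⟩
    · rw [hint, div_le_div_iff₀ (by norm_num) hpi]
      linarith
    · obtain ⟨htI, φ', hφ', het⟩ := harc t ht
      obtain ⟨φ, rfl⟩ : ∃ φ, φ' = π - φ := ⟨π - φ', by ring⟩
      have hφ1 : π / 4 ≤ φ := by linarith [hφ'.2]
      have hφ2 : φ ≤ π / 3 := by linarith [hφ'.1]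
      have hd : 0 < ‖O.γ t - O.γ s‖ := norm_pos' O htI.1 htI.2
      have hle := hL _ φ hd hφ1 hφ2 (by rw [← het]; exact γ_mem O t)
      have hs0 : 0 ≤ Real.sin φ :=
        Real.sin_nonneg_of_nonneg_of_le_pi (by linarith) (by linarith)
      exact left_case O htI hd hφ1 hφ2 het (hN _ (by positivity) hle)

end P123
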