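import Vale.Agent.P123.Curve

/-!
# P123 : the numerical range is convex (Toeplitz-Hausdorff); smooth domains close to it
-/

namespace P123

open MeasureTheory Complex Set
open scoped Real ComplexConjugate

universe u

/-- Toeplitz-Hausdorff -/
theorem convex_numRange {H : Type u} [NormedAddCommGroup H] [InnerProductSpace ℂ H]
    (A : H →L[ℂ] H) : Convex ℝ (numRange A) := by
  rintro α ⟨x, hx, hxα⟩ β ⟨y, hy, hyβ⟩ a b ha hb hab
  by_cases hαβ : α = β
  · refine ⟨x, hx, ?_⟩
    rw [hxα, ← hαβ, ← add_smul, hab, one_smul]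
  have hne : β - α ≠ 0 := fun h => hαβ (sub_eq_zero.1 h).symm
  have hxx : inner ℂ x x = (1 : ℂ) := by
    rw [inner_self_eq_norm_sq_to_K, hx]; simp
  have hyy : inner ℂ y y = (1 : ℂ) := by
    rw [inner_self_eq_norm_sq_to_K, hy]; simp
  set p : ℂ := (inner ℂ x (A y) - α * inner ℂ x y) / (β - α) with hp
  set q : ℂ := (inner ℂ y (A x) - α * inner ℂ y x) / (β - α) with hq
  -- the unimodular factor
  obtain ⟨c, hc, κ, hκ⟩ : ∃ c : ℂ, conj c * c = 1 ∧ ∃ κ : ℝ, conj c * p + c * q = κ := by
    by_cases hz : q - conj p = 0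
    · refine ⟨1, by simp, 2 * p.re, ?_⟩
      have : q = conj p := sub_eq_zero.1 hz
      rw [this]
      apply Complex.ext <;> simp
      ring
    · set r : ℝ := ‖q - conj p‖ with hr
      have hr0 : (r : ℂ) ≠ 0 := by
        rw [Complex.ofReal_ne_zero]; exact norm_ne_zero_iff.2 hz
      have hrr : conj (q - conj p) * (q - conj p) = (r : ℂ) * r := by
        rw [mul_comm, Complex.mul_conj, Complex.normSq_eq_norm_sq]
        push_cast; ring
      set c : ℂ := conj (q - conj p) / r with hc
      have h1 : conj c = (q - conj p) / r := by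
        rw [hc, map_div₀, Complex.conj_conj, Complex.conj_ofReal]
      refine ⟨c, ?_, r + 2 * (conj c * p).re, ?_⟩
      · rw [h1, hc]
        field_simp
        linear_combination hrr
      · have h2 : c * (q - conj p) = r := by
          rw [hc]
          field_simp
          linear_combination hrr
        have h3 : c * conj p = conj (conj c * p) := by simp
        have h4 : conj c * p + c * q = c * (q - conj p) + (conj c * p + conj (conj c * p)) := by
          rw [← h3]; ring
        rw [h4, h2, Complex.add_conj]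
        push_cast; ring
  -- the path
  let v : ℝ → H := fun θ => ((1 - θ : ℝ) : ℂ) • c • x + (θ : ℂ) • y
  have hvc : Continuous v := by fun_prop
  have e1 : ∀ θ, inner ℂ (v θ) (A (v θ)) = ((1 - θ : ℝ) : ℂ) ^ 2 * α + (θ : ℂ) ^ 2 * β +
      ((1 - θ : ℝ) : ℂ) * θ * (conj c * inner ℂ x (A y) + c * inner ℂ y (A x)) := by
    intro θ
    simp only [v, map_add, map_smul, inner_add_left, inner_add_right, inner_smul_left,
      inner_smul_right, Complex.conj_ofReal]
    rw [hxα, hyβ]
    linear_combination ((1 - θ : ℝ) : ℂ) ^ 2 * α * hc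
  have e2 : ∀ θ, inner ℂ (v θ) (v θ) = ((1 - θ : ℝ) : ℂ) ^ 2 + (θ : ℂ) ^ 2 +
      ((1 - θ : ℝ) : ℂ) * θ * (conj c * inner ℂ x y + c * inner ℂ y x) := by
    intro θ
    simp only [v, inner_add_left, inner_add_right, inner_smul_left,
      inner_smul_right, Complex.conj_ofReal]
    rw [hxx, hyy]
    linear_combination ((1 - θ : ℝ) : ℂ) ^ 2 * hc
  have e3 : ∀ θ, inner ℂ (v θ) (A (v θ)) = α * inner ℂ (v θ) (v θ) +
      (β - α) * ((θ ^ 2 + (1 - θ) * θ * κ : ℝ) : ℂ) := by
    intro θ
    rw [e1, e2]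
    push_cast
    rw [← hκ, hp, hq]
    field_simp
    ring
  have e4 : ∀ θ, inner ℂ (v θ) (v θ) = ((‖v θ‖ ^ 2 : ℝ) : ℂ) := by
    intro θ
    rw [inner_self_eq_norm_sq_to_K]; simp
  have hc1 : ‖c‖ = 1 := by
    have h1 : ((‖c‖ ^ 2 : ℝ) : ℂ) = 1 := by
      rw [← hc, mul_comm, Complex.mul_conj, Complex.normSq_eq_norm_sq]
    have h2 : ‖c‖ ^ 2 = 1 := by exact_mod_cast h1
    exact (pow_eq_one_iff_of_nonneg (norm_nonneg c) two_ne_zero).1 h2
  have hv0 : ∀ θ ∈ Icc (0 : ℝ) 1, v θ ≠ 0 := by
    intro θ hθ h0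
    have h1 := e3 θ
    have h2 : (θ : ℂ) • y = -(((1 - θ : ℝ) : ℂ) • c • x) := by
      rw [eq_neg_iff_add_eq_zero, add_comm]; exact h0
    have h3 : θ = 1 - θ := by
      have := congrArg norm h2
      rw [norm_neg, norm_smul, norm_smul, norm_smul, hc1, hx, hy, Complex.norm_real,
        Complex.norm_real, Real.norm_of_nonneg hθ.1, Real.norm_of_nonneg (by linarith [hθ.2])] at this
      linarith
    have h4 : θ = 1 / 2 := by linarith
    rw [h0] at h1
    simp only [map_zero, inner_zero_left, mul_zero, zero_add] at h1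
    have h5 : ((θ ^ 2 + (1 - θ) * θ * κ : ℝ) : ℂ) = 0 := by
      rcases mul_eq_zero.1 h1.symm with h | h
      · exact absurd h hne
      · exact h
    have h6 : κ = -1 := by
      have : θ ^ 2 + (1 - θ) * θ * κ = 0 := by exact_mod_cast h5
      rw [h4] at this
      linarith
    -- `y = - c x`
    have h7 : y = -(c • x) := by
      rw [h4] at h2
      have h8 : ((1 / 2 : ℝ) : ℂ) • y = ((1 / 2 : ℝ) : ℂ) • -(c • x) := by
        rw [h2, smul_neg]
        norm_num
      have h9 : ((1 / 2 : ℝ) : ℂ) ≠ 0 := by norm_num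
      exact smul_right_injective H h9 h8
    apply hαβ
    rw [← hxα, ← hyβ, h7, map_neg, map_smul, inner_neg_left, inner_neg_right, inner_smul_left,
      inner_smul_right, neg_neg, ← mul_assoc, hc, one_mul]
  have hN : ∀ θ ∈ Icc (0 : ℝ) 1, 0 < ‖v θ‖ ^ 2 := fun θ hθ =>
    pow_pos (norm_pos_iff.2 (hv0 θ hθ)) 2
  let f : ℝ → ℝ := fun θ => (θ ^ 2 + (1 - θ) * θ * κ) / ‖v θ‖ ^ 2
  have hf : ContinuousOn f (Icc 0 1) :=
    ContinuousOn.div (by fun_prop) (by fun_prop) fun θ hθ => (hN θ hθ).ne'
  have hf0 : f 0 = 0 := by simp [f]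
  have hf1 : f 1 = 1 := by simp [f, v, hy]
  have hivt := intermediate_value_Icc (zero_le_one' ℝ) hf
  rw [hf0, hf1] at hivt
  obtain ⟨θ, hθ, hθb⟩ := hivt (show b ∈ Icc (0 : ℝ) 1 from ⟨hb, by linarith⟩)
  have hNθ := hN θ hθ
  have hnθ : 0 < ‖v θ‖ := norm_pos_iff.2 (hv0 θ hθ)
  refine ⟨((‖v θ‖⁻¹ : ℝ) : ℂ) • v θ, ?_, ?_⟩
  · rw [norm_smul, Complex.norm_real, norm_inv, norm_norm, inv_mul_cancel₀ hnθ.ne']
  · rw [map_smul, inner_smul_left, inner_smul_right, Complex.conj_ofReal, e3, e4]
    have h1 : θ ^ 2 + (1 - θ) * θ * κ = b * ‖v θ‖ ^ 2 := by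
      rw [← hθb]; exact (div_mul_cancel₀ _ hNθ.ne').symm
    rw [h1]
    have h2 : ((‖v θ‖ : ℝ) : ℂ) ≠ 0 := Complex.ofReal_ne_zero.2 hnθ.ne'
    have h3 : a = 1 - b := by linarith
    rw [h3]
    simp only [Complex.real_smul]
    push_cast
    field_simp
    ring

/-! ### the support function -/

theorem sp_le_norm (t : ℝ) (z : ℂ) : |sp t z| ≤ ‖z‖ := by
  rw [sp_eq]
  refine (Complex.abs_re_le_norm _).trans ?_
  rw [norm_mul, Complex.norm_conj, norm_nu, one_mul]

theorem sp_per2 (t : ℝ) (z : ℂ) : sp (t + 2 * π) z = sp t z := by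
  simp only [sp, Real.cos_add_two_pi, Real.sin_add_two_pi]

theorem sp_add_sub (t s : ℝ) (z : ℂ) : sp (t + s) z + sp (t - s) z = 2 * Real.cos s * sp t z := by
  simp only [sp, Real.cos_add, Real.cos_sub, Real.sin_add, Real.sin_sub]; ring

theorem sp_lip (t s : ℝ) (z : ℂ) : sp t z ≤ sp s z + 2 * ‖z‖ * |t - s| := by
  have h1 := Real.abs_cos_sub_cos_le t s
  have h2 := Real.abs_sin_sub_sin_le t s
  have h3 : z.re * (Real.cos t - Real.cos s) ≤ ‖z‖ * |t - s| := by
    refine (le_abs_self _).trans ?_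
    rw [abs_mul]
    exact mul_le_mul (Complex.abs_re_le_norm z) h1 (abs_nonneg _) (norm_nonneg _)
  have h4 : z.im * (Real.sin t - Real.sin s) ≤ ‖z‖ * |t - s| := by
    refine (le_abs_self _).trans ?_
    rw [abs_mul]
    exact mul_le_mul (Complex.abs_im_le_norm z) h2 (abs_nonneg _) (norm_nonneg _)
  simp only [sp]
  linarith

section Supp

variable (W : Set ℂ)

/-- support function -/
noncomputable def supp (t : ℝ) : ℝ := sSup (sp t '' W)

variable {W}

theorem le_supp {L : ℝ} (hW : ∀ w ∈ W, ‖w‖ ≤ L) {w : ℂ} (hw : w ∈ W) (t : ℝ) :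
    sp t w ≤ supp W t := by
  refine le_csSup ⟨L, ?_⟩ ⟨w, hw, rfl⟩
  rintro _ ⟨z, hz, rfl⟩
  exact (le_abs_self _).trans ((sp_le_norm t z).trans (hW z hz))

theorem supp_le (hne : W.Nonempty) {t c : ℝ} (h : ∀ w ∈ W, sp t w ≤ c) : supp W t ≤ c := by
  refine csSup_le (hne.image _) ?_
  rintro _ ⟨z, hz, rfl⟩
  exact h z hz

theorem supp_per (t : ℝ) : supp W (t + 2 * π) = supp W t := by
  unfold supp
  congr 1
  ext x
  simp [sp_per2]

theorem supp_lip {L : ℝ} (hW : ∀ w ∈ W, ‖w‖ ≤ L) (hne : W.Nonempty) (t s : ℝ) :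
    |supp W t - supp W s| ≤ 2 * L * |t - s| := by
  have key : ∀ a b : ℝ, supp W a ≤ supp W b + 2 * L * |a - b| := by
    intro a b
    refine supp_le hne fun w hw => ?_
    have h1 := sp_lip a b w
    have h2 := le_supp hW hw b
    have h3 : 2 * ‖w‖ * |a - b| ≤ 2 * L * |a - b| := by
      have := hW w hw
      gcongr
    linarith
  rw [abs_sub_le_iff]
  constructor
  · have := key t s
    linarith
  · have := key s t
    rw [abs_sub_comm] at this
    linarith

theorem supp_cont {L : ℝ} (hL : 0 ≤ L) (hW : ∀ w ∈ W, ‖w‖ ≤ L) (hne : W.Nonempty) :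
    Continuous (supp W) := by
  have : LipschitzWith (2 * L).toNNReal (supp W) := by
    refine LipschitzWith.of_dist_le_mul fun t s => ?_
    rw [Real.coe_toNNReal _ (by positivity), Real.dist_eq, Real.dist_eq]
    exact supp_lip hW hne t s
  exact this.continuous

theorem supp_add_sub {L : ℝ} (hW : ∀ w ∈ W, ‖w‖ ≤ L) (hne : W.Nonempty) (t : ℝ) {s : ℝ}
    (hs : 0 < Real.cos s) :
    0 ≤ supp W (t + s) + supp W (t - s) - 2 * Real.cos s * supp W t := by
  have h1 : supp W t ≤ (supp W (t + s) + supp W (t - s)) / (2 * Real.cos s) := by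
    refine supp_le hne fun w hw => ?_
    rw [le_div_iff₀ (by positivity), mul_comm, ← sp_add_sub]
    exact add_le_add (le_supp hW hw _) (le_supp hW hw _)
  rw [le_div_iff₀ (by positivity)] at h1
  linarith

end Supp

/-- the second derivative test for the second difference -/
theorem second_diff {h : ℝ → ℝ} (hh : ContDiff ℝ 2 h) {t : ℝ}
    (h0 : ∀ s, 0 < Real.cos s → 0 ≤ h (t + s) + h (t - s) - 2 * Real.cos s * h t) :
    0 ≤ h t + deriv (deriv h) t := by
  have hd : Differentiable ℝ h := hh.differentiable (by norm_num)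
  have hd1 : Differentiable ℝ (deriv h) := hh.differentiable_deriv_two
  set F : ℝ → ℝ := fun s => h (t + s) + h (t - s) - 2 * Real.cos s * h t with hF
  have F1 : ∀ s, HasDerivAt F (deriv h (t + s) - deriv h (t - s) + 2 * Real.sin s * h t) s := by
    intro s
    have a1 : HasDerivAt (fun s => h (t + s)) (deriv h (t + s)) s := by
      have := (hd (t + s)).hasDerivAt.comp_const_add t s
      exact this
    have a2 : HasDerivAt (fun s => h (t - s)) (-deriv h (t - s)) s := by
      have := (hd (t - s)).hasDerivAt.comp_const_sub t s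
      exact this
    have a3 : HasDerivAt (fun s => 2 * Real.cos s * h t) (2 * (-Real.sin s) * h t) s :=
      ((Real.hasDerivAt_cos s).const_mul 2).mul_const (h t)
    exact ((a1.add a2).sub a3).congr_deriv (by ring)
  have F1' : deriv F = fun s => deriv h (t + s) - deriv h (t - s) + 2 * Real.sin s * h t :=
    funext fun s => (F1 s).deriv
  have F2 : HasDerivAt (deriv F) (2 * (h t + deriv (deriv h) t)) 0 := by
    rw [F1']
    have a1 : HasDerivAt (fun s => deriv h (t + s)) (deriv (deriv h) (t + 0)) 0 :=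
      (hd1 (t + 0)).hasDerivAt.comp_const_add t 0
    have a2 : HasDerivAt (fun s => deriv h (t - s)) (-deriv (deriv h) (t - 0)) 0 :=
      (hd1 (t - 0)).hasDerivAt.comp_const_sub t 0
    have a3 : HasDerivAt (fun s => 2 * Real.sin s * h t) (2 * Real.cos 0 * h t) 0 :=
      ((Real.hasDerivAt_sin 0).const_mul 2).mul_const (h t)
    exact ((a1.sub a2).add a3).congr_deriv (by rw [add_zero, sub_zero, Real.cos_zero]; ring)
  by_contra hcon
  push Not at hcon
  have hmax : IsLocalMax F 0 := by
    refine isLocalMax_of_deriv_deriv_neg ?_ ?_ (F1 0).continuousAt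
    · rw [F2.deriv]; linarith
    · rw [F1']; simp
  have hF0 : F 0 = 0 := by simp [hF]; ring
  have hcos : ∀ᶠ s in nhds (0 : ℝ), 0 < Real.cos s := by
    have : ContinuousAt Real.cos 0 := Real.continuous_cos.continuousAt
    refine this.eventually (lt_mem_nhds ?_)
    rw [Real.cos_zero]; norm_num
  have hev : F =ᶠ[nhds 0] fun _ => 0 := by
    filter_upwards [hmax, hcos] with s h1 h2
    rw [hF0] at h1
    exact le_antisymm h1 (h0 s h2)
  have h3 : deriv F =ᶠ[nhds 0] fun _ => 0 := by
    have := hev.deriv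
    simpa using this
  have h4 : deriv (deriv F) 0 = 0 := by
    rw [h3.deriv_eq]; simp
  rw [F2.deriv] at h4
  linarith

/-- smooth domains close to the numerical range -/
theorem exists_dom {H : Type u} [NormedAddCommGroup H] [InnerProductSpace ℂ H] [CompleteSpace H]
    [Nontrivial H] (A : H →L[ℂ] H) {ε : ℝ} (hε : 0 < ε) :
    ∃ (O : Dom) (d : ℝ), 0 < d ∧ O.Inside A d ∧ ∀ z ∈ O.cl, ∃ w ∈ numRange A, ‖z - w‖ ≤ ε := by
  set W := numRange A with hWdef
  set L := ‖A‖ with hLdef
  have hL : 0 ≤ L := norm_nonneg A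
  have hW : ∀ w ∈ W, ‖w‖ ≤ L := by
    rintro w ⟨x, hx, rfl⟩
    calc ‖inner ℂ x (A x)‖ ≤ ‖x‖ * ‖A x‖ := norm_inner_le_norm _ _
      _ ≤ ‖x‖ * (‖A‖ * ‖x‖) := by gcongr; exact A.le_opNorm x
      _ = L := by rw [hx]; ring
  have hne : W.Nonempty := by
    obtain ⟨x, hx⟩ := exists_norm_eq H (zero_le_one' ℝ)
    exact ⟨_, x, hx, rfl⟩
  set g := supp W with hg
  have hgc : Continuous g := supp_cont hL hW hne
  set δ : ℝ := ε / (8 * (L + 1)) with hδ
  have hδ0 : 0 < δ := by positivity
  have hδL : 2 * L * δ ≤ ε / 4 := by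
    rw [hδ, mul_div_assoc', div_le_div_iff₀ (by positivity) (by norm_num)]
    nlinarith
  let φ : ContDiffBump (0 : ℝ) := ⟨δ / 2, δ, by positivity, by linarith⟩
  set k : ℝ → ℝ := φ.normed volume with hk
  have hkc : HasCompactSupport k := φ.hasCompactSupport_normed
  have hks : ContDiff ℝ (2 : ℕ∞) k := φ.contDiff_normed
  have hkc' : Continuous k := hks.continuous
  set m : ℝ → ℝ := convolution k g (ContinuousLinearMap.lsmul ℝ ℝ) volume with hm
  have hms : ContDiff ℝ 2 m :=
    hkc.contDiff_convolution_left (n := 2) _ hks hgc.locallyIntegrable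
  have hme : ∀ t, m t = ∫ u, k u * g (t - u) := fun t => rfl
  have hint : ∀ t, Integrable fun u => k u * g (t - u) := fun t =>
    (Continuous.integrable_of_hasCompactSupport (by fun_prop) (hkc.mul_right))
  have hclose : ∀ t, |m t - g t| ≤ ε / 4 := by
    intro t
    have := φ.dist_normed_convolution_le (μ := volume) (g := g) (x₀ := t) (ε := ε / 4)
      hgc.aestronglyMeasurable ?_
    · rwa [Real.dist_eq] at this
    · intro s hs
      rw [Metric.mem_ball, Real.dist_eq] at hs
      rw [Real.dist_eq]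
      have h1 := supp_lip hW hne s t
      have h2 : 2 * L * |s - t| ≤ 2 * L * δ := by
        have : |s - t| ≤ δ := hs.le
        gcongr
      linarith
  have hsd : ∀ t s, 0 < Real.cos s → 0 ≤ m (t + s) + m (t - s) - 2 * Real.cos s * m t := by
    intro t s hs
    have hI1 : Integrable (fun u => k u * g (t + s - u) + k u * g (t - s - u)) :=
      (hint _).add (hint _)
    have hI2 : Integrable (fun u => 2 * Real.cos s * (k u * g (t - u))) :=
      (hint _).const_mul _
    rw [hme, hme, hme, ← integral_add (hint _) (hint _), ← integral_const_mul,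
      ← integral_sub hI1 hI2]
    refine integral_nonneg fun u => ?_
    have h1 := supp_add_sub hW hne (t - u) hs
    have h2 : 0 ≤ k u := φ.nonneg_normed u
    have h3 := mul_nonneg h2 h1
    have e1 : t + s - u = t - u + s := by ring
    have e2 : t - s - u = t - u - s := by ring
    simp only [Pi.zero_apply]
    rw [e1, e2]
    have e3 : k u * (supp W (t - u + s) + supp W (t - u - s) - 2 * Real.cos s * supp W (t - u)) =
      k u * g (t - u + s) + k u * g (t - u - s) - 2 * Real.cos s * (k u * g (t - u)) := by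
      rw [hg]; ring
    rw [← e3]
    exact h3
  have hpos : ∀ t, 0 ≤ m t + deriv (deriv m) t := fun t => second_diff hms (hsd t)
  have hmd : Differentiable ℝ m := hms.differentiable (by norm_num)
  have hmd1 : Differentiable ℝ (deriv m) := hms.differentiable_deriv_two
  let O : Dom :=
    { h := fun t => m t + ε / 2
      h1 := deriv m
      h2 := deriv (deriv m)
      hd := fun t => (hmd t).hasDerivAt.add_const _
      hd1 := fun t => (hmd1 t).hasDerivAt
      cont := by
        have h1 : ContDiff ℝ 1 (deriv m) := by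
          have : ContDiff ℝ (1 + 1) m := by
            convert hms using 1
            norm_num
          exact (contDiff_succ_iff_deriv.1 this).2.2
        exact h1.continuous_deriv le_rfl
      per := by
        intro t
        have : m (t + 2 * π) = m t := by
          rw [hme, hme]
          congr 1
          ext u
          rw [show t + 2 * π - u = t - u + 2 * π by ring, hg, supp_per]
        simp only [this]
      pos := by
        intro t
        have := hpos t
        change 0 < m t + ε / 2 + deriv (deriv m) t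
        linarith }
  refine ⟨O, ε / 4, by positivity, ?_, ?_⟩
  · intro t x
    have hOh : O.h t = m t + ε / 2 := rfl
    have h1 := abs_le.1 (hclose t)
    rcases eq_or_ne x 0 with rfl | hx
    · simp [sp]
    have hn : 0 < ‖x‖ := norm_pos_iff.2 hx
    have hu : inner ℂ ((‖x‖⁻¹ : ℂ) • x) (A ((‖x‖⁻¹ : ℂ) • x)) ∈ W := by
      refine ⟨_, ?_, rfl⟩
      rw [norm_smul, norm_inv, Complex.norm_real, norm_norm, inv_mul_cancel₀ hn.ne']
    have h2 := le_supp hW hu t
    have h3 : inner ℂ x (A x) =
        ((‖x‖ ^ 2 : ℝ) : ℂ) * inner ℂ ((‖x‖⁻¹ : ℂ) • x) (A ((‖x‖⁻¹ : ℂ) • x)) := by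
      rw [map_smul, inner_smul_left, inner_smul_right, map_inv₀, Complex.conj_ofReal]
      have : (‖x‖ : ℂ) ≠ 0 := Complex.ofReal_ne_zero.2 hn.ne'
      push_cast
      field_simp
    have h4 : sp t (inner ℂ x (A x)) = ‖x‖ ^ 2 *
        sp t (inner ℂ ((‖x‖⁻¹ : ℂ) • x) (A ((‖x‖⁻¹ : ℂ) • x))) := by
      rw [h3]
      simp only [sp, re_ofReal_mul, im_ofReal_mul]; ring
    rw [h4, hOh, mul_comm]
    have h5 : sp t (inner ℂ ((‖x‖⁻¹ : ℂ) • x) (A ((‖x‖⁻¹ : ℂ) • x))) ≤ m t + ε / 2 - ε / 4 := by
      rw [← hg] at h2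
      linarith
    exact mul_le_mul_of_nonneg_right h5 (by positivity)
  · intro z hz
    have hK : Convex ℝ (closure W) := (convex_numRange A).closure
    have hKc : IsComplete (closure W) := isClosed_closure.isComplete
    obtain ⟨v, hv, hvn⟩ := exists_norm_eq_iInf_of_complete_convex hne.closure hKc hK z
    have hproj := (norm_eq_iInf_iff_real_inner_le_zero hK hv).1 hvn
    have hdist : ‖z - v‖ ≤ 3 * ε / 4 := by
      rcases eq_or_ne (z - v) 0 with h0 | h0
      · rw [h0, norm_zero]; positivity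
      set t := Complex.arg (z - v) with ht
      have hr : 0 < ‖z - v‖ := norm_pos_iff.2 h0
      have hpol : z - v = ‖z - v‖ * nu t := by
        rw [nu, ht, Complex.norm_mul_exp_arg_mul_I]
      -- `sp t` in terms of the inner product
      have hsp : ∀ w : ℂ, ‖z - v‖ * sp t w = inner ℝ (z - v) w := by
        intro w
        rw [Complex.inner, sp_eq]
        conv_rhs => rw [hpol]
        rw [map_mul, Complex.conj_ofReal, mul_comm w, mul_assoc, re_ofReal_mul]
      have h1 : ∀ w ∈ W, sp t w ≤ sp t v := by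
        intro w hw
        have h2 := hproj w (subset_closure hw)
        rw [inner_sub_right, ← hsp, ← hsp, sub_nonpos] at h2
        exact le_of_mul_le_mul_left h2 hr
      have h2 : g t ≤ sp t v := supp_le hne h1
      have h3 : ‖z - v‖ * (sp t z - sp t v) = ‖z - v‖ ^ 2 := by
        rw [mul_sub, hsp, hsp, ← inner_sub_right, real_inner_self_eq_norm_sq]
      have h4 : sp t z - sp t v = ‖z - v‖ := by
        have : ‖z - v‖ * (sp t z - sp t v) = ‖z - v‖ * ‖z - v‖ := by rw [h3]; ring
        exact mul_left_cancel₀ hr.ne' this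
      have h5 : sp t z ≤ m t + ε / 2 := hz t
      have h6 := abs_le.1 (hclose t)
      linarith
    obtain ⟨w, hw, hwv⟩ := Metric.mem_closure_iff.1 hv (ε / 4) (by positivity)
    refine ⟨w, hw, ?_⟩
    rw [dist_eq_norm] at hwv
    calc ‖z - w‖ = ‖(z - v) + (v - w)‖ := by congr 1; ring
      _ ≤ ‖z - v‖ + ‖v - w‖ := norm_add_le _ _
      _ ≤ ε := by linarith

end P123
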