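import Vale.Agent.P123.Select
import Vale.Agent.P123.Num
import Vale.Agent.P123.MkSys

/-!
# P123, module Main : the strict improvement of the Crouzeix-Palencia bound
-/

namespace P123

open MeasureTheory Complex Polynomial Set
open scoped Real ComplexConjugate

universe u

theorem K_le {O : Dom} {H : Type u} [NormedAddCommGroup H] [InnerProductSpace ℂ H]
    [CompleteSpace H] [Nontrivial H] {A : H →L[ℂ] H} (S : Sys O H A) :
    S.K ≤ 1 + √2 - 1 / 10 ^ 80 := by
  by_contra hcon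
  push Not at hcon
  obtain ⟨P, hP, G, G₁, G₂, hG, hG₁, hG₂, e0, e1, e2, s, h1, h2⟩ :=
    exists_chain S (δ := 1 / 10 ^ 80) (by positivity) (by norm_num) hcon.le
  have hs : √(1 / 10 ^ 80 : ℝ) = 1 / 10 ^ 40 := by
    rw [show (1 / 10 ^ 80 : ℝ) = (1 / 10 ^ 40) ^ 2 by norm_num]
    exact Real.sqrt_sq (by positivity)
  rw [hs] at h1 h2
  exact no_chain O P hP hG hG₁ hG₂ e0 e1 e2 (η := 100 * (1 / 10 ^ 40)) (by norm_num) h1 h2

theorem norm_le_of_numRange {H : Type u} [NormedAddCommGroup H] [InnerProductSpace ℂ H]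
    (A : H →L[ℂ] H) {z : ℂ} (hz : z ∈ numRange A) : ‖z‖ ≤ ‖A‖ := by
  obtain ⟨x, hx, rfl⟩ := hz
  refine (norm_inner_le_norm _ _).trans ?_
  have := A.le_opNorm x
  rw [hx, mul_one] at this
  rw [hx, one_mul]
  exact this

theorem main {H : Type u} [NormedAddCommGroup H] [InnerProductSpace ℂ H] [CompleteSpace H]
    [Nontrivial H] (A : H →L[ℂ] H) (P : ℂ[X]) {C : ℝ} (hC : ∀ z ∈ numRange A, ‖P.eval z‖ ≤ C) :
    ‖aeval A P‖ ≤ (1 + √2 - 1 / 10 ^ 80) * C := by
  set κ : ℝ := 1 + √2 - 1 / 10 ^ 80 with hκ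
  have hκ0 : 0 < κ := by
    have := Real.sqrt_nonneg 2
    have h2 : (1 : ℝ) / 10 ^ 80 < 1 := by norm_num
    linarith
  refine le_of_forall_pos_le_add fun ε' hε' => ?_
  set ε := ε' / κ with hε
  have hε0 : 0 < ε := by positivity
  have heq : κ * C + ε' = κ * (C + ε) := by
    rw [hε]; field_simp
  rw [heq]
  -- uniform continuity
  obtain ⟨ρ, hρ0, hρ⟩ : ∃ ρ > 0, ∀ z w : ℂ, w ∈ numRange A → ‖z - w‖ ≤ ρ →
      ‖P.eval z - P.eval w‖ ≤ ε := by
    have hK : IsCompact (Metric.closedBall (0 : ℂ) (‖A‖ + 1)) := isCompact_closedBall _ _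
    have huc := hK.uniformContinuousOn_of_continuous P.continuous.continuousOn
    rw [Metric.uniformContinuousOn_iff_le] at huc
    obtain ⟨δ, hδ, h⟩ := huc ε hε0
    refine ⟨min δ 1, by positivity, fun z w hw hzw => ?_⟩
    have hwn := norm_le_of_numRange A hw
    have hzn : ‖z‖ ≤ ‖A‖ + 1 := by
      have : z = w + (z - w) := by ring
      rw [this]
      exact (norm_add_le _ _).trans (add_le_add hwn (hzw.trans (min_le_right _ _)))
    have := h z (by simpa using hzn) w (by simp; linarith) (by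
      rw [dist_eq_norm]; exact hzw.trans (min_le_left _ _))
    rwa [dist_eq_norm] at this
  obtain ⟨O, d, hd, hA, hcl⟩ := exists_dom A hρ0
  obtain ⟨S⟩ := exists_sys O A hd hA
  have hγ : ∀ t, ‖P.eval (O.γ t)‖ ≤ C + ε := by
    intro t
    obtain ⟨w, hw, hwz⟩ := hcl _ (γ_mem O t)
    have h1 := hρ _ _ hw hwz
    have : P.eval (O.γ t) = P.eval w + (P.eval (O.γ t) - P.eval w) := by ring
    rw [this]
    exact (norm_add_le _ _).trans (add_le_add (hC w hw) h1)
  have h2 := S.norm_le (aeval S.X P) (C + ε) (fun t => by rw [ev_aeval]; exact hγ t)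
  rw [op_aeval] at h2
  have hCε : 0 ≤ C + ε := (norm_nonneg _).trans (hγ 0)
  exact h2.trans (mul_le_mul_of_nonneg_right (K_le S) hCε)

end P123
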