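import Vale.Agent.P123.Curve
import Vale.Agent.P123.Angle

/-!
# P123, module MkAlg : the closed algebra generated by the operator and the boundary curve
-/

namespace P123

open MeasureTheory Complex Polynomial Set
open scoped Real ComplexConjugate BoundedContinuousFunction

universe u

namespace Mk

section Basics

variable (O : Dom)

theorem continuous_γ : Continuous O.γ :=
  continuous_iff_continuousAt.mpr fun t => (hasDerivAt_γ O t).continuousAt

theorem continuous_nu : Continuous nu :=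
  continuous_iff_continuousAt.mpr fun t => (hasDerivAt_nu t).continuousAt

theorem exists_bound_γ : ∃ C, ∀ t, ‖O.γ t‖ ≤ C := by
  have h := Function.Periodic.isBounded_of_continuous (f := O.γ) (c := 2 * π)
    (fun t => γ_per O t) (by positivity) (continuous_γ O)
  obtain ⟨C, hC⟩ := h.exists_norm_le
  exact ⟨C, fun t => hC _ ⟨t, rfl⟩⟩

/-- the boundary curve as a bounded continuous function -/
noncomputable def γb : ℝ →ᵇ ℂ :=
  BoundedContinuousFunction.ofNormedAddCommGroup O.γ (continuous_γ O)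
    (Classical.choose (exists_bound_γ O)) (Classical.choose_spec (exists_bound_γ O))

theorem γb_apply (t : ℝ) : γb O t = O.γ t := rfl

variable {H : Type u} [NormedAddCommGroup H] [InnerProductSpace ℂ H] [CompleteSpace H]

/-- the ambient Banach algebra -/
abbrev AA (H : Type u) [NormedAddCommGroup H] [InnerProductSpace ℂ H] [CompleteSpace H] :=
  (H →L[ℂ] H) × (ℝ →ᵇ ℂ)

variable (A : H →L[ℂ] H)

/-- the generator -/
noncomputable def aa : AA H := (A, γb O)

/-- the closed algebra generated by `aa` -/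
noncomputable abbrev BB := Algebra.elemental ℂ (aa O A)


/-- the operator part -/
noncomputable def opB : BB O A →ₐ[ℂ] (H →L[ℂ] H) :=
  (AlgHom.fst ℂ (H →L[ℂ] H) (ℝ →ᵇ ℂ)).comp (BB O A).val

/-- the function part -/
noncomputable def fnB : BB O A →ₐ[ℂ] (ℝ →ᵇ ℂ) :=
  (AlgHom.snd ℂ (H →L[ℂ] H) (ℝ →ᵇ ℂ)).comp (BB O A).val

/-- evaluation on the boundary -/
noncomputable def evB : BB O A →ₐ[ℂ] (ℝ → ℂ) where
  toFun b := fun t => fnB O A b t
  map_one' := by ext t; rw [map_one]; rfl
  map_mul' x y := by ext t; rw [map_mul]; rfl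
  map_zero' := by ext t; rw [map_zero]; rfl
  map_add' x y := by ext t; rw [map_add]; rfl
  commutes' c := by ext t; rw [AlgHom.commutes]; rfl

theorem evB_apply (b : BB O A) (t : ℝ) : evB O A b t = b.1.2 t := rfl

theorem opB_apply (b : BB O A) : opB O A b = b.1.1 := rfl

/-- the generator in the algebra -/
noncomputable def XB : BB O A := ⟨aa O A, Algebra.elemental.self_mem ℂ (aa O A)⟩

theorem opB_X : opB O A (XB O A) = A := rfl

theorem evB_X : evB O A (XB O A) = O.γ := rfl

theorem norm_opB_le (b : BB O A) : ‖opB O A b‖ ≤ ‖b‖ := norm_fst_le b.1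

theorem norm_evB_le (b : BB O A) (t : ℝ) : ‖evB O A b t‖ ≤ ‖b‖ :=
  (b.1.2.norm_coe_le_norm t).trans (norm_snd_le b.1)

theorem norm_le_of (b : BB O A) {C : ℝ} (hC : 0 ≤ C) (h1 : ‖opB O A b‖ ≤ C)
    (h2 : ∀ t, ‖evB O A b t‖ ≤ C) : ‖b‖ ≤ C := by
  show ‖b.1‖ ≤ C
  rw [Prod.norm_def]
  exact max_le h1 ((BoundedContinuousFunction.norm_le hC).mpr h2)

theorem continuous_evB (b : BB O A) : Continuous (evB O A b) := b.1.2.continuous

/-- polynomials are dense -/
theorem dense_poly (b : BB O A) {ε : ℝ} (hε : 0 < ε) :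
    ∃ P : ℂ[X], ‖b - aeval (XB O A) P‖ ≤ ε := by
  have h1 : (b : AA H) ∈ closure ((Algebra.adjoin ℂ {aa O A} : Subalgebra ℂ (AA H)) : Set (AA H)) :=
    b.2
  obtain ⟨c, hc, hbc⟩ := Metric.mem_closure_iff.mp h1 ε hε
  have h2 : c ∈ (Algebra.adjoin ℂ {aa O A} : Subalgebra ℂ (AA H)) := hc
  rw [Algebra.adjoin_singleton_eq_range_aeval] at h2
  obtain ⟨P, hP⟩ := h2
  refine ⟨P, ?_⟩
  have h3 : ((aeval (XB O A) P : BB O A) : AA H) = aeval (aa O A) P := by
    have := Polynomial.aeval_algHom_apply (BB O A).val (XB O A) P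
    exact this.symm
  show ‖(b : AA H) - ((aeval (XB O A) P : BB O A) : AA H)‖ ≤ ε
  rw [h3]
  have hP' : aeval (aa O A) P = c := hP
  rw [hP', ← dist_eq_norm]
  exact hbc.le

theorem opB_aeval (P : ℂ[X]) : opB O A (aeval (XB O A) P) = aeval A P := by
  have := Polynomial.aeval_algHom_apply (opB O A) (XB O A) P
  rw [opB_X] at this
  exact this.symm

theorem evB_aeval (P : ℂ[X]) (t : ℝ) : evB O A (aeval (XB O A) P) t = P.eval (O.γ t) := by
  have h1 := Polynomial.aeval_algHom_apply (evB O A) (XB O A) P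
  have h2 := Polynomial.aeval_algHom_apply (Pi.evalAlgHom ℂ (fun _ : ℝ => ℂ) t) (evB O A (XB O A)) P
  rw [h1] at h2
  have h3 : (Pi.evalAlgHom ℂ (fun _ : ℝ => ℂ) t) (evB O A (aeval (XB O A) P)) =
      evB O A (aeval (XB O A) P) t := rfl
  rw [← h3, ← h2]
  have h4 : (Pi.evalAlgHom ℂ (fun _ : ℝ => ℂ) t) (evB O A (XB O A)) = O.γ t := rfl
  rw [h4, Polynomial.coe_aeval_eq_eval]

theorem evB_per (b : BB O A) (t : ℝ) : evB O A b (t + 2 * π) = evB O A b t := by
  by_contra hne
  have hpos : 0 < ‖evB O A b (t + 2 * π) - evB O A b t‖ := norm_pos_iff.mpr (sub_ne_zero.mpr hne)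
  obtain ⟨P, hP⟩ := dense_poly O A b (show 0 < ‖evB O A b (t + 2 * π) - evB O A b t‖ / 3 by positivity)
  have h1 := norm_evB_le O A (b - aeval (XB O A) P) (t + 2 * π)
  have h2 := norm_evB_le O A (b - aeval (XB O A) P) t
  have e1 : evB O A (b - aeval (XB O A) P) (t + 2 * π) =
      evB O A b (t + 2 * π) - P.eval (O.γ t) := by
    rw [map_sub, Pi.sub_apply, evB_aeval, γ_per]
  have e2 : evB O A (b - aeval (XB O A) P) t = evB O A b t - P.eval (O.γ t) := by
    rw [map_sub, Pi.sub_apply, evB_aeval]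
  rw [e1] at h1
  rw [e2] at h2
  have h3 : evB O A b (t + 2 * π) - evB O A b t =
      (evB O A b (t + 2 * π) - P.eval (O.γ t)) - (evB O A b t - P.eval (O.γ t)) := by ring
  have h4 := norm_sub_le (evB O A b (t + 2 * π) - P.eval (O.γ t)) (evB O A b t - P.eval (O.γ t))
  rw [← h3] at h4
  linarith

/-- the operator part as a continuous linear map -/
noncomputable def opL : BB O A →L[ℂ] (H →L[ℂ] H) :=
  (opB O A).toLinearMap.mkContinuous 1 fun b => by
    rw [one_mul]
    exact norm_opB_le O A b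

theorem opL_apply (b : BB O A) : opL O A b = opB O A b := rfl

/-- evaluation as a continuous linear map -/
noncomputable def evL (s : ℝ) : BB O A →L[ℂ] ℂ :=
  ((LinearMap.proj s).comp (evB O A).toLinearMap).mkContinuous 1 fun b => by
    rw [one_mul]
    exact norm_evB_le O A b s

theorem evL_apply (s : ℝ) (b : BB O A) : evL O A s b = evB O A b s := rfl

end Basics

end Mk

end P123
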