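import Vale.Agent.P123.Curve

/-!
# P123 : resolvent and Cauchy formula
-/

namespace P123

open MeasureTheory Complex Polynomial Set
open scoped Real ComplexConjugate

universe u

namespace ResAux

section

variable (O : Dom) {H : Type u} [NormedAddCommGroup H] [InnerProductSpace ℂ H]

theorem bdd_γ : ∃ C : ℝ, 0 ≤ C ∧ ∀ t, ‖O.γ t‖ ≤ C := by
  obtain ⟨C, hC⟩ := (isBounded_cl O).exists_norm_le
  refine ⟨max C 0, le_max_right _ _, fun t => (hC _ (γ_mem O t)).trans (le_max_left _ _)⟩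

theorem bdd_R : ∃ C : ℝ, 0 ≤ C ∧ ∀ t ∈ Icc (0 : ℝ) (2 * π), O.R t ≤ C := by
  obtain ⟨C, hC⟩ := isCompact_Icc.exists_bound_of_continuousOn
    (s := Icc (0 : ℝ) (2 * π)) (continuous_R O).continuousOn
  exact ⟨max C 0, le_max_right _ _,
    fun t ht => (le_abs_self _).trans ((hC t ht).trans (le_max_left _ _))⟩

/-- the basic inequality -/
theorem re_inner {A : H →L[ℂ] H} {d : ℝ} (hA : O.Inside A d) (t : ℝ) (y : H) :
    d * ‖y‖ ^ 2 ≤ (inner ℂ (nu t • y) ((O.γ t • (1 : H →L[ℂ] H) - A) y)).re := by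
  have h1 := hA t y
  have h2 : inner ℂ (nu t • y) ((O.γ t • (1 : H →L[ℂ] H) - A) y) =
      conj (nu t) * (O.γ t * ((‖y‖ ^ 2 : ℝ) : ℂ) - inner ℂ y (A y)) := by
    rw [inner_smul_left, sub_apply, smul_apply,
      one_apply_eq_self, inner_sub_right, inner_smul_right,
      inner_self_eq_norm_sq_to_K]
    push_cast
    rfl
  rw [h2, mul_sub, ← mul_assoc, Complex.sub_re, Complex.re_mul_ofReal, ← sp_eq, ← sp_eq,
    sp_γ_self]
  nlinarith

end

end ResAux

open ResAux

/-- `γ t - A = ρ e^{it} (1 - E)` with `‖E‖ < 1` uniformly -/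
theorem exists_rho (O : Dom) {H : Type u} [NormedAddCommGroup H] [InnerProductSpace ℂ H]
    [CompleteSpace H] (A : H →L[ℂ] H) {d : ℝ} (hd : 0 < d) (hA : O.Inside A d) :
    ∃ ρ₀ : ℝ, 0 < ρ₀ ∧ ∀ ρ : ℝ, ρ₀ ≤ ρ → ∃ q : ℝ, 0 ≤ q ∧ q < ρ ∧
      ∀ t, ‖A - (O.γ t - ρ * nu t) • (1 : H →L[ℂ] H)‖ ≤ q := by
  obtain ⟨G, hG0, hG⟩ := bdd_γ O
  have hpos : 0 < ((‖A‖ + G) ^ 2 + 1) / d := by positivity
  refine ⟨((‖A‖ + G) ^ 2 + 1) / d, hpos, fun ρ hρ => ?_⟩
  have hρ0 : 0 < ρ := lt_of_lt_of_le hpos hρ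
  have hρd : (‖A‖ + G) ^ 2 + 1 ≤ ρ * d := (div_le_iff₀ hd).1 hρ
  have hlt : ρ ^ 2 - ρ * d < ρ ^ 2 := by
    have := mul_pos hρ0 hd
    linarith
  refine ⟨Real.sqrt (max (ρ ^ 2 - ρ * d) 0), Real.sqrt_nonneg _, ?_, fun t => ?_⟩
  · rw [Real.sqrt_lt' hρ0]
    exact max_lt hlt (by positivity)
  · refine ContinuousLinearMap.opNorm_le_bound _ (Real.sqrt_nonneg _) fun x => ?_
    have hx2 : ‖(A - (O.γ t - ρ * nu t) • (1 : H →L[ℂ] H)) x‖ ^ 2 ≤
        (Real.sqrt (max (ρ ^ 2 - ρ * d) 0) * ‖x‖) ^ 2 := by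
      rw [mul_pow, Real.sq_sqrt (le_max_right _ _)]
      have h1 : (A - (O.γ t - ρ * nu t) • (1 : H →L[ℂ] H)) x =
          (ρ : ℂ) • (nu t • x) - (O.γ t • (1 : H →L[ℂ] H) - A) x := by
        simp only [sub_apply, smul_apply,
          one_apply_eq_self, sub_smul, mul_smul]
        abel
      have h2 := re_inner O hA t x
      have h3 : ‖(O.γ t • (1 : H →L[ℂ] H) - A) x‖ ≤ (‖A‖ + G) * ‖x‖ := by
        simp only [sub_apply, smul_apply,
          one_apply_eq_self]
        refine (norm_sub_le _ _).trans ?_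
        rw [norm_smul]
        have := A.le_opNorm x
        have := hG t
        have := norm_nonneg x
        nlinarith
      have h4 : ‖(O.γ t • (1 : H →L[ℂ] H) - A) x‖ ^ 2 ≤ (‖A‖ + G) ^ 2 * ‖x‖ ^ 2 := by
        rw [← mul_pow]
        gcongr
      have h5 : ‖(ρ : ℂ) • (nu t • x)‖ = ρ * ‖x‖ := by
        rw [norm_smul, norm_smul, norm_nu, Complex.norm_real, Real.norm_of_nonneg hρ0.le, one_mul]
      rw [h1, @norm_sub_sq ℂ, h5, inner_smul_left]
      have h6 : RCLike.re (conj (ρ : ℂ) *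
          inner ℂ (nu t • x) ((O.γ t • (1 : H →L[ℂ] H) - A) x)) =
          ρ * (inner ℂ (nu t • x) ((O.γ t • (1 : H →L[ℂ] H) - A) x)).re := by
        rw [Complex.conj_ofReal]
        exact Complex.re_ofReal_mul _ _
      rw [h6]
      have h7 : ρ ^ 2 - ρ * d ≤ max (ρ ^ 2 - ρ * d) 0 := le_max_left _ _
      have h8 : 0 ≤ ‖x‖ ^ 2 := by positivity
      have h9 : (ρ ^ 2 - ρ * d) * ‖x‖ ^ 2 ≤ max (ρ ^ 2 - ρ * d) 0 * ‖x‖ ^ 2 :=
        mul_le_mul_of_nonneg_right h7 h8
      have h10 := mul_le_mul_of_nonneg_left h2 hρ0.le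
      have h11 := mul_le_mul_of_nonneg_right hρd h8
      nlinarith
    exact le_of_sq_le_sq hx2 (by positivity)

namespace ResAux

section

variable (O : Dom) {H : Type u} [NormedAddCommGroup H] [InnerProductSpace ℂ H] [CompleteSpace H]

theorem isUnit_sub {A : H →L[ℂ] H} {d : ℝ} (hd : 0 < d) (hA : O.Inside A d) (t : ℝ) :
    IsUnit (O.γ t • (1 : H →L[ℂ] H) - A) := by
  obtain ⟨ρ, hρ0, hρ⟩ := exists_rho O A hd hA
  obtain ⟨q, hq0, hqρ, hq⟩ := hρ ρ le_rfl
  have hc : (ρ : ℂ) * nu t ≠ 0 :=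
    mul_ne_zero (Complex.ofReal_ne_zero.2 hρ0.ne') (nu_ne_zero t)
  have hcn : ‖(ρ : ℂ) * nu t‖ = ρ := by
    rw [norm_mul, norm_nu, Complex.norm_real, Real.norm_of_nonneg hρ0.le, mul_one]
  have hlt : ‖((ρ : ℂ) * nu t)⁻¹ • (A - (O.γ t - ρ * nu t) • (1 : H →L[ℂ] H))‖ < 1 := by
    rw [norm_smul, norm_inv, hcn, inv_mul_lt_iff₀ hρ0, mul_one]
    exact (hq t).trans_lt hqρ
  have h1 := (Units.oneSub _ hlt).isUnit
  rw [Units.val_oneSub] at h1
  have h2 := h1.smul (Units.mk0 _ hc)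
  have h3 : Units.mk0 _ hc • ((1 : H →L[ℂ] H) -
      ((ρ : ℂ) * nu t)⁻¹ • (A - (O.γ t - ρ * nu t) • (1 : H →L[ℂ] H))) =
      O.γ t • (1 : H →L[ℂ] H) - A := by
    rw [Units.smul_mk0, smul_sub, smul_smul, mul_inv_cancel₀ hc, one_smul, sub_smul]
    abel
  rwa [h3] at h2

/-- the resolvent -/
noncomputable def Sf (A : H →L[ℂ] H) (t : ℝ) : H →L[ℂ] H :=
  Ring.inverse (O.γ t • (1 : H →L[ℂ] H) - A)

variable {A : H →L[ℂ] H} {d : ℝ} (hd : 0 < d) (hA : O.Inside A d)

include hd hA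

theorem Sf_mul (t : ℝ) : Sf O A t * (O.γ t • (1 : H →L[ℂ] H) - A) = 1 :=
  Ring.inverse_mul_cancel _ (isUnit_sub O hd hA t)

theorem mul_Sf (t : ℝ) : (O.γ t • (1 : H →L[ℂ] H) - A) * Sf O A t = 1 :=
  Ring.mul_inverse_cancel _ (isUnit_sub O hd hA t)

theorem apply_Sf (t : ℝ) (x : H) : (O.γ t • (1 : H →L[ℂ] H) - A) (Sf O A t x) = x := by
  have := congrArg (fun L : H →L[ℂ] H => L x) (mul_Sf O hd hA t)
  exact this

theorem re_Sf (t : ℝ) (x : H) :
    d * ‖Sf O A t x‖ ^ 2 ≤ (inner ℂ x (nu t • Sf O A t x)).re := by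
  have h1 := re_inner O hA t (Sf O A t x)
  rw [apply_Sf O hd hA] at h1
  refine h1.trans (le_of_eq ?_)
  rw [← inner_conj_symm, Complex.conj_re]

theorem norm_Sf_le (t : ℝ) : ‖Sf O A t‖ ≤ 1 / d := by
  refine ContinuousLinearMap.opNorm_le_bound _ (by positivity) fun x => ?_
  have h1 := re_Sf O hd hA t x
  have h2 : (inner ℂ x (nu t • Sf O A t x)).re ≤ ‖x‖ * ‖Sf O A t x‖ := by
    refine (Complex.re_le_norm _).trans ((norm_inner_le_norm _ _).trans ?_)
    rw [norm_smul, norm_nu, one_mul]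
  have h3 : d * ‖Sf O A t x‖ ≤ ‖x‖ := by
    by_contra hc
    push Not at hc
    have h4 : 0 < ‖Sf O A t x‖ := by
      by_contra h5
      have h6 : ‖Sf O A t x‖ = 0 := le_antisymm (not_lt.1 h5) (norm_nonneg _)
      rw [h6, mul_zero] at hc
      exact absurd hc (not_lt.2 (norm_nonneg _))
    nlinarith
  rw [one_div, ← div_eq_inv_mul, le_div_iff₀ hd]
  linarith

theorem hasDerivAt_Sf (t : ℝ) :
    HasDerivAt (Sf O A) (-((O.R t * I * nu t : ℂ) • (Sf O A t * Sf O A t))) t := by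
  have h1 : HasDerivAt (fun t => O.γ t • (1 : H →L[ℂ] H) - A)
      ((O.R t * I * nu t : ℂ) • (1 : H →L[ℂ] H)) t := by
    have := (hasDerivAt_γ O t).smul_const (1 : H →L[ℂ] H)
    simpa using this.sub_const A
  obtain ⟨v, hv⟩ := isUnit_sub O hd hA t
  have h2 := hasFDerivAt_ringInverse (𝕜 := ℝ) v
  rw [hv] at h2
  have h3 := h2.comp_hasDerivAt t h1
  have h4 : Sf O A t = ↑v⁻¹ := by
    unfold Sf
    rw [← hv, Ring.inverse_unit]
  refine HasDerivAt.congr_deriv (f := Sf O A) h3 ?_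
  rw [h4, neg_apply, ContinuousLinearMap.mulLeftRight_apply, mul_smul_comm, smul_mul_assoc,
    mul_one]

theorem continuous_Sf : Continuous (Sf O A) :=
  continuous_iff_continuousAt.mpr fun t => (hasDerivAt_Sf O hd hA t).continuousAt

omit [CompleteSpace H] hd hA in
theorem Sf_per (t : ℝ) : Sf O A (t + 2 * π) = Sf O A t := by
  unfold Sf
  rw [γ_per]

theorem int_Sf_sq :
    ∫ t in (0 : ℝ)..2 * π, (O.R t * I * nu t : ℂ) • (Sf O A t * Sf O A t) = 0 := by
  have hc : Continuous fun t => (O.R t * I * nu t : ℂ) • (Sf O A t * Sf O A t) :=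
    (continuous_γ' O).smul ((continuous_Sf O hd hA).mul (continuous_Sf O hd hA))
  have h1 := intervalIntegral.integral_eq_sub_of_hasDerivAt (a := 0) (b := 2 * π)
    (f := Sf O A) (fun t _ => hasDerivAt_Sf O hd hA t) (hc.neg.intervalIntegrable _ _)
  rw [intervalIntegral.integral_neg] at h1
  have h2 := Sf_per O (A := A) 0
  rw [zero_add] at h2
  rw [h2, sub_self, neg_eq_zero] at h1
  exact h1

theorem Sf_comm {B : H →L[ℂ] H} (hB : B * A = A * B) (t : ℝ) :
    Sf O A t * B = B * Sf O A t := by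
  have h1 : B * (O.γ t • (1 : H →L[ℂ] H) - A) = (O.γ t • (1 : H →L[ℂ] H) - A) * B := by
    rw [mul_sub, sub_mul, hB, mul_smul_comm, smul_mul_assoc, mul_one, one_mul]
  calc Sf O A t * B = Sf O A t * (B * ((O.γ t • (1 : H →L[ℂ] H) - A) * Sf O A t)) := by
        rw [mul_Sf O hd hA, mul_one]
    _ = (Sf O A t * (O.γ t • (1 : H →L[ℂ] H) - A)) * B * Sf O A t := by
        rw [← mul_assoc B, h1]
        simp only [mul_assoc]
    _ = B * Sf O A t := by rw [Sf_mul O hd hA, one_mul]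

end

theorem integral_cmul {X : Type*} [NormedRing X] [NormedAlgebra ℝ X] [CompleteSpace X] (a : X)
    {f : ℝ → X} (hf : Continuous f) (x y : ℝ) :
    ∫ t in x..y, a * f t = a * ∫ t in x..y, f t :=
  (ContinuousLinearMap.mul ℝ X a).intervalIntegral_comp_comm (hf.intervalIntegrable x y)

theorem const_of_sq {X : Type*} [NormedAddCommGroup X] (f : ℝ → X) (C : ℝ)
    (h : ∀ r r', 0 ≤ r → r ≤ r' → r' ≤ 1 → ‖f r' - f r‖ ≤ C * (r' - r) ^ 2) : f 1 = f 0 := by
  have hC : 0 ≤ C := by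
    have := h 0 1 le_rfl zero_le_one le_rfl
    have h2 := norm_nonneg (f 1 - f 0)
    linarith
  have hn : ∀ n : ℕ, 0 < n → ‖f 1 - f 0‖ ≤ C / n := by
    intro n hn
    have hn' : (0 : ℝ) < n := by exact_mod_cast hn
    have h1 := Finset.sum_range_sub (fun k : ℕ => f ((k : ℝ) / n)) n
    simp only [CharP.cast_eq_zero, zero_div, div_self hn'.ne'] at h1
    rw [← h1]
    refine (norm_sum_le _ _).trans ?_
    have h2 : ∀ k ∈ Finset.range n, ‖f (((k + 1 : ℕ) : ℝ) / n) - f ((k : ℝ) / n)‖ ≤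
        C * (1 / n) ^ 2 := by
      intro k hk
      rw [Finset.mem_range] at hk
      have hk' : ((k + 1 : ℕ) : ℝ) ≤ n := by exact_mod_cast hk
      have h3 := h ((k : ℝ) / n) (((k + 1 : ℕ) : ℝ) / n) (by positivity)
        (by
          gcongr
          linarith) (by rwa [div_le_one hn'])
      refine h3.trans (le_of_eq ?_)
      congr 2
      push_cast
      field_simp
      ring
    refine (Finset.sum_le_sum h2).trans (le_of_eq ?_)
    rw [Finset.sum_const, Finset.card_range, nsmul_eq_mul]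
    field_simp
  have h0 : ‖f 1 - f 0‖ ≤ 0 := by
    refine le_of_forall_pos_le_add fun ε hε => ?_
    obtain ⟨n, hn1⟩ := exists_nat_gt (C / ε)
    have hn0 : (0 : ℝ) < n := lt_of_le_of_lt (by positivity) hn1
    have hn2 : 0 < n := by exact_mod_cast hn0
    refine (hn n hn2).trans ?_
    rw [zero_add, div_le_iff₀ hn0]
    rw [div_lt_iff₀ hε] at hn1
    linarith
  exact sub_eq_zero.1 (norm_le_zero_iff.1 h0)

section

variable (O : Dom) {H : Type u} [NormedAddCommGroup H] [InnerProductSpace ℂ H] [CompleteSpace H]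

/-- the Cauchy integral of `1` -/
noncomputable def FF (A : H →L[ℂ] H) : H →L[ℂ] H :=
  ∫ t in (0 : ℝ)..2 * π, (O.R t * I * nu t : ℂ) • Sf O A t

theorem FF_sub {d : ℝ} (hd : 0 < d) : ∃ C : ℝ, 0 ≤ C ∧ ∀ A A' : H →L[ℂ] H, O.Inside A d →
    O.Inside A' d → A * A' = A' * A → ‖FF O A - FF O A'‖ ≤ C * ‖A - A'‖ ^ 2 := by
  obtain ⟨C, hC0, hC⟩ := bdd_R O
  refine ⟨C * (1 / d) ^ 3 * (2 * π), by positivity, fun A A' hA hA' hc => ?_⟩
  have hcS := continuous_Sf O hd hA
  have hcS' := continuous_Sf O hd hA'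
  have hcom : ∀ t, Sf O A' t * (A - A') = (A - A') * Sf O A' t :=
    Sf_comm O hd hA' (by rw [sub_mul, mul_sub, hc])
  have hid : ∀ t, Sf O A t - Sf O A' t = Sf O A t * (A - A') * Sf O A' t := by
    intro t
    have h1 : A - A' = (O.γ t • (1 : H →L[ℂ] H) - A') - (O.γ t • (1 : H →L[ℂ] H) - A) := by
      abel
    rw [h1, mul_sub, Sf_mul O hd hA, sub_mul, one_mul, mul_assoc, mul_Sf O hd hA', mul_one]
  have hid2 : ∀ t, Sf O A t - Sf O A' t = (A - A') * (Sf O A' t * Sf O A' t) +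
      Sf O A t * (A - A') * Sf O A' t * (A - A') * Sf O A' t := by
    intro t
    have h2 : Sf O A t = Sf O A' t + Sf O A t * (A - A') * Sf O A' t := by
      rw [← hid]
      abel
    calc Sf O A t - Sf O A' t = Sf O A t * (A - A') * Sf O A' t := hid t
      _ = (Sf O A' t + Sf O A t * (A - A') * Sf O A' t) * (A - A') * Sf O A' t := by rw [← h2]
      _ = _ := by
        rw [add_mul, add_mul, hcom]
        simp only [mul_assoc]
  have hint1 : IntervalIntegrable (fun t => (O.R t * I * nu t : ℂ) • Sf O A t) volume 0 (2 * π) :=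
    ((continuous_γ' O).smul hcS).intervalIntegrable _ _
  have hint2 : IntervalIntegrable (fun t => (O.R t * I * nu t : ℂ) • Sf O A' t) volume
      0 (2 * π) := ((continuous_γ' O).smul hcS').intervalIntegrable _ _
  have hc3 : Continuous fun t => (O.R t * I * nu t : ℂ) • (Sf O A' t * Sf O A' t) :=
    (continuous_γ' O).smul (hcS'.mul hcS')
  have hc4 : Continuous fun t => (O.R t * I * nu t : ℂ) •
      (Sf O A t * (A - A') * Sf O A' t * (A - A') * Sf O A' t) :=
    (continuous_γ' O).smul ((((hcS.mul continuous_const).mul hcS').mul continuous_const).mul hcS')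
  have hmain : FF O A - FF O A' = ∫ t in (0 : ℝ)..2 * π, (O.R t * I * nu t : ℂ) •
      (Sf O A t * (A - A') * Sf O A' t * (A - A') * Sf O A' t) := by
    unfold FF
    rw [← intervalIntegral.integral_sub hint1 hint2]
    have h5 : ∀ t, (O.R t * I * nu t : ℂ) • Sf O A t - (O.R t * I * nu t : ℂ) • Sf O A' t =
        (A - A') * ((O.R t * I * nu t : ℂ) • (Sf O A' t * Sf O A' t)) +
        (O.R t * I * nu t : ℂ) •
          (Sf O A t * (A - A') * Sf O A' t * (A - A') * Sf O A' t) := by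
      intro t
      rw [← smul_sub, hid2 t, smul_add, mul_smul_comm]
    simp_rw [h5]
    have hc5 : Continuous fun t =>
        (A - A') * ((O.R t * I * nu t : ℂ) • (Sf O A' t * Sf O A' t)) :=
      continuous_const.mul hc3
    rw [intervalIntegral.integral_add (hc5.intervalIntegrable _ _)
      (hc4.intervalIntegrable _ _)]
    have h6 : ∫ t in (0 : ℝ)..2 * π,
        (A - A') * ((O.R t * I * nu t : ℂ) • (Sf O A' t * Sf O A' t)) = 0 := by
      rw [integral_cmul _ hc3, int_Sf_sq O hd hA', mul_zero]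
    rw [h6, zero_add]
  rw [hmain]
  have hb : ∀ t ∈ uIoc (0 : ℝ) (2 * π), ‖(O.R t * I * nu t : ℂ) •
      (Sf O A t * (A - A') * Sf O A' t * (A - A') * Sf O A' t)‖ ≤
      C * (1 / d) ^ 3 * ‖A - A'‖ ^ 2 := by
    intro t ht
    rw [uIoc_of_le (by positivity)] at ht
    have hR := hC t ⟨ht.1.le, ht.2⟩
    have hR0 := R_pos O t
    have h1 := norm_Sf_le O hd hA t
    have h2 := norm_Sf_le O hd hA' t
    have h3 : ‖(O.R t * I * nu t : ℂ)‖ ≤ C := by
      rw [norm_mul, norm_mul, norm_nu, Complex.norm_I, Complex.norm_real,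
        Real.norm_of_nonneg hR0.le]
      linarith
    rw [norm_smul]
    have h4 : ‖Sf O A t * (A - A') * Sf O A' t * (A - A') * Sf O A' t‖ ≤
        1 / d * ‖A - A'‖ * (1 / d) * ‖A - A'‖ * (1 / d) := by
      refine (norm_mul_le _ _).trans ?_
      refine mul_le_mul ?_ h2 (norm_nonneg _) (by positivity)
      refine (norm_mul_le _ _).trans ?_
      refine mul_le_mul ?_ le_rfl (norm_nonneg _) (by positivity)
      refine (norm_mul_le _ _).trans ?_
      refine mul_le_mul ?_ h2 (norm_nonneg _) (by positivity)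
      refine (norm_mul_le _ _).trans ?_
      exact mul_le_mul h1 le_rfl (norm_nonneg _) (by positivity)
    calc _ ≤ C * (1 / d * ‖A - A'‖ * (1 / d) * ‖A - A'‖ * (1 / d)) :=
          mul_le_mul h3 h4 (norm_nonneg _) hC0
      _ = _ := by ring
  refine (intervalIntegral.norm_integral_le_of_norm_le_const hb).trans (le_of_eq ?_)
  rw [sub_zero, abs_of_pos (by positivity)]
  ring

theorem sp_add (t : ℝ) (z w : ℂ) : sp t (z + w) = sp t z + sp t w := by
  unfold sp; simp; ring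

theorem sp_smul (t r : ℝ) (z : ℂ) : sp t ((r : ℂ) * z) = r * sp t z := by
  unfold sp; simp; ring

theorem FF_eq {A : H →L[ℂ] H} {d : ℝ} (hd : 0 < d) (hA : O.Inside A d) :
    FF O A = (2 * π * I : ℂ) • (1 : H →L[ℂ] H) := by
  rcases subsingleton_or_nontrivial H with hH | hH
  · exact Subsingleton.elim _ _
  obtain ⟨x, hx⟩ := exists_norm_eq H (zero_le_one (α := ℝ))
  set z₀ : ℂ := inner ℂ x (A x) with hz₀
  have hz : ∀ t, sp t z₀ ≤ O.h t - d := by
    intro t
    have := hA t x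
    rwa [hx, one_pow, mul_one] at this
  have hop : z₀ ∈ O.op := fun t => by
    have := hz t
    change sp t z₀ < O.h t
    linarith
  obtain ⟨C, hC0, hC⟩ := FF_sub O (H := H) hd
  set Ar : ℝ → H →L[ℂ] H := fun r => z₀ • (1 : H →L[ℂ] H) + (r : ℂ) • (A - z₀ • (1 : H →L[ℂ] H))
    with hAr
  have hins : ∀ r, 0 ≤ r → r ≤ 1 → O.Inside (Ar r) d := by
    intro r h0 h1 t y
    have e : inner ℂ y (Ar r y) = ((1 - r : ℝ) : ℂ) * (((‖y‖ ^ 2 : ℝ) : ℂ) * z₀) +
        (r : ℂ) * inner ℂ y (A y) := by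
      simp only [hAr, add_apply, smul_apply, sub_apply, one_apply_eq_self, inner_add_right,
        inner_smul_right, inner_sub_right, inner_self_eq_norm_sq_to_K]
      push_cast
      simp only [Complex.coe_algebraMap]
      ring
    rw [e, sp_add, sp_smul, sp_smul, sp_smul]
    have h2 := hA t y
    have h3 := hz t
    have h4 : 0 ≤ ‖y‖ ^ 2 := by positivity
    have h5 : (1 - r) * (‖y‖ ^ 2 * sp t z₀) ≤ (1 - r) * (‖y‖ ^ 2 * (O.h t - d)) := by
      have : 0 ≤ 1 - r := by linarith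
      gcongr
    have h6 : r * sp t (inner ℂ y (A y)) ≤ r * ((O.h t - d) * ‖y‖ ^ 2) := by
      gcongr
    nlinarith
  have hcomm : ∀ r r', Ar r * Ar r' = Ar r' * Ar r := by
    intro r r'
    simp only [hAr]
    generalize A - z₀ • (1 : H →L[ℂ] H) = B
    simp only [add_mul, mul_add, smul_mul_assoc, mul_smul_comm, mul_one, one_mul]
    module
  have hconst : FF O (Ar 1) = FF O (Ar 0) := by
    refine const_of_sq (fun r => FF O (Ar r)) (C * ‖A - z₀ • (1 : H →L[ℂ] H)‖ ^ 2) ?_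
    intro r r' h0 h1 h2
    refine (hC _ _ (hins r' (h0.trans h1) h2) (hins r h0 (h1.trans h2)) (hcomm _ _)).trans
      (le_of_eq ?_)
    have : Ar r' - Ar r = ((r' - r : ℝ) : ℂ) • (A - z₀ • (1 : H →L[ℂ] H)) := by
      simp only [hAr]
      push_cast
      rw [sub_smul]
      abel
    rw [this, norm_smul, Complex.norm_real, mul_pow, Real.norm_eq_abs, sq_abs]
    ring
  have h1 : Ar 1 = A := by
    simp only [hAr, Complex.ofReal_one, one_smul]
    abel
  have h0 : Ar 0 = z₀ • (1 : H →L[ℂ] H) := by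
    simp only [hAr, Complex.ofReal_zero, zero_smul, add_zero]
  rw [h1, h0] at hconst
  rw [hconst]
  have hS0 : ∀ t, Sf O (z₀ • (1 : H →L[ℂ] H)) t = (O.γ t - z₀)⁻¹ • (1 : H →L[ℂ] H) := by
    intro t
    have hne := op_sub_ne O hop t
    have hmul := mul_Sf O hd (A := z₀ • (1 : H →L[ℂ] H)) (h0 ▸ hins 0 le_rfl zero_le_one) t
    rw [← sub_smul, smul_mul_assoc, one_mul] at hmul
    have h7 := congrArg (fun L => (O.γ t - z₀)⁻¹ • L) hmul
    simp only [smul_smul, inv_mul_cancel₀ hne, one_smul] at h7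
    exact h7
  unfold FF
  simp_rw [hS0, smul_smul, ← div_eq_mul_inv]
  rw [intervalIntegral.integral_smul_const, winding O hop]

end

end ResAux

theorem exists_res (O : Dom) {H : Type u} [NormedAddCommGroup H] [InnerProductSpace ℂ H]
    [CompleteSpace H] (A : H →L[ℂ] H) {d : ℝ} (hd : 0 < d) (hA : O.Inside A d) :
    ∃ S : ℝ → H →L[ℂ] H, Continuous S ∧
      (∀ t, S t * (O.γ t • 1 - A) = 1 ∧ (O.γ t • 1 - A) * S t = 1) ∧
      (∀ t x, 0 ≤ (inner ℂ x (nu t • S t x)).re) ∧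
      ∀ P : ℂ[X], ∫ t in (0 : ℝ)..2 * π, (P.eval (O.γ t) * (O.R t * I * nu t)) • S t =
        (2 * π * I) • aeval A P := by
  have hcS := continuous_Sf O hd hA
  refine ⟨Sf O A, hcS, fun t => ⟨Sf_mul O hd hA t, mul_Sf O hd hA t⟩, fun t x => ?_,
    fun P => ?_⟩
  · exact (by positivity : 0 ≤ d * ‖Sf O A t x‖ ^ 2).trans (re_Sf O hd hA t x)
  · have hcont : ∀ P : ℂ[X], Continuous fun t =>
        (P.eval (O.γ t) * (O.R t * I * nu t)) • Sf O A t := fun P =>
      ((P.continuous.comp (continuous_γ O)).mul (continuous_γ' O)).smul hcS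
    have hcont' : ∀ P : ℂ[X], Continuous fun t =>
        (P.eval (O.γ t) * (O.R t * I * nu t)) := fun P =>
      ((P.continuous.comp (continuous_γ O)).mul (continuous_γ' O))
    have hmono : ∀ n : ℕ, ∫ t in (0 : ℝ)..2 * π,
        (((X : ℂ[X]) ^ n).eval (O.γ t) * (O.R t * I * nu t)) • Sf O A t =
        (2 * π * I : ℂ) • aeval A ((X : ℂ[X]) ^ n) := by
      intro n
      induction n with
      | zero =>
        simp only [pow_zero, eval_one, one_mul, map_one]
        exact FF_eq O hd hA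
      | succ n ih =>
        have h1 : ∀ t, (((X : ℂ[X]) ^ (n + 1)).eval (O.γ t) * (O.R t * I * nu t)) • Sf O A t =
            (((X : ℂ[X]) ^ n).eval (O.γ t) * (O.R t * I * nu t)) • (1 : H →L[ℂ] H) +
            A * ((((X : ℂ[X]) ^ n).eval (O.γ t) * (O.R t * I * nu t)) • Sf O A t) := by
          intro t
          have h2 : O.γ t • Sf O A t = 1 + A * Sf O A t := by
            have h3 := mul_Sf O hd hA t
            rw [sub_mul, smul_mul_assoc, one_mul] at h3
            rw [← h3]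
            abel
          rw [mul_smul_comm, ← smul_add, ← h2, smul_smul]
          congr 1
          simp only [eval_pow, eval_X]
          ring
        have h5 : Continuous fun t =>
            (((X : ℂ[X]) ^ n).eval (O.γ t) * (O.R t * I * nu t)) • (1 : H →L[ℂ] H) :=
          (hcont' _).smul continuous_const
        have h6 : Continuous fun t =>
            A * ((((X : ℂ[X]) ^ n).eval (O.γ t) * (O.R t * I * nu t)) • Sf O A t) :=
          continuous_const.mul (hcont _)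
        simp_rw [h1]
        rw [intervalIntegral.integral_add (h5.intervalIntegrable _ _)
          (h6.intervalIntegrable _ _),
          intervalIntegral.integral_smul_const, int_poly, zero_smul, zero_add,
          integral_cmul _ (hcont _), ih, mul_smul_comm, pow_succ', map_mul, aeval_X]
    induction P using Polynomial.induction_on' with
    | add p q hp hq =>
      simp_rw [eval_add, add_mul, add_smul]
      rw [intervalIntegral.integral_add ((hcont _).intervalIntegrable _ _)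
        ((hcont _).intervalIntegrable _ _), hp, hq, map_add, smul_add]
    | monomial n a =>
      have h1 : ∀ t, ((monomial n a).eval (O.γ t) * (O.R t * I * nu t)) • Sf O A t =
          a • ((((X : ℂ[X]) ^ n).eval (O.γ t) * (O.R t * I * nu t)) • Sf O A t) := by
        intro t
        rw [eval_monomial, smul_smul, eval_pow, eval_X, mul_assoc]
      simp_rw [h1]
      rw [intervalIntegral.integral_smul, hmono, ← C_mul_X_pow_eq_monomial, map_mul, aeval_C,
        smul_comm, Algebra.algebraMap_eq_smul_one, smul_mul_assoc, one_mul]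

end P123
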