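import Vale.Agent.P123.MkKer
import Vale.Agent.P123.Res

/-!
# P123, module MkInv : inverses in the closed algebra
-/

namespace P123

open MeasureTheory Complex Polynomial Set
open scoped Real ComplexConjugate BoundedContinuousFunction

universe u

namespace Mk

variable (O : Dom)
variable {H : Type u} [NormedAddCommGroup H] [InnerProductSpace ℂ H] [CompleteSpace H]

/-- contraction of the operator -/
noncomputable def Ar (A : H →L[ℂ] H) (z0 : ℂ) (r : ℝ) : H →L[ℂ] H :=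
  z0 • (1 : H →L[ℂ] H) + (r : ℂ) • (A - z0 • (1 : H →L[ℂ] H))

theorem inner_Ar (A : H →L[ℂ] H) (z0 : ℂ) (r : ℝ) (x : H) :
    inner ℂ x (Ar A z0 r x) = (1 - r : ℝ) * (z0 * (‖x‖ ^ 2 : ℝ)) + (r : ℝ) * inner ℂ x (A x) := by
  unfold Ar
  simp only [add_apply, smul_apply,
    one_apply_eq_self, sub_apply, inner_add_right,
    inner_smul_right, inner_sub_right, inner_self_eq_norm_sq_to_K]
  push_cast
  simp only [coe_algebraMap]
  ring

theorem sp_add (t : ℝ) (z w : ℂ) : sp t (z + w) = sp t z + sp t w := by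
  unfold sp
  simp only [add_re, add_im]
  ring

theorem sp_mul_real (t c : ℝ) (z : ℂ) : sp t (c * z) = c * sp t z := by
  unfold sp
  simp only [mul_re, mul_im, ofReal_re, ofReal_im]
  ring

theorem inside_Ar {A : H →L[ℂ] H} {d : ℝ} (hA : O.Inside A d) {z0 : ℂ}
    (hz0 : ∀ t, sp t z0 ≤ O.h t - d) {r : ℝ} (hr0 : 0 ≤ r) (hr1 : r ≤ 1) :
    O.Inside (Ar A z0 r) d := by
  intro t x
  rw [inner_Ar, sp_add, sp_mul_real, sp_mul_real, mul_comm z0, sp_mul_real]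
  have h1 := hA t x
  have h2 := hz0 t
  have h3 : 0 ≤ ‖x‖ ^ 2 := by positivity
  have h4 : (1 - r) * (‖x‖ ^ 2 * sp t z0) ≤ (1 - r) * (‖x‖ ^ 2 * (O.h t - d)) :=
    mul_le_mul_of_nonneg_left (mul_le_mul_of_nonneg_left h2 h3) (by linarith)
  have h5 := mul_le_mul_of_nonneg_left h1 hr0
  calc _ ≤ (1 - r) * (‖x‖ ^ 2 * (O.h t - d)) + r * ((O.h t - d) * ‖x‖ ^ 2) := add_le_add h4 h5
    _ = (O.h t - d) * ‖x‖ ^ 2 := by ring

/-- lower bound for `γ t - A` -/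
theorem lower_bound {A : H →L[ℂ] H} {d : ℝ} (hA : O.Inside A d) (t : ℝ) (x : H) :
    d * ‖x‖ ≤ ‖(O.γ t • (1 : H →L[ℂ] H) - A) x‖ := by
  by_cases hx : ‖x‖ = 0
  · rw [hx, mul_zero]
    exact norm_nonneg _
  have hx' : 0 < ‖x‖ := lt_of_le_of_ne (norm_nonneg _) (Ne.symm hx)
  set y := (O.γ t • (1 : H →L[ℂ] H) - A) x with hy
  have h1 : sp t (inner ℂ x y) = O.h t * ‖x‖ ^ 2 - sp t (inner ℂ x (A x)) := by
    have : inner ℂ x y = ((‖x‖ ^ 2 : ℝ) : ℂ) * O.γ t + ((-1 : ℝ) : ℂ) * inner ℂ x (A x) := by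
      rw [hy]
      simp only [sub_apply, smul_apply,
        one_apply_eq_self, inner_sub_right, inner_smul_right,
        inner_self_eq_norm_sq_to_K]
      push_cast
      simp only [coe_algebraMap]
      ring
    rw [this, sp_add, sp_mul_real, sp_mul_real, sp_γ_self]
    ring
  have h2 : sp t (inner ℂ x y) ≤ ‖x‖ * ‖y‖ := by
    rw [sp_eq]
    refine (Complex.re_le_norm _).trans ?_
    rw [norm_mul, RCLike.norm_conj, norm_nu, one_mul]
    exact norm_inner_le_norm _ _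
  have h3 := hA t x
  have h4 : d * ‖x‖ * ‖x‖ ≤ ‖y‖ * ‖x‖ := by nlinarith
  exact le_of_mul_le_mul_right h4 hx'

theorem norm_inv_le {A : H →L[ℂ] H} {d : ℝ} (hd : 0 < d) (hA : O.Inside A d) (t : ℝ)
    {S : H →L[ℂ] H} (hS : (O.γ t • (1 : H →L[ℂ] H) - A) * S = 1) : ‖S‖ ≤ 1 / d := by
  refine ContinuousLinearMap.opNorm_le_bound _ (by positivity) fun y => ?_
  have h1 := lower_bound O hA t (S y)
  have h2 : (O.γ t • (1 : H →L[ℂ] H) - A) (S y) = y := by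
    have := congrArg (fun L : H →L[ℂ] H => L y) hS
    exact this
  rw [h2] at h1
  rw [one_div, ← div_eq_inv_mul, le_div_iff₀ hd]
  linarith

/-- contraction in the algebra -/
noncomputable def XR (A : H →L[ℂ] H) (z0 : ℂ) (r : ℝ) : BB O A :=
  algebraMap ℂ _ z0 + (r : ℂ) • (XB O A - algebraMap ℂ _ z0)

theorem opB_XR (A : H →L[ℂ] H) (z0 : ℂ) (r : ℝ) : opB O A (XR O A z0 r) = Ar A z0 r := by
  unfold XR Ar
  rw [map_add, map_smul, map_sub, AlgHom.commutes, opB_X, Algebra.algebraMap_eq_smul_one]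

theorem evB_XR (A : H →L[ℂ] H) (z0 : ℂ) (r s : ℝ) : evB O A (XR O A z0 r) s = zr O z0 r s := by
  unfold XR zr
  rw [map_add, map_smul, map_sub, AlgHom.commutes, evB_X]
  rfl

/-- `γ t - X_r` in the algebra -/
noncomputable def er (A : H →L[ℂ] H) (z0 : ℂ) (r t : ℝ) : BB O A :=
  algebraMap ℂ _ (O.γ t) - XR O A z0 r

theorem opB_er (A : H →L[ℂ] H) (z0 : ℂ) (r t : ℝ) :
    opB O A (er O A z0 r t) = O.γ t • (1 : H →L[ℂ] H) - Ar A z0 r := by
  unfold er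
  rw [map_sub, AlgHom.commutes, opB_XR, Algebra.algebraMap_eq_smul_one]

theorem evB_er (A : H →L[ℂ] H) (z0 : ℂ) (r t s : ℝ) :
    evB O A (er O A z0 r t) s = O.γ t - zr O z0 r s := by
  unfold er
  rw [map_sub, AlgHom.commutes, Pi.sub_apply, evB_XR]
  rfl

theorem continuous_er (A : H →L[ℂ] H) (z0 : ℂ) (r : ℝ) : Continuous fun t => er O A z0 r t := by
  unfold er
  exact ((continuous_algebraMap ℂ (BB O A)).comp (continuous_γ O)).sub continuous_const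

theorem isUnit_er {A : H →L[ℂ] H} {d : ℝ} (hd : 0 < d) (hA : O.Inside A d) {z0 : ℂ}
    (hz0 : ∀ t, sp t z0 ≤ O.h t - d) {r : ℝ} (hr0 : 0 ≤ r) (hr1 : r < 1) (t : ℝ) :
    IsUnit (er O A z0 r t) := by
  obtain ⟨ρ₀, hρ₀, hρ⟩ := exists_rho O (Ar A z0 r) hd (inside_Ar O hA hz0 hr0 hr1.le)
  obtain ⟨Cγ, hCγ⟩ := exists_bound_γ O
  have hCγ0 : 0 ≤ Cγ := (norm_nonneg _).trans (hCγ 0)
  have h1r : 0 < 1 - r := by linarith
  have hrd : 0 < (1 - r) * d := mul_pos h1r hd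
  -- a bound for `|zr - γ t|`
  set D : ℝ := 2 * (Cγ + ‖z0‖) with hD
  have hD0 : 0 ≤ D := by positivity
  have hDb : ∀ s, ‖zr O z0 r s - O.γ t‖ ≤ D := by
    intro s
    have h1 : zr O z0 r s - O.γ t = (1 - r : ℝ) * z0 + r * O.γ s - O.γ t := by
      unfold zr
      push_cast
      ring
    rw [h1]
    refine (norm_sub_le _ _).trans ?_
    have h2 : ‖((1 - r : ℝ) : ℂ) * z0 + r * O.γ s‖ ≤ (1 - r) * ‖z0‖ + r * ‖O.γ s‖ := by
      refine (norm_add_le _ _).trans ?_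
      rw [norm_mul, norm_mul, Complex.norm_real, Complex.norm_real, Real.norm_of_nonneg h1r.le,
        Real.norm_of_nonneg hr0]
    have h3 := hCγ s
    have h4 := hCγ t
    have h5 := norm_nonneg z0
    have h6 := norm_nonneg (O.γ s)
    nlinarith
  set ρ : ℝ := max ρ₀ (D ^ 2 / ((1 - r) * d) + (1 - r) * d) with hρdef
  have hρ1 : ρ₀ ≤ ρ := le_max_left _ _
  have hρ2 : D ^ 2 / ((1 - r) * d) + (1 - r) * d ≤ ρ := le_max_right _ _
  have hρpos : 0 < ρ := hρ₀.trans_le hρ1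
  obtain ⟨q, hq0, hqρ, hq⟩ := hρ ρ hρ1
  have hDD : D ^ 2 ≤ ρ * ((1 - r) * d) := by
    have h1 : D ^ 2 / ((1 - r) * d) ≤ ρ := by linarith
    exact (div_le_iff₀ hrd).mp h1
  have hρge : (1 - r) * d ≤ ρ := by
    have : 0 ≤ D ^ 2 / ((1 - r) * d) := by positivity
    linarith
  set q' : ℝ := √(ρ * (ρ - (1 - r) * d)) with hq'
  have hq'0 : 0 ≤ q' := Real.sqrt_nonneg _
  have hq'ρ : q' < ρ := by
    rw [hq', Real.sqrt_lt' hρpos]
    nlinarith
  have hev : ∀ s, ‖zr O z0 r s - (O.γ t - ρ * nu t)‖ ≤ q' := by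
    intro s
    rw [hq']
    refine Real.le_sqrt_of_sq_le ?_
    have h1 := sp_zr O hz0 hr0 hr1 s t
    have h2 : ‖zr O z0 r s - (O.γ t - ρ * nu t)‖ ^ 2 = ‖zr O z0 r s - O.γ t‖ ^ 2 +
        2 * ρ * (sp t (zr O z0 r s) - O.h t) + ρ ^ 2 := by
      have h3 : O.h t = sp t (O.γ t) := (sp_γ_self O t).symm
      have h4 : zr O z0 r s - (O.γ t - ρ * nu t) = (zr O z0 r s - O.γ t) + ρ * nu t := by ring
      rw [h3, h4, ← Complex.normSq_eq_norm_sq, ← Complex.normSq_eq_norm_sq, Complex.normSq_add,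
        Complex.normSq_mul, Complex.normSq_ofReal, Complex.normSq_eq_norm_sq (nu t), norm_nu]
      unfold sp nu
      rw [Complex.exp_mul_I]
      simp only [mul_re, mul_im, sub_re, sub_im, ofReal_re, ofReal_im, add_re, add_im, I_re, I_im,
        conj_re, conj_im, map_mul, conj_ofReal, ← Complex.ofReal_cos, ← Complex.ofReal_sin]
      ring
    rw [h2]
    have h5 := hDb s
    have h6 : ‖zr O z0 r s - O.γ t‖ ^ 2 ≤ D ^ 2 := pow_le_pow_left₀ (norm_nonneg _) h5 2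
    nlinarith
  -- norm in the algebra
  set m : ℝ := max q q' with hm
  have hmρ : m < ρ := max_lt hqρ hq'ρ
  have hm0 : 0 ≤ m := hq0.trans (le_max_left _ _)
  set F : BB O A := XR O A z0 r - algebraMap ℂ _ (O.γ t - ρ * nu t) with hF
  have hFn : ‖F‖ ≤ m := by
    refine norm_le_of O A F hm0 ?_ ?_
    · rw [hF, map_sub, AlgHom.commutes, opB_XR, Algebra.algebraMap_eq_smul_one]
      exact (hq t).trans (le_max_left _ _)
    · intro s
      rw [hF, map_sub, AlgHom.commutes, Pi.sub_apply, evB_XR]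
      exact (hev s).trans (le_max_right _ _)
  have hρν : (ρ : ℂ) * nu t ≠ 0 := by
    refine mul_ne_zero (by exact_mod_cast hρpos.ne') ?_
    rw [← norm_pos_iff, norm_nu]
    exact one_pos
  have hnρν : ‖(ρ : ℂ) * nu t‖ = ρ := by
    rw [norm_mul, norm_nu, mul_one, Complex.norm_real, Real.norm_of_nonneg hρpos.le]
  have he : er O A z0 r t = algebraMap ℂ _ (ρ * nu t) * (1 - ((ρ * nu t)⁻¹ : ℂ) • F) := by
    rw [mul_sub, mul_one, mul_smul_comm, ← Algebra.smul_def, smul_smul, inv_mul_cancel₀ hρν,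
      one_smul, hF]
    unfold er
    rw [map_sub (algebraMap ℂ (BB O A))]
    ring
  rw [he]
  refine IsUnit.mul ?_ ?_
  · exact (IsUnit.mk0 _ hρν).map (algebraMap ℂ (BB O A))
  · refine isUnit_one_sub_of_norm_lt_one ?_
    rw [norm_smul, norm_inv, hnρν, inv_mul_lt_iff₀ hρpos, mul_one]
    exact hFn.trans_lt hmρ

/-- the inverse -/
noncomputable def ir (A : H →L[ℂ] H) (z0 : ℂ) (r t : ℝ) : BB O A := Ring.inverse (er O A z0 r t)

theorem continuous_ir {A : H →L[ℂ] H} {d : ℝ} (hd : 0 < d) (hA : O.Inside A d) {z0 : ℂ}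
    (hz0 : ∀ t, sp t z0 ≤ O.h t - d) {r : ℝ} (hr0 : 0 ≤ r) (hr1 : r < 1) :
    Continuous fun t => ir O A z0 r t := by
  refine continuous_iff_continuousAt.mpr fun t => ?_
  obtain ⟨v, hv⟩ := isUnit_er O hd hA hz0 hr0 hr1 t
  have h1 := NormedRing.inverse_continuousAt v
  rw [hv] at h1
  exact ContinuousAt.comp (f := fun t => er O A z0 r t) (g := Ring.inverse) h1
    (continuous_er O A z0 r).continuousAt

theorem er_mul_ir {A : H →L[ℂ] H} {d : ℝ} (hd : 0 < d) (hA : O.Inside A d) {z0 : ℂ}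
    (hz0 : ∀ t, sp t z0 ≤ O.h t - d) {r : ℝ} (hr0 : 0 ≤ r) (hr1 : r < 1) (t : ℝ) :
    er O A z0 r t * ir O A z0 r t = 1 :=
  Ring.mul_inverse_cancel _ (isUnit_er O hd hA hz0 hr0 hr1 t)

theorem ir_mul_er {A : H →L[ℂ] H} {d : ℝ} (hd : 0 < d) (hA : O.Inside A d) {z0 : ℂ}
    (hz0 : ∀ t, sp t z0 ≤ O.h t - d) {r : ℝ} (hr0 : 0 ≤ r) (hr1 : r < 1) (t : ℝ) :
    ir O A z0 r t * er O A z0 r t = 1 :=
  Ring.inverse_mul_cancel _ (isUnit_er O hd hA hz0 hr0 hr1 t)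

theorem evB_ir {A : H →L[ℂ] H} {d : ℝ} (hd : 0 < d) (hA : O.Inside A d) {z0 : ℂ}
    (hz0 : ∀ t, sp t z0 ≤ O.h t - d) {r : ℝ} (hr0 : 0 ≤ r) (hr1 : r < 1) (t s : ℝ) :
    evB O A (ir O A z0 r t) s = (O.γ t - zr O z0 r s)⁻¹ := by
  have h1 := congrArg (fun b => evB O A b s) (er_mul_ir O hd hA hz0 hr0 hr1 t)
  simp only [map_mul, Pi.mul_apply, map_one, Pi.one_apply, evB_er] at h1
  exact eq_inv_of_mul_eq_one_right h1

/-- the operator part is close to the resolvent -/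
theorem opB_ir {A : H →L[ℂ] H} {d : ℝ} (hd : 0 < d) (hA : O.Inside A d) {z0 : ℂ}
    (hz0 : ∀ t, sp t z0 ≤ O.h t - d) {r : ℝ} (hr0 : 0 ≤ r) (hr1 : r < 1) (t : ℝ)
    {S : H →L[ℂ] H} (hS : (O.γ t • (1 : H →L[ℂ] H) - A) * S = 1) :
    ‖opB O A (ir O A z0 r t) - S‖ ≤ (1 - r) * (‖A - z0 • (1 : H →L[ℂ] H)‖ / d ^ 2) := by
  have h1 := congrArg (opB O A) (er_mul_ir O hd hA hz0 hr0 hr1 t)
  have h2 := congrArg (opB O A) (ir_mul_er O hd hA hz0 hr0 hr1 t)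
  rw [map_mul, map_one, opB_er] at h1 h2
  set V := opB O A (ir O A z0 r t) with hV
  have hVn : ‖V‖ ≤ 1 / d := norm_inv_le O hd (inside_Ar O hA hz0 hr0 hr1.le) t h1
  have hSn : ‖S‖ ≤ 1 / d := norm_inv_le O hd hA t hS
  have h3 : V - S = -(((1 - r : ℝ) : ℂ) • (V * ((A - z0 • (1 : H →L[ℂ] H)) * S))) := by
    have h4 : V - S = V * ((O.γ t • (1 : H →L[ℂ] H) - A) * S) -
        (V * (O.γ t • (1 : H →L[ℂ] H) - Ar A z0 r)) * S := by
      rw [hS, h2, mul_one, one_mul]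
    rw [h4, mul_assoc, ← mul_sub, ← sub_mul]
    have h5 : (O.γ t • (1 : H →L[ℂ] H) - A) - (O.γ t • (1 : H →L[ℂ] H) - Ar A z0 r) =
        -(((1 - r : ℝ) : ℂ) • (A - z0 • (1 : H →L[ℂ] H))) := by
      unfold Ar
      push_cast
      module
    rw [h5, neg_mul, mul_neg, smul_mul_assoc, mul_smul_comm]
  have h1r : 0 ≤ 1 - r := by linarith
  rw [h3, norm_neg, norm_smul, Complex.norm_real, Real.norm_of_nonneg h1r]
  refine mul_le_mul_of_nonneg_left ?_ h1r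
  refine (norm_mul_le _ _).trans ?_
  have h6 : ‖(A - z0 • (1 : H →L[ℂ] H)) * S‖ ≤ ‖A - z0 • (1 : H →L[ℂ] H)‖ * (1 / d) :=
    (norm_mul_le _ _).trans (mul_le_mul_of_nonneg_left hSn (norm_nonneg _))
  calc ‖V‖ * ‖(A - z0 • (1 : H →L[ℂ] H)) * S‖ ≤ (1 / d) * (‖A - z0 • (1 : H →L[ℂ] H)‖ * (1 / d)) :=
        mul_le_mul hVn h6 (norm_nonneg _) (by positivity)
    _ = ‖A - z0 • (1 : H →L[ℂ] H)‖ / d ^ 2 := by field_simp

end Mk

end P123
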