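import Vale.Agent.P123.MkAlg

/-!
# P123, module MkKer : the double layer kernel and the Cauchy transform of a polynomial
-/

namespace P123

open MeasureTheory Complex Polynomial Set
open scoped Real ComplexConjugate

namespace Mk

variable (O : Dom)

theorem norm_T_le {u : ℝ → ℂ} (_hu : Continuous u) {C : ℝ} (hC : ∀ t, ‖u t‖ ≤ C) (s : ℝ) :
    ‖O.T u s‖ ≤ C := by
  have hD := intble_D O s 0 (2 * π)
  unfold Dom.T
  have h1 : ∀ t, ‖(O.D (O.γ s) t : ℂ) * conj (u t)‖ ≤ O.D (O.γ s) t * C := by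
    intro t
    have h0 := D_nonneg O (γ_mem O s) t
    rw [norm_mul, Complex.norm_real, Real.norm_of_nonneg h0, RCLike.norm_conj]
    exact mul_le_mul_of_nonneg_left (hC t) h0
  have h2 := intervalIntegral.norm_integral_le_of_norm_le (μ := volume) (a := 0) (b := 2 * π)
    (by positivity) (Filter.Eventually.of_forall fun t _ => h1 t) (hD.mul_const C)
  rw [intervalIntegral.integral_mul_const, int_D_γ, one_mul] at h2
  exact h2

theorem intble_Du {u : ℝ → ℂ} (hu : Continuous u) {C : ℝ} (hC : ∀ t, ‖u t‖ ≤ C) (s : ℝ) :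
    IntervalIntegrable (fun t => (O.D (O.γ s) t : ℂ) * conj (u t)) volume 0 (2 * π) := by
  have hD := intble_D O s 0 (2 * π)
  have hc : Continuous fun t => conj (u t) := Complex.continuous_conj.comp hu
  rw [intervalIntegrable_iff] at hD ⊢
  exact hD.ofReal.mul_bdd hc.aestronglyMeasurable
    (Filter.Eventually.of_forall fun t => by rw [RCLike.norm_conj]; exact hC t)

theorem T_sub {u v : ℝ → ℂ} (hu : Continuous u) (hv : Continuous v) {C C' : ℝ}
    (hC : ∀ t, ‖u t‖ ≤ C) (hC' : ∀ t, ‖v t‖ ≤ C') (s : ℝ) :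
    O.T u s - O.T v s = O.T (fun t => u t - v t) s := by
  unfold Dom.T
  rw [← intervalIntegral.integral_sub (intble_Du O hu hC s) (intble_Du O hv hC' s)]
  refine intervalIntegral.integral_congr fun t _ => ?_
  simp only [map_sub]
  ring

/-! ### Polynomials -/

/-- difference quotient of a polynomial -/
theorem exists_quot (k : ℂ[X]) (w : ℂ) : ∃ q : ℂ[X], ∀ z, k.eval z - k.eval w = (z - w) * q.eval z := by
  obtain ⟨q, hq⟩ := Polynomial.X_sub_C_dvd_sub_C_eval (a := w) (p := k)
  refine ⟨q, fun z => ?_⟩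
  have := congrArg (Polynomial.eval z) hq
  simpa using this

theorem continuous_Rnu : Continuous fun t => (O.R t : ℂ) * nu t :=
  (Complex.continuous_ofReal.comp (continuous_R O)).mul (continuous_nu)

/-- polynomials are Lipschitz on the closed domain -/
theorem exists_lip (k : ℂ[X]) : ∃ L : ℝ, 0 ≤ L ∧ ∀ s t, ‖k.eval (O.γ s) - k.eval (O.γ t)‖ ≤
    L * ‖O.γ s - O.γ t‖ := by
  obtain ⟨C, hC⟩ := exists_bound_γ O
  have hK : IsCompact (Metric.closedBall (0 : ℂ) C) := isCompact_closedBall _ _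
  obtain ⟨M, hM⟩ := hK.exists_bound_of_continuousOn
    (f := fun z : ℂ => k.derivative.eval z) (Polynomial.continuous k.derivative).continuousOn
  have h0 : 0 ≤ M := by
    have h1 : O.γ 0 ∈ Metric.closedBall (0 : ℂ) C := by
      rw [mem_closedBall_zero_iff]
      exact hC 0
    exact (norm_nonneg _).trans (hM _ h1)
  refine ⟨M, h0, fun s t => ?_⟩
  have h2 := (convex_closedBall (0 : ℂ) C).norm_image_sub_le_of_norm_hasDerivWithin_le
    (f := fun z : ℂ => k.eval z) (f' := fun z => k.derivative.eval z) (C := M)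
    (fun x _ => (k.hasDerivAt x).hasDerivWithinAt) hM
    (x := O.γ t) (y := O.γ s) (by rw [mem_closedBall_zero_iff]; exact hC t)
    (by rw [mem_closedBall_zero_iff]; exact hC s)
  exact h2

/-- the function `D` is the real part of a Cauchy kernel -/
theorem D_re (z : ℂ) (t : ℝ) : (O.D z t : ℂ) =
    (O.R t / (2 * π) : ℝ) * (nu t / (O.γ t - z) + conj (nu t / (O.γ t - z))) := by
  unfold Dom.D
  rw [Complex.add_conj]
  push_cast
  have : (π : ℂ) ≠ 0 := by exact_mod_cast Real.pi_ne_zero
  field_simp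

theorem intble_cont {f : ℝ → ℂ} (hf : Continuous f) (a b : ℝ) : IntervalIntegrable f volume a b :=
  hf.intervalIntegrable a b

/-- continuity of the Cauchy kernel for an interior point -/
theorem γ_sub_ne {z : ℂ} (hz : z ∈ O.op) (t : ℝ) : O.γ t - z ≠ 0 := by
  intro h
  have h1 : O.γ t = z := sub_eq_zero.mp h
  have h2 := hz t
  rw [← h1, sp_γ_self] at h2
  exact lt_irrefl _ h2

/-- `∮ (conj k(ζ) - conj k(w)) / (ζ - w) dζ` against the conjugate kernel vanishes -/
theorem conj_part (k : ℂ[X]) (w : ℂ) {N : Set ℝ} (hN : ∀ t, t ∉ N → O.γ t ≠ w)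
    (hN0 : volume N = 0) :
    ∫ t in (0 : ℝ)..2 * π, (k.eval (O.γ t) - k.eval w) * (O.R t * (nu t / (O.γ t - w))) = 0 := by
  obtain ⟨q, hq⟩ := exists_quot k w
  have h1 := int_poly O q
  have h2 : ∫ t in (0 : ℝ)..2 * π, q.eval (O.γ t) * (O.R t * I * nu t) =
      I * ∫ t in (0 : ℝ)..2 * π,
        (k.eval (O.γ t) - k.eval w) * (O.R t * (nu t / (O.γ t - w))) := by
    rw [← intervalIntegral.integral_const_mul]
    refine intervalIntegral.integral_congr_ae ?_
    have hae : ∀ᵐ t : ℝ, t ∉ N := measure_eq_zero_iff_ae_notMem.mp hN0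
    filter_upwards [hae] with t ht _
    have hne : O.γ t - w ≠ 0 := sub_ne_zero.mpr (hN t ht)
    rw [hq]
    field_simp
  rw [h2] at h1
  exact (mul_eq_zero.mp h1).resolve_left I_ne_zero

/-- `γ t = γ s` only on a countable set -/
theorem null_set (s : ℝ) : volume {t | O.γ t = O.γ s} = 0 := by
  have h2π : (0 : ℝ) < 2 * π := by positivity
  have hsub : {t | O.γ t = O.γ s} ⊆ Set.range fun n : ℤ => s + n • (2 * π) := by
    intro t ht
    refine ⟨toIcoDiv h2π s t, ?_⟩
    have h1 := toIcoMod_mem_Ico h2π s t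
    have h2 : t - toIcoDiv h2π s t • (2 * π) = toIcoMod h2π s t := rfl
    rcases eq_or_lt_of_le h1.1 with h3 | h3
    · show s + toIcoDiv h2π s t • (2 * π) = t
      linarith
    · exfalso
      have h4 := sp_γ_lt O h3 h1.2
      have hper : Function.Periodic O.γ (2 * π) := γ_per O
      have h5 : O.γ (toIcoMod h2π s t) = O.γ t := by
        rw [← h2]
        exact hper.sub_zsmul_eq _
      rw [h5, show O.γ t = O.γ s from ht, sp_γ_self] at h4
      exact lt_irrefl _ h4
  exact ((Set.countable_range _).mono hsub).measure_zero _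

theorem integral_conj' (f : ℝ → ℂ) :
    ∫ t in (0 : ℝ)..2 * π, conj (f t) = conj (∫ t in (0 : ℝ)..2 * π, f t) := by
  rw [intervalIntegral.integral_of_le (by positivity),
    intervalIntegral.integral_of_le (by positivity)]
  exact integral_conj

/-- Lipschitz integrand against a Cauchy kernel -/
theorem intble_lip {g : ℝ → ℂ} (hg : Continuous g) {L : ℝ} {w : ℂ}
    (hL : ∀ t, ‖g t‖ ≤ L * ‖O.γ t - w‖) :
    IntervalIntegrable (fun t => g t * (O.R t * (nu t / (O.γ t - w)))) volume 0 (2 * π) := by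
  have h1 : IntervalIntegrable (fun t => L * O.R t) volume 0 (2 * π) :=
    (continuous_const.mul (continuous_R O)).intervalIntegrable _ _
  refine h1.mono_fun ?_ (Filter.Eventually.of_forall fun t => ?_)
  · refine Measurable.aestronglyMeasurable ?_
    exact hg.measurable.mul ((Complex.measurable_ofReal.comp (continuous_R O).measurable).mul
      (continuous_nu.measurable.div ((continuous_γ O).measurable.sub_const w)))
  · show ‖g t * (O.R t * (nu t / (O.γ t - w)))‖ ≤ ‖L * O.R t‖
    rw [norm_mul, norm_mul, norm_div, norm_nu, Complex.norm_real,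
      Real.norm_of_nonneg (R_pos O t).le, Real.norm_eq_abs]
    have hR := (R_pos O t).le
    have hn := norm_nonneg (O.γ t - w)
    have h2 : ‖g t‖ * (O.R t * (1 / ‖O.γ t - w‖)) ≤ L * O.R t := by
      by_cases h0 : ‖O.γ t - w‖ = 0
      · have h3 := hL t
        rw [h0, mul_zero] at h3
        have h4 : ‖g t‖ = 0 := le_antisymm h3 (norm_nonneg _)
        rw [h4, zero_mul]
        by_cases hL0 : 0 ≤ L
        · positivity
        · -- `L < 0` forces all `γ t = w`, impossible unless trivial; use periodicity of signs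
          exfalso
          push Not at hL0
          -- every point satisfies ‖γ t' - w‖ = 0
          have h5 : ∀ t', O.γ t' = w := by
            intro t'
            have h6 := hL t'
            have h7 : L * ‖O.γ t' - w‖ ≤ 0 := mul_nonpos_of_nonpos_of_nonneg hL0.le (norm_nonneg _)
            have h8 : L * ‖O.γ t' - w‖ = 0 := le_antisymm h7 ((norm_nonneg _).trans h6)
            have h9 : ‖O.γ t' - w‖ = 0 := (mul_eq_zero.mp h8).resolve_left hL0.ne
            exact sub_eq_zero.mp (norm_eq_zero.mp h9)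
          have h10 := sp_γ_lt O (s := π) (t := 0) (by positivity) (by linarith [Real.pi_pos])
          rw [h5 π, ← h5 0, sp_γ_self] at h10
          exact lt_irrefl _ h10
      · have h3 : 0 < ‖O.γ t - w‖ := lt_of_le_of_ne hn (Ne.symm h0)
        calc ‖g t‖ * (O.R t * (1 / ‖O.γ t - w‖)) ≤
            (L * ‖O.γ t - w‖) * (O.R t * (1 / ‖O.γ t - w‖)) :=
              mul_le_mul_of_nonneg_right (hL t) (by positivity)
          _ = L * O.R t := by field_simp
    exact h2.trans (le_abs_self _)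

/-- the direct value of the Cauchy transform on the boundary -/
theorem T_poly (k : ℂ[X]) (s : ℝ) : O.T (fun t => k.eval (O.γ t)) s = conj (k.eval (O.γ s)) +
    (1 / (2 * π) : ℝ) * ∫ t in (0 : ℝ)..2 * π, (conj (k.eval (O.γ t)) - conj (k.eval (O.γ s))) *
      (O.R t * (nu t / (O.γ t - O.γ s))) := by
  obtain ⟨L, hL0, hL⟩ := exists_lip O k
  have hk : Continuous fun t => k.eval (O.γ t) := (Polynomial.continuous k).comp (continuous_γ O)
  have hkc : Continuous fun t => conj (k.eval (O.γ t)) := Complex.continuous_conj.comp hk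
  obtain ⟨C, hC⟩ : ∃ C, ∀ t, ‖k.eval (O.γ t)‖ ≤ C := by
    have h := Function.Periodic.isBounded_of_continuous (f := fun t => k.eval (O.γ t))
      (c := 2 * π) (fun t => by simp only [γ_per]) (by positivity) hk
    obtain ⟨C, hC⟩ := h.exists_norm_le
    exact ⟨C, fun t => hC _ ⟨t, rfl⟩⟩
  set f1 : ℝ → ℂ := fun t => (conj (k.eval (O.γ t)) - conj (k.eval (O.γ s))) *
      (O.R t * (nu t / (O.γ t - O.γ s))) with hf1
  set f2 : ℝ → ℂ := fun t => (k.eval (O.γ t) - k.eval (O.γ s)) *
      (O.R t * (nu t / (O.γ t - O.γ s))) with hf2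
  have hi1 : IntervalIntegrable f1 volume 0 (2 * π) := by
    refine intble_lip O (hkc.sub continuous_const) (L := L) fun t => ?_
    show ‖conj (k.eval (O.γ t)) - conj (k.eval (O.γ s))‖ ≤ L * ‖O.γ t - O.γ s‖
    rw [← map_sub, RCLike.norm_conj]
    exact hL t s
  have hi2 : IntervalIntegrable f2 volume 0 (2 * π) :=
    intble_lip O (hk.sub continuous_const) (L := L) fun t => hL t s
  have hi2' : IntervalIntegrable (fun t => conj (f2 t)) volume 0 (2 * π) := by
    rw [intervalIntegrable_iff] at hi2 ⊢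
    refine Integrable.mono hi2
      (Complex.continuous_conj.comp_aestronglyMeasurable hi2.aestronglyMeasurable)
      (Filter.Eventually.of_forall fun t => ?_)
    show ‖conj (f2 t)‖ ≤ ‖f2 t‖
    rw [RCLike.norm_conj]
  have h2 : ∫ t in (0 : ℝ)..2 * π, f2 t = 0 :=
    conj_part O k (O.γ s) (N := {t | O.γ t = O.γ s}) (fun t ht => ht) (null_set O s)
  have h3 : ∫ t in (0 : ℝ)..2 * π, (O.D (O.γ s) t : ℂ) *
      (conj (k.eval (O.γ t)) - conj (k.eval (O.γ s))) =
      (1 / (2 * π) : ℝ) * ∫ t in (0 : ℝ)..2 * π, f1 t := by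
    have h4 : ∀ t, (O.D (O.γ s) t : ℂ) * (conj (k.eval (O.γ t)) - conj (k.eval (O.γ s))) =
        ((1 / (2 * π) : ℝ) : ℂ) * (f1 t + conj (f2 t)) := by
      intro t
      rw [D_re]
      simp only [hf1, hf2, map_mul, map_sub, Complex.conj_ofReal]
      push_cast
      field_simp
    simp_rw [h4]
    rw [intervalIntegral.integral_const_mul, intervalIntegral.integral_add hi1 hi2',
      integral_conj', h2, map_zero, add_zero]
  have hDi := intble_D O s 0 (2 * π)
  have h5 : ∫ t in (0 : ℝ)..2 * π, (O.D (O.γ s) t : ℂ) *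
      (conj (k.eval (O.γ t)) - conj (k.eval (O.γ s))) =
      O.T (fun t => k.eval (O.γ t)) s - conj (k.eval (O.γ s)) := by
    have h6 : ∀ t, (O.D (O.γ s) t : ℂ) * (conj (k.eval (O.γ t)) - conj (k.eval (O.γ s))) =
        (O.D (O.γ s) t : ℂ) * conj (k.eval (O.γ t)) -
          (O.D (O.γ s) t : ℂ) * conj (k.eval (O.γ s)) := fun t => by ring
    simp_rw [h6]
    have hi3 := intble_Du O hk hC s
    have hi4 := intble_Du O (u := fun _ => k.eval (O.γ s)) continuous_const
      (C := C) (fun _ => hC s) s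
    rw [intervalIntegral.integral_sub hi3 hi4, intervalIntegral.integral_mul_const,
      intervalIntegral.integral_ofReal, int_D_γ]
    unfold Dom.T
    push_cast
    ring
  rw [h5] at h3
  linear_combination h3

/-- points of the contracted domain -/
noncomputable def zr (O : Dom) (z0 : ℂ) (r s : ℝ) : ℂ := z0 + r * (O.γ s - z0)

theorem sp_add_smul (t r : ℝ) (z w : ℂ) : sp t (z + r * (w - z)) = (1 - r) * sp t z + r * sp t w := by
  unfold sp
  simp only [add_re, add_im, mul_re, mul_im, sub_re, sub_im, ofReal_re, ofReal_im]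
  ring

theorem sp_zr {z0 : ℂ} {d : ℝ} (hz0 : ∀ t, sp t z0 ≤ O.h t - d) {r : ℝ} (hr0 : 0 ≤ r)
    (hr1 : r < 1) (s t : ℝ) : (1 - r) * d ≤ O.h t - sp t (zr O z0 r s) := by
  unfold zr
  rw [sp_add_smul]
  have h1 := hz0 t
  have h2 := γ_mem O s t
  nlinarith [mul_le_mul_of_nonneg_left h1 (sub_nonneg.mpr hr1.le), mul_le_mul_of_nonneg_left h2 hr0]

theorem zr_mem {z0 : ℂ} {d : ℝ} (hd : 0 < d) (hz0 : ∀ t, sp t z0 ≤ O.h t - d) {r : ℝ}
    (hr0 : 0 ≤ r) (hr1 : r < 1) (s : ℝ) : zr O z0 r s ∈ O.op := by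
  intro t
  have h1 := sp_zr O hz0 hr0 hr1 s t
  have h2 : 0 < (1 - r) * d := mul_pos (by linarith) hd
  linarith

/-- the Cauchy kernel integrates to one -/
theorem int_cauchy {z : ℂ} (hz : z ∈ O.op) :
    ∫ t in (0 : ℝ)..2 * π, (O.R t : ℂ) * (nu t / (O.γ t - z)) = 2 * π := by
  have h1 := winding O hz
  have h2 : ∫ t in (0 : ℝ)..2 * π, (O.R t * I * nu t) / (O.γ t - z) =
      I * ∫ t in (0 : ℝ)..2 * π, (O.R t : ℂ) * (nu t / (O.γ t - z)) := by
    rw [← intervalIntegral.integral_const_mul]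
    refine intervalIntegral.integral_congr fun t _ => ?_
    ring
  rw [h2] at h1
  have h3 : I * (∫ t in (0 : ℝ)..2 * π, (O.R t : ℂ) * (nu t / (O.γ t - z))) = I * (2 * π) := by
    rw [h1]
    ring
  exact mul_left_cancel₀ I_ne_zero h3

theorem continuous_cauchy {z : ℂ} (hz : z ∈ O.op) :
    Continuous fun t => (O.R t : ℂ) * (nu t / (O.γ t - z)) :=
  (Complex.continuous_ofReal.comp (continuous_R O)).mul
    (continuous_nu.div ((continuous_γ O).sub continuous_const) (γ_sub_ne O hz))

/-- the Cauchy transform of `conj k` inside -/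
noncomputable def Gc (O : Dom) (k : ℂ[X]) (z : ℂ) : ℂ :=
  (1 / (2 * π) : ℝ) * ∫ t in (0 : ℝ)..2 * π, conj (k.eval (O.γ t)) *
    (O.R t * (nu t / (O.γ t - z)))

theorem plemelj {z0 : ℂ} {d : ℝ} (hd : 0 < d) (hz0 : ∀ t, sp t z0 ≤ O.h t - d) (k : ℂ[X]) :
    ∃ C : ℝ, 0 ≤ C ∧ ∀ r : ℝ, 0 ≤ r → r < 1 → ∀ s,
      ‖Gc O k (zr O z0 r s) - O.T (fun t => k.eval (O.γ t)) s‖ ≤ C * √(1 - r) := by
  obtain ⟨L, hL0, hL⟩ := exists_lip O k
  obtain ⟨Cγ, hCγ⟩ := exists_bound_γ O
  have hCγ0 : 0 ≤ Cγ := (norm_nonneg _).trans (hCγ 0)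
  have hk : Continuous fun t => k.eval (O.γ t) := (Polynomial.continuous k).comp (continuous_γ O)
  have hkc : Continuous fun t => conj (k.eval (O.γ t)) := Complex.continuous_conj.comp hk
  set RT : ℝ := ∫ t in (0 : ℝ)..2 * π, O.R t with hRT
  have hRT0 : 0 ≤ RT := intervalIntegral.integral_nonneg (by positivity)
    fun t _ => (R_pos O t).le
  set Dm : ℝ := Cγ + ‖z0‖ with hDm
  have hDm0 : 0 ≤ Dm := by positivity
  refine ⟨1 / (2 * π) * (L * Dm * (1 / 2) * (2 * π / d + RT)), by positivity, ?_⟩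
  intro r hr0 hr1 s
  have h1r : 0 < 1 - r := by linarith
  set lam : ℝ := √(1 - r) with hlam
  have hlam0 : 0 < lam := Real.sqrt_pos.mpr h1r
  have hlam2 : lam * lam = 1 - r := Real.mul_self_sqrt h1r.le
  set z := zr O z0 r s with hz
  set w := O.γ s with hw
  have hzop : z ∈ O.op := zr_mem O hd hz0 hr0 hr1 s
  have hzw : ‖z - w‖ ≤ (1 - r) * Dm := by
    have h1 : z - w = ((1 - r : ℝ) : ℂ) * (z0 - w) := by
      simp only [hz, zr, hw]
      push_cast
      ring
    rw [h1, norm_mul, Complex.norm_real, Real.norm_of_nonneg h1r.le]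
    refine mul_le_mul_of_nonneg_left ?_ h1r.le
    refine (norm_sub_le _ _).trans ?_
    rw [hDm, hw]
    linarith [hCγ s]
  -- subtract the constant
  have hcau := continuous_cauchy O hzop
  have hB : Gc O k z = conj (k.eval w) + (1 / (2 * π) : ℝ) * ∫ t in (0 : ℝ)..2 * π,
      (conj (k.eval (O.γ t)) - conj (k.eval w)) * (O.R t * (nu t / (O.γ t - z))) := by
    unfold Gc
    have h1 : ∀ t, (conj (k.eval (O.γ t)) - conj (k.eval w)) * (O.R t * (nu t / (O.γ t - z))) =
        conj (k.eval (O.γ t)) * (O.R t * (nu t / (O.γ t - z))) -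
          conj (k.eval w) * (O.R t * (nu t / (O.γ t - z))) := fun t => by ring
    have c1 : Continuous fun t => conj (k.eval (O.γ t)) * (O.R t * (nu t / (O.γ t - z))) :=
      hkc.mul hcau
    have c2 : Continuous fun t => conj (k.eval w) * (O.R t * (nu t / (O.γ t - z))) :=
      continuous_const.mul hcau
    simp_rw [h1]
    rw [intervalIntegral.integral_sub (c1.intervalIntegrable _ _)
      (c2.intervalIntegrable _ _), intervalIntegral.integral_const_mul,
      int_cauchy O hzop]
    push_cast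
    have : (π : ℂ) ≠ 0 := by exact_mod_cast Real.pi_ne_zero
    field_simp
    ring
  rw [hB, T_poly]
  set f1 : ℝ → ℂ := fun t => (conj (k.eval (O.γ t)) - conj (k.eval w)) *
    (O.R t * (nu t / (O.γ t - z))) with hf1
  set f2 : ℝ → ℂ := fun t => (conj (k.eval (O.γ t)) - conj (k.eval w)) *
    (O.R t * (nu t / (O.γ t - w))) with hf2
  have hi1 : IntervalIntegrable f1 volume 0 (2 * π) :=
    ((hkc.sub continuous_const).mul hcau).intervalIntegrable _ _
  have hi2 : IntervalIntegrable f2 volume 0 (2 * π) := by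
    refine intble_lip O (hkc.sub continuous_const) (L := L) fun t => ?_
    show ‖conj (k.eval (O.γ t)) - conj (k.eval (O.γ s))‖ ≤ L * ‖O.γ t - O.γ s‖
    rw [← map_sub, RCLike.norm_conj]
    exact hL t s
  have hdiff : conj (k.eval w) + (1 / (2 * π) : ℝ) * (∫ t in (0 : ℝ)..2 * π, f1 t) -
      (conj (k.eval w) + (1 / (2 * π) : ℝ) * ∫ t in (0 : ℝ)..2 * π, f2 t) =
      (1 / (2 * π) : ℝ) * ∫ t in (0 : ℝ)..2 * π, (f1 t - f2 t) := by
    rw [intervalIntegral.integral_sub hi1 hi2]
    ring
  rw [hdiff, norm_mul, Complex.norm_real, Real.norm_of_nonneg (by positivity), mul_assoc]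
  refine mul_le_mul_of_nonneg_left ?_ (by positivity)
  -- pointwise bound
  have hpt : ∀ t, ‖f1 t - f2 t‖ ≤ L * ((1 - r) * Dm) * (1 / 2) *
      (lam * (π / ((1 - r) * d)) * O.D z t + (1 / lam) * O.R t) := by
    intro t
    have hR := (R_pos O t).le
    have hne : O.γ t - z ≠ 0 := γ_sub_ne O hzop t
    have hn : 0 < ‖O.γ t - z‖ := norm_pos_iff.mpr hne
    have ha : ‖f1 t - f2 t‖ ≤ L * ((1 - r) * Dm) * (O.R t / ‖O.γ t - z‖) := by
      by_cases hw0 : O.γ t - w = 0
      · have h0 : k.eval (O.γ t) = k.eval w := by rw [sub_eq_zero.mp hw0]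
        simp only [hf1, hf2, h0, sub_self, zero_mul, norm_zero]
        positivity
      · have hnw : 0 < ‖O.γ t - w‖ := norm_pos_iff.mpr hw0
        have h1 : f1 t - f2 t = (conj (k.eval (O.γ t)) - conj (k.eval w)) * (O.R t *
            (nu t * ((z - w) / ((O.γ t - z) * (O.γ t - w))))) := by
          simp only [hf1, hf2]
          field_simp
          ring
        rw [h1, norm_mul, norm_mul, norm_mul, norm_div, norm_mul, norm_nu, Complex.norm_real,
          Real.norm_of_nonneg hR, ← map_sub, RCLike.norm_conj, one_mul]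
        have h2 := hL t s
        rw [← hw] at h2
        calc ‖k.eval (O.γ t) - k.eval w‖ * (O.R t * (‖z - w‖ / (‖O.γ t - z‖ * ‖O.γ t - w‖)))
            ≤ (L * ‖O.γ t - w‖) * (O.R t * (((1 - r) * Dm) / (‖O.γ t - z‖ * ‖O.γ t - w‖))) := by
              gcongr
          _ = L * ((1 - r) * Dm) * (O.R t / ‖O.γ t - z‖) := by
              field_simp
    refine ha.trans ?_
    rw [mul_assoc (L * ((1 - r) * Dm)) (1 / 2)]
    refine mul_le_mul_of_nonneg_left ?_ (by positivity)
    -- AM-GM
    have hb : O.R t / ‖O.γ t - z‖ ≤ 1 / 2 * (lam * (O.R t / ‖O.γ t - z‖ ^ 2) +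
        (1 / lam) * O.R t) := by
      have h1 : 1 / 2 * (lam * (O.R t / ‖O.γ t - z‖ ^ 2) + (1 / lam) * O.R t) -
          O.R t / ‖O.γ t - z‖ = O.R t / (2 * lam) * (lam / ‖O.γ t - z‖ - 1) ^ 2 := by
        field_simp
        ring
      have h2 : 0 ≤ O.R t / (2 * lam) * (lam / ‖O.γ t - z‖ - 1) ^ 2 := by positivity
      linarith
    have hc : O.R t / ‖O.γ t - z‖ ^ 2 ≤ π / ((1 - r) * d) * O.D z t := by
      have h1 := sp_zr O hz0 hr0 hr1 s t
      rw [← hz] at h1
      rw [D_eq]
      have h2 : 0 < (1 - r) * d := mul_pos h1r hd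
      have h3 : π / ((1 - r) * d) * (O.R t / π * ((O.h t - sp t z) / ‖O.γ t - z‖ ^ 2)) =
          O.R t / ‖O.γ t - z‖ ^ 2 * ((O.h t - sp t z) / ((1 - r) * d)) := by
        field_simp
      rw [h3]
      have h4 : 1 ≤ (O.h t - sp t z) / ((1 - r) * d) := (one_le_div h2).mpr h1
      have h5 : 0 ≤ O.R t / ‖O.γ t - z‖ ^ 2 := by positivity
      nlinarith
    have hd' := mul_le_mul_of_nonneg_left hc hlam0.le
    linarith
  have hzcl : z ∈ O.cl := fun t => (hzop t).le
  have hDint : IntervalIntegrable (fun t => O.D z t) volume 0 (2 * π) := by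
    unfold Dom.D
    refine Continuous.intervalIntegrable ?_ _ _
    exact ((continuous_R O).div_const _).mul (Complex.continuous_re.comp
      (continuous_nu.div ((continuous_γ O).sub continuous_const) (γ_sub_ne O hzop)))
  have hRint : IntervalIntegrable (fun t => O.R t) volume 0 (2 * π) :=
    (continuous_R O).intervalIntegrable _ _
  have hfin := intervalIntegral.norm_integral_le_of_norm_le (μ := volume) (a := 0) (b := 2 * π)
    (by positivity) (Filter.Eventually.of_forall fun t _ => hpt t)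
    (((hDint.const_mul _).add (hRint.const_mul _)).const_mul _)
  refine hfin.trans ?_
  rw [intervalIntegral.integral_const_mul, intervalIntegral.integral_add (hDint.const_mul _)
    (hRint.const_mul _), intervalIntegral.integral_const_mul, intervalIntegral.integral_const_mul,
    int_D_op O hzop, ← hRT]
  rw [← hlam2]
  have h1 : L * (lam * lam * Dm) * (1 / 2) * (lam * (π / (lam * lam * d)) * 2 + 1 / lam * RT) =
      L * Dm * (1 / 2) * (2 * π / d + RT) * lam := by
    field_simp
  rw [h1]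

end Mk

end P123
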