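import Vale.Agent.P123.MkInv

/-!
# P123, module MkT : the Cauchy transform of conjugates in the closed algebra
-/

namespace P123

open MeasureTheory Complex Polynomial Set Filter
open scoped Real ComplexConjugate BoundedContinuousFunction Topology

universe u

namespace Mk

variable (O : Dom)
variable {H : Type u} [NormedAddCommGroup H] [InnerProductSpace ℂ H] [CompleteSpace H]

/-- `(1/2π) ∫ conj u(t) R ν S` -/
noncomputable def GG (S : ℝ → H →L[ℂ] H) (u : ℝ → ℂ) : H →L[ℂ] H :=
  ((1 / (2 * π) : ℝ) : ℂ) • ∫ t in (0 : ℝ)..2 * π, (conj (u t) * (O.R t * nu t)) • S t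

theorem continuous_GG {S : ℝ → H →L[ℂ] H} (hS : Continuous S) {u : ℝ → ℂ} (hu : Continuous u) :
    Continuous fun t => (conj (u t) * (O.R t * nu t)) • S t :=
  ((Complex.continuous_conj.comp hu).mul (continuous_Rnu O)).smul hS

/-- the total length divided by `2π` -/
noncomputable def RT (O : Dom) : ℝ := (1 / (2 * π)) * ∫ t in (0 : ℝ)..2 * π, O.R t

theorem RT_nonneg : 0 ≤ RT O := by
  unfold RT
  refine mul_nonneg (by positivity) ?_
  exact intervalIntegral.integral_nonneg (by positivity) fun t _ => (R_pos O t).le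

theorem norm_int_le {E : Type*} [NormedAddCommGroup E] [NormedSpace ℂ E] [NormedSpace ℝ E]
    (f : ℝ → E) {C : ℝ} (hf : ∀ t, ‖f t‖ ≤ C * O.R t) :
    ‖((1 / (2 * π) : ℝ) : ℂ) • ∫ t in (0 : ℝ)..2 * π, f t‖ ≤ C * RT O := by
  have h1 := intervalIntegral.norm_integral_le_of_norm_le (μ := volume) (a := 0) (b := 2 * π)
    (by positivity) (Filter.Eventually.of_forall fun t _ => hf t)
    ((continuous_const.mul (continuous_R O)).intervalIntegrable _ _)
  rw [norm_smul, Complex.norm_real, Real.norm_of_nonneg (by positivity)]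
  rw [intervalIntegral.integral_const_mul] at h1
  calc 1 / (2 * π) * ‖∫ t in (0 : ℝ)..2 * π, f t‖ ≤
      1 / (2 * π) * (C * ∫ t in (0 : ℝ)..2 * π, O.R t) :=
        mul_le_mul_of_nonneg_left h1 (by positivity)
    _ = C * RT O := by unfold RT; ring

theorem norm_GG_sub_le {S : ℝ → H →L[ℂ] H} (hS : Continuous S) {CS : ℝ} (hCS : ∀ t, ‖S t‖ ≤ CS)
    {u v : ℝ → ℂ} (hu : Continuous u) (hv : Continuous v) {C : ℝ}
    (hC : ∀ t, ‖u t - v t‖ ≤ C) : ‖GG O S u - GG O S v‖ ≤ C * CS * RT O := by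
  unfold GG
  rw [← smul_sub, ← intervalIntegral.integral_sub ((continuous_GG O hS hu).intervalIntegrable _ _)
    ((continuous_GG O hS hv).intervalIntegrable _ _)]
  refine norm_int_le O _ fun t => ?_
  rw [← sub_smul, ← sub_mul, ← map_sub, norm_smul, norm_mul, norm_mul, RCLike.norm_conj, norm_nu,
    mul_one, Complex.norm_real, Real.norm_of_nonneg (R_pos O t).le]
  have h1 := hC t
  have h2 := hCS t
  have h3 := (R_pos O t).le
  have h4 := norm_nonneg (u t - v t)
  have h5 := norm_nonneg (S t)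
  calc ‖u t - v t‖ * O.R t * ‖S t‖ ≤ C * O.R t * CS :=
        mul_le_mul (mul_le_mul_of_nonneg_right h1 h3) h2 h5 (mul_nonneg (h4.trans h1) h3)
    _ = C * CS * O.R t := by ring

/-- the approximants -/
noncomputable def Ir (A : H →L[ℂ] H) (z0 : ℂ) (k : ℂ[X]) (r : ℝ) : BB O A :=
  ((1 / (2 * π) : ℝ) : ℂ) • ∫ t in (0 : ℝ)..2 * π,
    (conj (k.eval (O.γ t)) * (O.R t * nu t)) • ir O A z0 r t

theorem opB_Ir {A : H →L[ℂ] H} {d : ℝ} (hd : 0 < d) (hA : O.Inside A d) {z0 : ℂ}
    (hz0 : ∀ t, sp t z0 ≤ O.h t - d) (k : ℂ[X]) {r : ℝ} (hr0 : 0 ≤ r) (hr1 : r < 1) :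
    opB O A (Ir O A z0 k r) = ((1 / (2 * π) : ℝ) : ℂ) • ∫ t in (0 : ℝ)..2 * π,
      (conj (k.eval (O.γ t)) * (O.R t * nu t)) • opB O A (ir O A z0 r t) := by
  have hk : Continuous fun t => k.eval (O.γ t) := (Polynomial.continuous k).comp (continuous_γ O)
  have hc : Continuous fun t => (conj (k.eval (O.γ t)) * (O.R t * nu t)) • ir O A z0 r t :=
    ((Complex.continuous_conj.comp hk).mul (continuous_Rnu O)).smul
      (continuous_ir O hd hA hz0 hr0 hr1)
  unfold Ir
  rw [map_smul]
  have h1 := (opL O A).intervalIntegral_comp_comm (hc.intervalIntegrable (μ := volume) 0 (2 * π))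
  rw [← opL_apply, ← h1]
  congr 1

theorem evB_Ir {A : H →L[ℂ] H} {d : ℝ} (hd : 0 < d) (hA : O.Inside A d) {z0 : ℂ}
    (hz0 : ∀ t, sp t z0 ≤ O.h t - d) (k : ℂ[X]) {r : ℝ} (hr0 : 0 ≤ r) (hr1 : r < 1) (s : ℝ) :
    evB O A (Ir O A z0 k r) s = Gc O k (zr O z0 r s) := by
  have hk : Continuous fun t => k.eval (O.γ t) := (Polynomial.continuous k).comp (continuous_γ O)
  have hc : Continuous fun t => (conj (k.eval (O.γ t)) * (O.R t * nu t)) • ir O A z0 r t :=
    ((Complex.continuous_conj.comp hk).mul (continuous_Rnu O)).smul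
      (continuous_ir O hd hA hz0 hr0 hr1)
  have h1 := (evL O A s).intervalIntegral_comp_comm (hc.intervalIntegrable (μ := volume) 0 (2 * π))
  have h2 : evB O A (Ir O A z0 k r) s = evL O A s (Ir O A z0 k r) := rfl
  rw [h2]
  unfold Ir Gc
  rw [map_smul, ← h1, smul_eq_mul]
  congr 1
  refine intervalIntegral.integral_congr fun t _ => ?_
  simp only [map_smul, evL_apply, evB_ir O hd hA hz0 hr0 hr1, smul_eq_mul]
  ring

/-- a contraction parameter tending to one -/
noncomputable def rn (n : ℕ) : ℝ := 1 - 1 / ((n : ℝ) + 1)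

theorem rn_nonneg (n : ℕ) : 0 ≤ rn n := by
  unfold rn
  have h1 : (0 : ℝ) < n + 1 := by positivity
  have h2 : 1 / ((n : ℝ) + 1) ≤ 1 := by
    rw [div_le_one h1]
    have : (0 : ℝ) ≤ n := n.cast_nonneg
    linarith
  linarith

theorem rn_lt (n : ℕ) : rn n < 1 := by
  unfold rn
  have h1 : 0 < 1 / ((n : ℝ) + 1) := by positivity
  linarith

theorem exists_T_poly {A : H →L[ℂ] H} {d : ℝ} (hd : 0 < d) (hA : O.Inside A d) {z0 : ℂ}
    (hz0 : ∀ t, sp t z0 ≤ O.h t - d) {S : ℝ → H →L[ℂ] H} (hS : Continuous S)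
    (hSi : ∀ t, (O.γ t • (1 : H →L[ℂ] H) - A) * S t = 1) (k : ℂ[X]) :
    ∃ L : BB O A, opB O A L = GG O S (fun t => k.eval (O.γ t)) ∧
      ∀ s, evB O A L s = O.T (fun t => k.eval (O.γ t)) s := by
  have hk : Continuous fun t => k.eval (O.γ t) := (Polynomial.continuous k).comp (continuous_γ O)
  obtain ⟨Ck, hCk⟩ : ∃ C, ∀ t, ‖k.eval (O.γ t)‖ ≤ C := by
    have h := Function.Periodic.isBounded_of_continuous (f := fun t => k.eval (O.γ t))
      (c := 2 * π) (fun t => by simp only [γ_per]) (by positivity) hk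
    obtain ⟨C, hC⟩ := h.exists_norm_le
    exact ⟨C, fun t => hC _ ⟨t, rfl⟩⟩
  have hCk0 : 0 ≤ Ck := (norm_nonneg _).trans (hCk 0)
  obtain ⟨C₁, hC₁0, hC₁⟩ := plemelj O hd hz0 k
  set C₂ : ℝ := Ck * (‖A - z0 • (1 : H →L[ℂ] H)‖ / d ^ 2) * RT O with hC₂
  have hRT := RT_nonneg O
  have hC₂0 : 0 ≤ C₂ := by positivity
  -- operator part
  have hop : ∀ n, ‖opB O A (Ir O A z0 k (rn n)) - GG O S (fun t => k.eval (O.γ t))‖ ≤
      C₂ * √(1 - rn n) := by
    intro n
    have hr0 := rn_nonneg n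
    have hr1 := rn_lt n
    have h1r : 0 ≤ 1 - rn n := by linarith
    rw [opB_Ir O hd hA hz0 k hr0 hr1]
    unfold GG
    have hci := continuous_ir O hd hA hz0 hr0 hr1
    have hci' : Continuous fun t => opB O A (ir O A z0 (rn n) t) :=
      (opL O A).continuous.comp hci
    have hc1 : Continuous fun t => (conj (k.eval (O.γ t)) * (O.R t * nu t)) •
        opB O A (ir O A z0 (rn n) t) := continuous_GG O hci' hk
    rw [← smul_sub, ← intervalIntegral.integral_sub (hc1.intervalIntegrable _ _)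
      ((continuous_GG O hS hk).intervalIntegrable _ _)]
    have h2 := norm_int_le O (fun t => (conj (k.eval (O.γ t)) * (O.R t * nu t)) •
        opB O A (ir O A z0 (rn n) t) - (conj (k.eval (O.γ t)) * (O.R t * nu t)) • S t)
      (C := Ck * ((1 - rn n) * (‖A - z0 • (1 : H →L[ℂ] H)‖ / d ^ 2))) (fun t => by
        have h3 := opB_ir O hd hA hz0 hr0 hr1 t (hSi t)
        rw [← smul_sub, norm_smul, norm_mul, norm_mul, RCLike.norm_conj, norm_nu, mul_one,
          Complex.norm_real, Real.norm_of_nonneg (R_pos O t).le]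
        have h4 := (R_pos O t).le
        calc ‖k.eval (O.γ t)‖ * O.R t * ‖opB O A (ir O A z0 (rn n) t) - S t‖ ≤
            Ck * O.R t * ((1 - rn n) * (‖A - z0 • (1 : H →L[ℂ] H)‖ / d ^ 2)) :=
              mul_le_mul (mul_le_mul_of_nonneg_right (hCk t) h4) h3 (norm_nonneg _)
                (mul_nonneg hCk0 h4)
          _ = _ := by ring)
    refine h2.trans ?_
    have h5 : 1 - rn n ≤ √(1 - rn n) := by
      have h6 : 1 - rn n ≤ 1 := by linarith
      exact Real.le_sqrt_of_sq_le (by nlinarith)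
    have h7 : Ck * ((1 - rn n) * (‖A - z0 • (1 : H →L[ℂ] H)‖ / d ^ 2)) * RT O =
        C₂ * (1 - rn n) := by rw [hC₂]; ring
    rw [h7]
    exact mul_le_mul_of_nonneg_left h5 hC₂0
  have hev : ∀ n s, ‖evB O A (Ir O A z0 k (rn n)) s - O.T (fun t => k.eval (O.γ t)) s‖ ≤
      C₁ * √(1 - rn n) := by
    intro n s
    rw [evB_Ir O hd hA hz0 k (rn_nonneg n) (rn_lt n)]
    exact hC₁ _ (rn_nonneg n) (rn_lt n) s
  have hanti : ∀ N n : ℕ, N ≤ n → √(1 - rn n) ≤ √(1 - rn N) := by
    intro N n hNn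
    refine Real.sqrt_le_sqrt ?_
    unfold rn
    have h1 : (N : ℝ) ≤ n := by exact_mod_cast hNn
    have h2 : 1 / ((n : ℝ) + 1) ≤ 1 / ((N : ℝ) + 1) :=
      one_div_le_one_div_of_le (by positivity) (by linarith)
    linarith
  have hlim : Tendsto (fun n => √(1 - rn n)) atTop (𝓝 0) := by
    have h1 : Tendsto (fun n : ℕ => 1 / ((n : ℝ) + 1)) atTop (𝓝 0) :=
      tendsto_one_div_add_atTop_nhds_zero_nat
    have h2 := (Real.continuous_sqrt.tendsto 0).comp h1
    rw [Real.sqrt_zero] at h2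
    refine h2.congr fun n => ?_
    unfold rn
    simp only [Function.comp_apply]
    congr 1
    ring
  have hcau : CauchySeq fun n => Ir O A z0 k (rn n) := by
    refine cauchySeq_of_le_tendsto_0 (fun N => 2 * (C₁ + C₂) * √(1 - rn N)) ?_ ?_
    · intro n m N hn hm
      rw [dist_eq_norm]
      have h1 := hanti N n hn
      have h2 := hanti N m hm
      have hs0 : 0 ≤ √(1 - rn N) := Real.sqrt_nonneg _
      refine norm_le_of O A _ (by positivity) ?_ fun s => ?_
      · rw [map_sub]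
        have h3 := hop n
        have h4 := hop m
        have h5 := norm_sub_le_norm_sub_add_norm_sub (opB O A (Ir O A z0 k (rn n)))
          (GG O S (fun t => k.eval (O.γ t))) (opB O A (Ir O A z0 k (rn m)))
        rw [norm_sub_rev (GG O S (fun t => k.eval (O.γ t)))] at h5
        have h6 := mul_le_mul_of_nonneg_left h1 hC₂0
        have h7 := mul_le_mul_of_nonneg_left h2 hC₂0
        have h8 : 0 ≤ C₁ * √(1 - rn N) := by positivity
        linarith
      · rw [map_sub, Pi.sub_apply]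
        have h3 := hev n s
        have h4 := hev m s
        have h5 := norm_sub_le_norm_sub_add_norm_sub (evB O A (Ir O A z0 k (rn n)) s)
          (O.T (fun t => k.eval (O.γ t)) s) (evB O A (Ir O A z0 k (rn m)) s)
        rw [norm_sub_rev (O.T (fun t => k.eval (O.γ t)) s)] at h5
        have h6 := mul_le_mul_of_nonneg_left h1 hC₁0
        have h7 := mul_le_mul_of_nonneg_left h2 hC₁0
        have h8 : 0 ≤ C₂ * √(1 - rn N) := by positivity
        linarith
    · have := hlim.const_mul (2 * (C₁ + C₂))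
      rwa [mul_zero] at this
  obtain ⟨L, hL⟩ := cauchySeq_tendsto_of_complete hcau
  refine ⟨L, ?_, fun s => ?_⟩
  · have h1 : Tendsto (fun n => opB O A (Ir O A z0 k (rn n))) atTop (𝓝 (opB O A L)) :=
      ((opL O A).continuous.tendsto L).comp hL
    have h2 : Tendsto (fun n => opB O A (Ir O A z0 k (rn n))) atTop
        (𝓝 (GG O S (fun t => k.eval (O.γ t)))) := by
      refine tendsto_iff_norm_sub_tendsto_zero.mpr ?_
      refine squeeze_zero (fun _ => norm_nonneg _) hop ?_
      have := hlim.const_mul C₂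
      rwa [mul_zero] at this
    exact tendsto_nhds_unique h1 h2
  · have h1 : Tendsto (fun n => evB O A (Ir O A z0 k (rn n)) s) atTop (𝓝 (evB O A L s)) :=
      ((evL O A s).continuous.tendsto L).comp hL
    have h2 : Tendsto (fun n => evB O A (Ir O A z0 k (rn n)) s) atTop
        (𝓝 (O.T (fun t => k.eval (O.γ t)) s)) := by
      refine tendsto_iff_norm_sub_tendsto_zero.mpr ?_
      refine squeeze_zero (fun _ => norm_nonneg _) (fun n => hev n s) ?_
      have := hlim.const_mul C₁
      rwa [mul_zero] at this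
    exact tendsto_nhds_unique h1 h2

/-- the transform for every element of the algebra -/
theorem exists_T {A : H →L[ℂ] H} {d : ℝ} (hd : 0 < d) (hA : O.Inside A d) {z0 : ℂ}
    (hz0 : ∀ t, sp t z0 ≤ O.h t - d) {S : ℝ → H →L[ℂ] H} (hS : Continuous S)
    (hSi : ∀ t, (O.γ t • (1 : H →L[ℂ] H) - A) * S t = 1) (b : BB O A) :
    ∃ L : BB O A, opB O A L = GG O S (evB O A b) ∧
      ∀ s, evB O A L s = O.T (evB O A b) s := by
  have hSn : ∀ t, ‖S t‖ ≤ 1 / d := fun t => norm_inv_le O hd hA t (hSi t)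
  have hRT := RT_nonneg O
  have hP : ∀ n : ℕ, ∃ P : ℂ[X], ‖b - aeval (XB O A) P‖ ≤ 1 / ((n : ℝ) + 1) := fun n =>
    dense_poly O A b (by positivity)
  choose P hP using hP
  have hL : ∀ n : ℕ, ∃ L : BB O A, opB O A L = GG O S (fun t => (P n).eval (O.γ t)) ∧
      ∀ s, evB O A L s = O.T (fun t => (P n).eval (O.γ t)) s := fun n =>
    exists_T_poly O hd hA hz0 hS hSi (P n)
  choose L hL1 hL2 using hL
  have hcP : ∀ n, Continuous fun t => (P n).eval (O.γ t) := fun n =>
    (Polynomial.continuous (P n)).comp (continuous_γ O)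
  have hcb := continuous_evB O A b
  have hbP : ∀ n t, ‖evB O A b t - (P n).eval (O.γ t)‖ ≤ 1 / ((n : ℝ) + 1) := by
    intro n t
    have h1 := (norm_evB_le O A (b - aeval (XB O A) (P n)) t).trans (hP n)
    rwa [map_sub, Pi.sub_apply, evB_aeval] at h1
  have hbb : ∀ t, ‖evB O A b t‖ ≤ ‖b‖ := norm_evB_le O A b
  have hPb : ∀ n t, ‖(P n).eval (O.γ t)‖ ≤ ‖b‖ + 1 := by
    intro n t
    have h1 := hbP n t
    have h2 : (1 : ℝ) / ((n : ℝ) + 1) ≤ 1 := by
      rw [div_le_one (by positivity)]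
      have : (0 : ℝ) ≤ n := n.cast_nonneg
      linarith
    have h3 := hbb t
    have h4 := norm_sub_norm_le ((P n).eval (O.γ t)) (evB O A b t)
    rw [norm_sub_rev] at h4
    linarith
  have hop : ∀ n, ‖opB O A (L n) - GG O S (evB O A b)‖ ≤
      (1 / d * RT O) * (1 / ((n : ℝ) + 1)) := by
    intro n
    rw [hL1]
    have h1 := norm_GG_sub_le O hS hSn (hcP n) hcb (C := 1 / ((n : ℝ) + 1)) fun t => by
      rw [norm_sub_rev]
      exact hbP n t
    refine h1.trans (le_of_eq ?_)
    ring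
  have hev : ∀ n s, ‖evB O A (L n) s - O.T (evB O A b) s‖ ≤ 1 / ((n : ℝ) + 1) := by
    intro n s
    rw [hL2, T_sub O (hcP n) hcb (hPb n) hbb s]
    refine norm_T_le O ((hcP n).sub hcb) (fun t => ?_) s
    show ‖(P n).eval (O.γ t) - evB O A b t‖ ≤ 1 / ((n : ℝ) + 1)
    rw [norm_sub_rev]
    exact hbP n t
  have hlim : Tendsto (fun n : ℕ => 1 / ((n : ℝ) + 1)) atTop (𝓝 0) :=
    tendsto_one_div_add_atTop_nhds_zero_nat
  have hanti : ∀ N n : ℕ, N ≤ n → 1 / ((n : ℝ) + 1) ≤ 1 / ((N : ℝ) + 1) := by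
    intro N n hNn
    have h1 : (N : ℝ) ≤ n := by exact_mod_cast hNn
    exact one_div_le_one_div_of_le (by positivity) (by linarith)
  have hc0 : 0 ≤ 1 / d * RT O := by positivity
  have hcau : CauchySeq L := by
    refine cauchySeq_of_le_tendsto_0 (fun N : ℕ => 2 * (1 / d * RT O + 1) * (1 / ((N : ℝ) + 1))) ?_ ?_
    · intro n m N hn hm
      rw [dist_eq_norm]
      have h1 := hanti N n hn
      have h2 := hanti N m hm
      have hs0 : 0 ≤ 1 / ((N : ℝ) + 1) := by positivity
      refine norm_le_of O A _ (by positivity) ?_ fun s => ?_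
      · rw [map_sub]
        have h3 := hop n
        have h4 := hop m
        have h5 := norm_sub_le_norm_sub_add_norm_sub (opB O A (L n))
          (GG O S (evB O A b)) (opB O A (L m))
        rw [norm_sub_rev (GG O S (evB O A b))] at h5
        have h6 := mul_le_mul_of_nonneg_left h1 hc0
        have h7 := mul_le_mul_of_nonneg_left h2 hc0
        linarith
      · rw [map_sub, Pi.sub_apply]
        have h3 := hev n s
        have h4 := hev m s
        have h5 := norm_sub_le_norm_sub_add_norm_sub (evB O A (L n) s)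
          (O.T (evB O A b) s) (evB O A (L m) s)
        rw [norm_sub_rev (O.T (evB O A b) s)] at h5
        have h8 : 0 ≤ (1 / d * RT O) * (1 / ((N : ℝ) + 1)) := by positivity
        linarith
    · have := hlim.const_mul (2 * (1 / d * RT O + 1))
      rwa [mul_zero] at this
  obtain ⟨L', hL'⟩ := cauchySeq_tendsto_of_complete hcau
  refine ⟨L', ?_, fun s => ?_⟩
  · have h1 : Tendsto (fun n => opB O A (L n)) atTop (𝓝 (opB O A L')) :=
      ((opL O A).continuous.tendsto L').comp hL'
    have h2 : Tendsto (fun n => opB O A (L n)) atTop (𝓝 (GG O S (evB O A b))) := by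
      refine tendsto_iff_norm_sub_tendsto_zero.mpr ?_
      refine squeeze_zero (fun _ => norm_nonneg _) hop ?_
      have := hlim.const_mul (1 / d * RT O)
      rwa [mul_zero] at this
    exact tendsto_nhds_unique h1 h2
  · have h1 : Tendsto (fun n => evB O A (L n) s) atTop (𝓝 (evB O A L' s)) :=
      ((evL O A s).continuous.tendsto L').comp hL'
    have h2 : Tendsto (fun n => evB O A (L n) s) atTop (𝓝 (O.T (evB O A b) s)) := by
      refine tendsto_iff_norm_sub_tendsto_zero.mpr ?_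
      exact squeeze_zero (fun _ => norm_nonneg _) (fun n => hev n s) hlim
    exact tendsto_nhds_unique h1 h2

end Mk

end P123
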