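import Vale.Agent.P123.Ext
import Vale.Agent.P123.Contra
import Vale.Agent.P123.Geo

/-!
# P123, module Select : choosing a good chord along the chain
-/

namespace P123

open MeasureTheory Complex Polynomial Set
open scoped Real ComplexConjugate

variable {O : Dom}

theorem re_T (s : ℝ) {G : ℝ → ℂ} (hG : Continuous G) :
    (O.T G s).re = ∫ t in (0 : ℝ)..2 * π, O.D (O.γ s) t * (G t).re := by
  have hcG : Continuous fun t => conj (G t) := Complex.continuous_conj.comp hG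
  have h1 := Complex.reCLM.intervalIntegral_comp_comm (intble_Dmul (O := O) s hcG)
  simp only [Complex.reCLM_apply] at h1
  unfold Dom.T
  rw [← h1]
  refine intervalIntegral.integral_congr fun t _ => ?_
  show ((O.D (O.γ s) t : ℂ) * conj (G t)).re = O.D (O.γ s) t * (G t).re
  rw [Complex.re_ofReal_mul, Complex.conj_re]

theorem T_per (u : ℝ → ℂ) (s : ℝ) : O.T u (s + 2 * π) = O.T u s := by
  unfold Dom.T
  rw [γ_per]

theorem select {s : ℝ} {Y : ℝ → ℝ} (hY : Continuous Y) (hY0 : ∀ t, 0 ≤ Y t)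
    (hYp : ∀ t, Y (t + 2 * π) = Y t) {x c : ℝ}
    (hx : ∫ t in (0 : ℝ)..2 * π, O.D (O.γ s) t * Y t ≤ x) (hc : 12 * x < c) {t₁ t₂ : ℝ}
    (h1 : s ≤ t₁) (h2 : t₁ ≤ t₂) (h3 : t₂ ≤ s + 2 * π)
    (h4 : 1 / 12 ≤ ∫ t in t₁..t₂, O.D (O.γ s) t) : ∃ t ∈ Icc t₁ t₂, Y t ≤ c := by
  by_contra hcon
  push Not at hcon
  have hD0 := D_nonneg O (γ_mem O s)
  have hint : ∀ a b, IntervalIntegrable (fun t => O.D (O.γ s) t * Y t) volume a b := fun a b =>
    (intble_D O s a b).mul_continuousOn hY.continuousOn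
  have hx0 : 0 ≤ x := by
    refine le_trans (intervalIntegral.integral_nonneg (by positivity) fun t _ => ?_) hx
    exact mul_nonneg (hD0 t) (hY0 t)
  have hper : Function.Periodic (fun t => O.D (O.γ s) t * Y t) (2 * π) := by
    intro t
    simp only [D_per, hYp]
  have hshift := hper.intervalIntegral_add_eq 0 s
  rw [zero_add] at hshift
  have e1 : c * (1 / 12) ≤ ∫ t in t₁..t₂, O.D (O.γ s) t * Y t := by
    have h5 : ∫ t in t₁..t₂, O.D (O.γ s) t * c ≤ ∫ t in t₁..t₂, O.D (O.γ s) t * Y t := by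
      refine intervalIntegral.integral_mono_on h2 ((intble_D O s _ _).mul_const _) (hint _ _)
        fun t ht => ?_
      exact mul_le_mul_of_nonneg_left (hcon t ht).le (hD0 t)
    rw [intervalIntegral.integral_mul_const, mul_comm] at h5
    refine le_trans ?_ h5
    exact mul_le_mul_of_nonneg_left h4 (by linarith)
  have e2 : ∫ t in t₁..t₂, O.D (O.γ s) t * Y t ≤ ∫ t in s..s + 2 * π, O.D (O.γ s) t * Y t := by
    refine intervalIntegral.integral_mono_interval h1 h2 h3 ?_ (hint _ _)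
    exact Filter.Eventually.of_forall fun t => mul_nonneg (hD0 t) (hY0 t)
  rw [← hshift] at e2
  linarith

/-- mean square of `f + f(a)` seen from `a` -/
theorem sq_le {f : ℝ → ℂ} (hf : Continuous f) (hf1 : ∀ t, ‖f t‖ ≤ 1) (s : ℝ) :
    ∫ t in (0 : ℝ)..2 * π, O.D (O.γ s) t * ‖f t + f s‖ ^ 2 ≤ 2 + 2 * (O.T f s * f s).re := by
  have hD0 := D_nonneg O (γ_mem O s)
  have hcf : Continuous fun t => conj (f t) := Complex.continuous_conj.comp hf
  have e1 : ∫ t in (0 : ℝ)..2 * π, O.D (O.γ s) t * ‖f t + f s‖ ^ 2 ≤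
      ∫ t in (0 : ℝ)..2 * π, O.D (O.γ s) t * (2 + 2 * (f s * conj (f t)).re) := by
    refine intervalIntegral.integral_mono_on (by positivity) (intble_Dmul_real s (by fun_prop))
      (intble_Dmul_real s (by fun_prop)) fun t _ => ?_
    apply mul_le_mul_of_nonneg_left _ (hD0 t)
    rw [add_comm, norm_add_sq']
    have h1 : ‖f s‖ ^ 2 ≤ 1 := pow_le_one₀ (norm_nonneg _) (hf1 s)
    have h2 : ‖f t‖ ^ 2 ≤ 1 := pow_le_one₀ (norm_nonneg _) (hf1 t)
    linarith
  refine e1.trans (le_of_eq ?_)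
  have e2 : ∀ t, O.D (O.γ s) t * (2 + 2 * (f s * conj (f t)).re) =
      O.D (O.γ s) t * 2 + 2 * (f s * ((O.D (O.γ s) t : ℂ) * conj (f t))).re := by
    intro t
    have : f s * ((O.D (O.γ s) t : ℂ) * conj (f t)) =
      (O.D (O.γ s) t : ℂ) * (f s * conj (f t)) := by ring
    rw [this, Complex.re_ofReal_mul]
    ring
  simp_rw [e2]
  have h8 := (intble_Dmul (O := O) s hcf).const_mul (f s)
  rw [intervalIntegral.integral_add, intervalIntegral.integral_mul_const, int_D_γ,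
    intervalIntegral.integral_const_mul]
  · have h9 := Complex.reCLM.intervalIntegral_comp_comm h8
    simp only [Complex.reCLM_apply] at h9
    rw [h9, intervalIntegral.integral_const_mul]
    have : f s * ∫ t in (0 : ℝ)..2 * π, (O.D (O.γ s) t : ℂ) * conj (f t) = O.T f s * f s := by
      unfold Dom.T; ring
    rw [this]
    ring
  · exact (intble_D O s 0 (2 * π)).mul_const _
  · refine IntervalIntegrable.const_mul ?_ _
    exact ⟨h8.1.re, h8.2.re⟩

theorem no_chain (O : Dom) (P : ℂ[X]) (h : ∀ t, ‖P.eval (O.γ t)‖ ≤ 1) {G G₁ G₂ : ℝ → ℂ}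
    (hG : Continuous G) (hG₁ : Continuous G₁) (_hG₂ : Continuous G₂)
    (hGe : ∀ t, G t = O.T (fun t => P.eval (O.γ t)) t * P.eval (O.γ t))
    (hG₁e : ∀ t, G₁ t = O.T G t) (hG₂e : ∀ t, G₂ t = O.T G₁ t) {η : ℝ}
    (hη : η ≤ 1 / 10 ^ 38) {s : ℝ} (h1 : (G₁ s).re ≤ -1 + η) (h2 : (G₂ s).re ≤ -1 + η) :
    False := by
  set f : ℝ → ℂ := fun t => P.eval (O.γ t) with hf
  have hcf : Continuous f := P.continuous.comp (continuous_γ O)
  have hfp : ∀ t, f (t + 2 * π) = f t := by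
    intro t; simp only [hf, γ_per]
  have hG1 : ∀ t, ‖G t‖ ≤ 1 := by
    intro t
    rw [hGe, norm_mul]
    exact mul_le_one₀ (norm_T_le h t) (norm_nonneg _) (h t)
  have hG₁1 : ∀ t, ‖G₁ t‖ ≤ 1 := by
    intro t
    rw [hG₁e]
    exact norm_T_le hG1 t
  have hGp : ∀ t, G (t + 2 * π) = G t := by
    intro t
    rw [hGe, hGe, T_per, γ_per]
  have hG₁p : ∀ t, G₁ (t + 2 * π) = G₁ t := by
    intro t
    rw [hG₁e, hG₁e, T_per]
  have hre : ∀ z : ℂ, ‖z‖ ≤ 1 → 0 ≤ 1 + z.re := by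
    intro z hz
    have := (abs_le.mp ((Complex.abs_re_le_norm z).trans hz)).1
    linarith
  have hcG : Continuous fun t => (G t).re := Complex.continuous_re.comp hG
  have hcG₁ : Continuous fun t => (G₁ t).re := Complex.continuous_re.comp hG₁
  set η' : ℝ := 1 / 10 ^ 38 with hη'
  have hη'0 : 0 < η' := by positivity
  -- first step
  obtain ⟨t₁, t₂, a1, a2, a3, a4, hgood⟩ := exists_good O s
  have i1 : ∫ t in (0 : ℝ)..2 * π, O.D (O.γ s) t * ((1 + (G t).re) + (1 + (G₁ t).re)) ≤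
      2 * η' := by
    have e1 : ∀ t, O.D (O.γ s) t * ((1 + (G t).re) + (1 + (G₁ t).re)) =
        O.D (O.γ s) t * 2 + (O.D (O.γ s) t * (G t).re + O.D (O.γ s) t * (G₁ t).re) := by
      intro t; ring
    simp_rw [e1]
    rw [intervalIntegral.integral_add, intervalIntegral.integral_mul_const, int_D_γ,
      intervalIntegral.integral_add, ← re_T s hG, ← re_T s hG₁, ← hG₁e, ← hG₂e]
    · linarith
    · exact intble_Dmul_real s hcG
    · exact intble_Dmul_real s hcG₁
    · exact (intble_D O s 0 (2 * π)).mul_const _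
    · exact (intble_Dmul_real s hcG).add (intble_Dmul_real s hcG₁)
  obtain ⟨a, ha, haY⟩ := select (O := O) (s := s)
    (Y := fun t => (1 + (G t).re) + (1 + (G₁ t).re)) (by fun_prop)
    (fun t => add_nonneg (hre _ (hG1 t)) (hre _ (hG₁1 t)))
    (fun t => by simp only [hGp, hG₁p]) i1 (c := 25 * η') (by linarith) a1 a2 a3 a4
  have haG : 1 + (G a).re ≤ 25 * η' := by linarith [hre _ (hG₁1 a)]
  have haG₁ : 1 + (G₁ a).re ≤ 25 * η' := by linarith [hre _ (hG1 a)]
  -- second step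
  obtain ⟨t₃, t₄, b1, b2, b3, b4, hgood2⟩ := hgood a ha
  have hsq := sq_le (O := O) hcf h a
  have hsq2 : (O.T f a * f a).re = (G a).re := by rw [hGe]
  rw [hsq2] at hsq
  have i2 : ∫ t in (0 : ℝ)..2 * π, O.D (O.γ a) t * (‖f t + f a‖ ^ 2 + (1 + (G t).re)) ≤
      75 * η' := by
    have e1 : ∀ t, O.D (O.γ a) t * (‖f t + f a‖ ^ 2 + (1 + (G t).re)) =
        O.D (O.γ a) t * ‖f t + f a‖ ^ 2 + (O.D (O.γ a) t * 1 + O.D (O.γ a) t * (G t).re) := by
      intro t; ring
    simp_rw [e1]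
    rw [intervalIntegral.integral_add, intervalIntegral.integral_add,
      intervalIntegral.integral_mul_const, int_D_γ, ← re_T a hG, ← hG₁e]
    · linarith
    · exact (intble_D O a 0 (2 * π)).mul_const _
    · exact intble_Dmul_real a hcG
    · exact intble_Dmul_real a (by fun_prop)
    · exact ((intble_D O a 0 (2 * π)).mul_const _).add (intble_Dmul_real a hcG)
  obtain ⟨b, hb, hbY⟩ := select (O := O) (s := a)
    (Y := fun t => ‖f t + f a‖ ^ 2 + (1 + (G t).re)) (by fun_prop)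
    (fun t => add_nonneg (sq_nonneg _) (hre _ (hG1 t)))
    (fun t => by simp only [hGp, hfp]) i2 (c := 1000 * η') (by linarith) b1 b2 b3 b4
  have hbG : 1 + (G b).re ≤ 1000 * η' := by
    have := sq_nonneg ‖f b + f a‖
    linarith
  have hbf : ‖f b + f a‖ ^ 2 ≤ 1000 * η' := by linarith [hre _ (hG1 b)]
  have hsqb := sq_le (O := O) hcf h b
  have hsqb2 : (O.T f b * f b).re = (G b).re := by rw [hGe]
  rw [hsqb2] at hsqb
  obtain ⟨e, he⟩ : ∃ e : ℝ, e = 1 / 10 ^ 34 := ⟨_, rfl⟩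
  have hnum : 2000 * η' ≤ e := by
    rw [hη', he]; norm_num
  clear_value η'
  refine good_contra O P h (hgood2 b hb) (e := e) he.le ?_ ?_ ?_ ?_
  · have h5 : -(G a).re ≤ ‖f a‖ := by
      have h6 : ‖G a‖ ≤ ‖f a‖ := by
        rw [hGe, norm_mul]
        exact mul_le_of_le_one_left (norm_nonneg _) (norm_T_le h a)
      have h7 := (abs_le.mp (Complex.abs_re_le_norm (G a))).1
      linarith
    change 1 - e ≤ ‖f a‖
    linarith
  · rw [add_comm]
    change ‖f b + f a‖ ^ 2 ≤ _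
    linarith
  · change ∫ t in (0 : ℝ)..2 * π, O.D (O.γ a) t * ‖f t + f a‖ ^ 2 ≤ _
    linarith
  · change ∫ t in (0 : ℝ)..2 * π, O.D (O.γ b) t * ‖f t + f b‖ ^ 2 ≤ _
    linarith

end P123
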