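import Vale.Agent.P123.Defs

/-!
# P123 : skeleton (statements of the modules, proofs replaced by sorry).
Each module goes into its own file, in namespace `P123`, with exactly these names and statements.
-/

namespace P123.Skel

open MeasureTheory Complex Polynomial Set
open scoped Real ComplexConjugate

universe u

/-! ## Module Curve (file Curve.lean) -/

section Curve

variable (O : Dom)

theorem sp_eq (t : ℝ) (z : ℂ) : sp t z = (conj (nu t) * z).re := sorry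

theorem norm_nu (t : ℝ) : ‖nu t‖ = 1 := sorry

theorem nu_per (t : ℝ) : nu (t + 2 * π) = nu t := sorry

theorem hasDerivAt_nu (t : ℝ) : HasDerivAt nu (I * nu t) t := sorry

theorem R_pos (t : ℝ) : 0 < O.R t := sorry

theorem continuous_R : Continuous O.R := sorry

theorem R_per (t : ℝ) : O.R (t + 2 * π) = O.R t := sorry

theorem γ_per (t : ℝ) : O.γ (t + 2 * π) = O.γ t := sorry

theorem hasDerivAt_γ (t : ℝ) : HasDerivAt O.γ (O.R t * I * nu t) t := sorry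

theorem sp_γ_self (t : ℝ) : sp t (O.γ t) = O.h t := sorry

theorem sp_γ_lt {s t : ℝ} (h1 : t < s) (h2 : s < t + 2 * π) : sp t (O.γ s) < O.h t := sorry

theorem γ_mem (s : ℝ) : O.γ s ∈ O.cl := sorry

theorem convex_cl : Convex ℝ O.cl := sorry

theorem D_eq (z : ℂ) (t : ℝ) :
    O.D z t = O.R t / π * ((O.h t - sp t z) / ‖O.γ t - z‖ ^ 2) := sorry

theorem D_nonneg {z : ℂ} (hz : z ∈ O.cl) (t : ℝ) : 0 ≤ O.D z t := sorry

theorem D_per (z : ℂ) (t : ℝ) : O.D z (t + 2 * π) = O.D z t := sorry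

theorem winding {z : ℂ} (hz : z ∈ O.op) :
    ∫ t in (0 : ℝ)..2 * π, (O.R t * I * nu t) / (O.γ t - z) = 2 * π * I := sorry

theorem int_D_op {z : ℂ} (hz : z ∈ O.op) : ∫ t in (0 : ℝ)..2 * π, O.D z t = 2 := sorry

/-- closed curve: the integral of a polynomial vanishes -/
theorem int_poly (P : ℂ[X]) :
    ∫ t in (0 : ℝ)..2 * π, P.eval (O.γ t) * (O.R t * I * nu t) = 0 := sorry

theorem max_mod (P : ℂ[X]) {C : ℝ} (h : ∀ t, ‖P.eval (O.γ t)‖ ≤ C) {z : ℂ} (hz : z ∈ O.cl) :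
    ‖P.eval z‖ ≤ C := sorry

end Curve

/-! ## Module Angle (file Angle.lean) -/

/-- `ang s t` is the angle at `γ s` between the tangent and the chord to `γ t` -/
theorem exists_angle (O : Dom) : ∃ ang : ℝ → ℝ → ℝ, ∀ s : ℝ,
    ContinuousOn (ang s) (Icc s (s + 2 * π)) ∧ StrictMonoOn (ang s) (Icc s (s + 2 * π)) ∧
    ang s s = 0 ∧ ang s (s + 2 * π) = π ∧
    (∀ t₁ t₂, s ≤ t₁ → t₁ ≤ t₂ → t₂ ≤ s + 2 * π →
      IntervalIntegrable (O.D (O.γ s)) volume t₁ t₂ ∧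
      ∫ t in t₁..t₂, O.D (O.γ s) t = (ang s t₂ - ang s t₁) / π) ∧
    ∀ t ∈ Ioo s (s + 2 * π),
      O.γ t - O.γ s = ‖O.γ t - O.γ s‖ * (I * nu s) * Complex.exp (ang s t * I) := sorry

theorem intble_D (O : Dom) (s a b : ℝ) : IntervalIntegrable (O.D (O.γ s)) volume a b := sorry

theorem int_D_γ (O : Dom) (s : ℝ) : ∫ t in (0 : ℝ)..2 * π, O.D (O.γ s) t = 1 := sorry

/-! ## Module Res (file Res.lean) : resolvent and Cauchy formula -/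

/-- `γ t - A = ρ e^{it} (1 - E)` with `‖E‖ < 1` uniformly -/
theorem exists_rho (O : Dom) {H : Type u} [NormedAddCommGroup H] [InnerProductSpace ℂ H]
    [CompleteSpace H] (A : H →L[ℂ] H) {d : ℝ} (hd : 0 < d) (hA : O.Inside A d) :
    ∃ ρ₀ : ℝ, 0 < ρ₀ ∧ ∀ ρ : ℝ, ρ₀ ≤ ρ → ∃ q : ℝ, 0 ≤ q ∧ q < ρ ∧
      ∀ t, ‖A - (O.γ t - ρ * nu t) • (1 : H →L[ℂ] H)‖ ≤ q := sorry

theorem exists_res (O : Dom) {H : Type u} [NormedAddCommGroup H] [InnerProductSpace ℂ H]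
    [CompleteSpace H] (A : H →L[ℂ] H) {d : ℝ} (hd : 0 < d) (hA : O.Inside A d) :
    ∃ S : ℝ → H →L[ℂ] H, Continuous S ∧
      (∀ t, S t * (O.γ t • 1 - A) = 1 ∧ (O.γ t • 1 - A) * S t = 1) ∧
      (∀ t x, 0 ≤ (inner ℂ x (nu t • S t x)).re) ∧
      ∀ P : ℂ[X], ∫ t in (0 : ℝ)..2 * π, (P.eval (O.γ t) * (O.R t * I * nu t)) • S t =
        (2 * π * I) • aeval A P := sorry

/-! ## Module MkSys (file MkSys.lean) -/

theorem exists_sys (O : Dom) {H : Type u} [NormedAddCommGroup H] [InnerProductSpace ℂ H]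
    [CompleteSpace H] [Nontrivial H] (A : H →L[ℂ] H) {d : ℝ} (hd : 0 < d)
    (hA : O.Inside A d) : Nonempty (Sys O H A) := sorry

/-- maximum principle for the double layer potential, from the scalar system -/
theorem max_T (O : Dom) (P : ℂ[X]) (h : ∀ t, ‖P.eval (O.γ t)‖ ≤ 1) {z : ℂ} (hz : z ∈ O.op) :
    ‖(∫ t in (0 : ℝ)..2 * π, (O.D z t : ℂ) * P.eval (O.γ t)) - P.eval z‖ ≤ 1 := sorry

/-! ## Module Ext (file Ext.lean) : near-extremal functions -/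

theorem exists_chain {O : Dom} {H : Type u} [NormedAddCommGroup H] [InnerProductSpace ℂ H]
    [CompleteSpace H] [Nontrivial H] {A : H →L[ℂ] H} (S : Sys O H A) {δ : ℝ} (hδ : 0 < δ)
    (hδ1 : δ ≤ 1 / 100) (hK : 1 + √2 - δ ≤ S.K) :
    ∃ P : ℂ[X], (∀ t, ‖P.eval (O.γ t)‖ ≤ 1) ∧ ∃ G G₁ G₂ : ℝ → ℂ,
      Continuous G ∧ Continuous G₁ ∧ Continuous G₂ ∧
      (∀ t, G t = O.T (fun t => P.eval (O.γ t)) t * P.eval (O.γ t)) ∧
      (∀ t, G₁ t = O.T G t) ∧ (∀ t, G₂ t = O.T G₁ t) ∧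
      ∃ s, (G₁ s).re ≤ -1 + 100 * √δ ∧ (G₂ s).re ≤ -1 + 100 * √δ := sorry

/-! ## Module Geo (file Geo.lean) : good chords -/

theorem exists_good (O : Dom) (s : ℝ) : ∃ t₁ t₂ : ℝ, s ≤ t₁ ∧ t₁ ≤ t₂ ∧ t₂ ≤ s + 2 * π ∧
    1 / 12 ≤ ∫ t in t₁..t₂, O.D (O.γ s) t ∧ ∀ t ∈ Icc t₁ t₂, ∃ t₃ t₄ : ℝ,
      t ≤ t₃ ∧ t₃ ≤ t₄ ∧ t₄ ≤ t + 2 * π ∧ 1 / 12 ≤ ∫ t' in t₃..t₄, O.D (O.γ t) t' ∧
      ∀ t' ∈ Icc t₃ t₄, Good O t t' := sorry

/-! ## Module Contra (file Contra.lean) -/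

/-- no polynomial is close to `-f(a)` as seen from `a` and close to `-f(b)` as seen from `b`,
with `f(a)` close to `-f(b)`, when the chord `[a, b]` is good -/
theorem good_contra (O : Dom) (P : ℂ[X]) (h : ∀ t, ‖P.eval (O.γ t)‖ ≤ 1) {a b : ℝ}
    (hab : Good O a b) {e : ℝ} (he : e ≤ 1 / 10 ^ 34)
    (h1 : 1 - e ≤ ‖P.eval (O.γ a)‖) (h2 : ‖P.eval (O.γ a) + P.eval (O.γ b)‖ ^ 2 ≤ e)
    (h3 : ∫ t in (0 : ℝ)..2 * π, O.D (O.γ a) t * ‖P.eval (O.γ t) + P.eval (O.γ a)‖ ^ 2 ≤ e)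
    (h4 : ∫ t in (0 : ℝ)..2 * π, O.D (O.γ b) t * ‖P.eval (O.γ t) + P.eval (O.γ b)‖ ^ 2 ≤ e) :
    False := sorry

/-! ## Module Select (file Select.lean) -/

theorem no_chain (O : Dom) (P : ℂ[X]) (h : ∀ t, ‖P.eval (O.γ t)‖ ≤ 1) {G G₁ G₂ : ℝ → ℂ}
    (hG : Continuous G) (hG₁ : Continuous G₁) (hG₂ : Continuous G₂)
    (hGe : ∀ t, G t = O.T (fun t => P.eval (O.γ t)) t * P.eval (O.γ t))
    (hG₁e : ∀ t, G₁ t = O.T G t) (hG₂e : ∀ t, G₂ t = O.T G₁ t) {η : ℝ}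
    (hη : η ≤ 1 / 10 ^ 38) {s : ℝ} (h1 : (G₁ s).re ≤ -1 + η) (h2 : (G₂ s).re ≤ -1 + η) :
    False := sorry

/-! ## Module Num (file Num.lean) -/

/-- Toeplitz-Hausdorff -/
theorem convex_numRange {H : Type u} [NormedAddCommGroup H] [InnerProductSpace ℂ H]
    (A : H →L[ℂ] H) : Convex ℝ (numRange A) := sorry

/-- smooth domains close to the numerical range -/
theorem exists_dom {H : Type u} [NormedAddCommGroup H] [InnerProductSpace ℂ H] [CompleteSpace H]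
    [Nontrivial H] (A : H →L[ℂ] H) {ε : ℝ} (hε : 0 < ε) :
    ∃ (O : Dom) (d : ℝ), 0 < d ∧ O.Inside A d ∧ ∀ z ∈ O.cl, ∃ w ∈ numRange A, ‖z - w‖ ≤ ε := sorry

/-! ## Module Main (file Main.lean) -/

theorem main {H : Type u} [NormedAddCommGroup H] [InnerProductSpace ℂ H] [CompleteSpace H]
    [Nontrivial H] (A : H →L[ℂ] H) (P : ℂ[X]) {C : ℝ} (hC : ∀ z ∈ numRange A, ‖P.eval z‖ ≤ C) :
    ‖aeval A P‖ ≤ (1 + √2 - 1 / 10 ^ 80) * C := sorry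

end P123.Skel
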